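import Vale.Agent.P132.Homog.EntireDense
import Vale.Agent.P132.Tomita.Modular

/-!
# P132, homogeneity module A: the inputs from Tomita's theorem
-/

noncomputable section

namespace P132

variable {H : Type*} [NormedAddCommGroup H] [InnerProductSpace ℂ H] [CompleteSpace H]

/-- Every standard vector has modular data. -/
theorem Homogeneity.hasModular : Homogeneity.HasModular H :=
  Homogeneity.hasModular_of_nonempty fun S => ⟨S.modular⟩

theorem Std.commTh_modular (S : Std H) : S.modular.CommTh := by
  intro b hb
  have e : Homogeneity.conjBy S.modular.Jc b = Vale.Agent.P132.Tomita.Jconj S.M S.Ω b :=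
    ContinuousLinearMap.ext fun v => rfl
  rw [e]
  exact S.cycSep.Jconj_mem hb

/-- Any modular data have the conjugation of Tomita's theorem, so `J M' J ⊆ M` for all of them. -/
theorem Modular.commTh {S : Std H} (D : Modular S) : D.CommTh := by
  have hF := S.modular.pair_singleton S.modular.entireDense
  have hJ : D.Jc = S.modular.Jc := ContinuousLinearMap.ext fun v =>
    D.J_eq_of_stdForm D.entireDense (S.modular.stdForm S.commTh_modular hF)
      (S.modular.subset_cone _ (Set.mem_singleton _)) v
  intro b hb
  rw [hJ]
  exact S.commTh_modular b hb

/-- The standard form of any standard vector. -/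
theorem Modular.stdForm_singleton {S : Std H} (D : Modular S) :
    Homogeneity.StdForm S.M D.Jc (D.cone {S.Ω}) :=
  D.stdForm D.commTh (D.pair_singleton D.entireDense)

end P132
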