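import Mathlib

/-!
# Plancherel for integrable, bounded, vector-valued functions on the line
-/

noncomputable section

namespace P132.Homogeneity

open MeasureTheory FourierTransform SchwartzMap Complex
open scoped InnerProductSpace ENNReal

variable {E : Type*} [NormedAddCommGroup E] [InnerProductSpace ℂ E] [CompleteSpace E]

/-- For `g` in `L¹ ∩ L²` the `L²` transform is given by the integral. -/
theorem fourierL2_coeFn (g : Lp (α := ℝ) E 2 volume) (hg : Integrable (g : ℝ → E)) :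
    ((𝓕 g : Lp (α := ℝ) E 2 volume) : ℝ → E) =ᵐ[volume] 𝓕 (g : ℝ → E) := by
  have hc : Continuous (𝓕 (g : ℝ → E)) :=
    VectorFourier.fourierIntegral_continuous Real.continuous_fourierChar
      (by exact continuous_inner) hg
  refine ae_eq_of_integral_contDiff_smul_eq
    ((Lp.memLp _).locallyIntegrable (by norm_num)) hc.locallyIntegrable ?_
  intro φ₀ hφ hφc
  set gc : ℝ → ℂ := fun x => (φ₀ x : ℂ) with hgc_def
  have hgcs : HasCompactSupport gc := hφc.comp_left Complex.ofReal_zero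
  have hgd : ContDiff ℝ (⊤ : ℕ∞) gc := Complex.ofRealCLM.contDiff.comp hφ
  set φ : 𝓢(ℝ, ℂ) := hgcs.toSchwartzMap hgd
  have h1 := congrArg (fun T : TemperedDistribution ℝ E => T φ)
    (Lp.fourier_toTemperedDistribution_eq (E := ℝ) (F := E) g)
  simp only [TemperedDistribution.fourier_apply, Lp.toTemperedDistribution_apply] at h1
  have h2 := VectorFourier.integral_fourierIntegral_smul_eq_flip (f := (φ : ℝ → ℂ))
    (g := (g : ℝ → E)) (L := innerₗ ℝ) (μ := volume) (ν := volume)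
    Real.continuous_fourierChar continuous_inner φ.integrable hg
  rw [flip_innerₗ] at h2
  calc ∫ x, φ₀ x • ((𝓕 g : Lp (α := ℝ) E 2 volume) : ℝ → E) x
      = ∫ x, φ x • ((𝓕 g : Lp (α := ℝ) E 2 volume) : ℝ → E) x := by congr 1
    _ = ∫ x, (𝓕 φ : 𝓢(ℝ, ℂ)) x • (g : ℝ → E) x := h1.symm
    _ = ∫ x, φ x • 𝓕 (g : ℝ → E) x := h2
    _ = ∫ x, φ₀ x • 𝓕 (g : ℝ → E) x := by congr 1

/-- The square of the norm of an `L²` vector as an integral. -/
theorem integral_norm_sq (g : Lp (α := ℝ) E 2 volume) :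
    Integrable (fun x => ‖(g : ℝ → E) x‖ ^ 2) ∧ ∫ x, ‖(g : ℝ → E) x‖ ^ 2 = ‖g‖ ^ 2 := by
  have h := L2.integrable_inner (𝕜 := ℂ) g g
  have e : ∀ x, ⟪(g : ℝ → E) x, (g : ℝ → E) x⟫_ℂ = ((‖(g : ℝ → E) x‖ ^ 2 : ℝ) : ℂ) := fun x => by
    rw [inner_self_eq_norm_sq_to_K]; norm_cast
  simp only [e] at h
  have h' : Integrable (fun x => ‖(g : ℝ → E) x‖ ^ 2) :=
    h.re.congr (Filter.Eventually.of_forall fun x => Complex.ofReal_re _)
  refine ⟨h', ?_⟩
  have h2 := L2.inner_def (𝕜 := ℂ) g g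
  simp only [e, inner_self_eq_norm_sq_to_K] at h2
  rw [integral_complex_ofReal] at h2
  exact Complex.ofReal_injective (h2.symm.trans (by norm_num))

/-- **Plancherel.** -/
theorem plancherel {g : ℝ → E} (hc : Continuous g) (hi : Integrable g) {B : ℝ}
    (hB : ∀ t, ‖g t‖ ≤ B) :
    Integrable (fun f => ‖𝓕 g f‖ ^ 2) ∧ ∫ f, ‖𝓕 g f‖ ^ 2 = ∫ t, ‖g t‖ ^ 2 := by
  have hm : MemLp g 2 volume := by
    rw [memLp_two_iff_integrable_sq_norm hc.aestronglyMeasurable]
    refine (hi.norm.const_mul B).mono' (hc.norm.pow 2).aestronglyMeasurable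
      (Filter.Eventually.of_forall fun t => ?_)
    rw [Real.norm_of_nonneg (sq_nonneg _), sq]
    exact mul_le_mul_of_nonneg_right (hB t) (norm_nonneg _)
  set G := hm.toLp g with hG
  have hGi : Integrable (G : ℝ → E) := hi.congr hm.coeFn_toLp.symm
  have e1 : 𝓕 (G : ℝ → E) = 𝓕 g := by
    funext f
    rw [Real.fourier_eq, Real.fourier_eq]
    refine integral_congr_ae ?_
    filter_upwards [hm.coeFn_toLp] with t ht
    rw [hG, ht]
  have e2 := fourierL2_coeFn G hGi
  rw [e1] at e2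
  obtain ⟨i1, i2⟩ := integral_norm_sq (𝓕 G)
  have e3 : (fun f => ‖((𝓕 G : Lp (α := ℝ) E 2 volume) : ℝ → E) f‖ ^ 2) =ᵐ[volume]
      fun f => ‖𝓕 g f‖ ^ 2 := by
    filter_upwards [e2] with f hf; rw [hf]
  refine ⟨i1.congr e3, ?_⟩
  rw [← integral_congr_ae e3, i2, Lp.norm_fourier_eq, ← (integral_norm_sq G).2]
  refine integral_congr_ae ?_
  filter_upwards [hm.coeFn_toLp] with t ht
  rw [hG, ht]

end P132.Homogeneity
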