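import Vale.Agent.P132.Homog.Narrow
import Vale.Agent.P132.Homog.Planch

/-!
# Existence of elements of narrow spectrum

By Plancherel every element has a nonzero band, and if a corner contains elements whose residual
for `Δ - e^{l₀}` is small, it contains a nonzero element of narrow spectrum with centre near `l₀`.
-/

noncomputable section

namespace P132

open Filter Topology Complex MeasureTheory ComplexConjugate FourierTransform
open scoped InnerProductSpace
open Homogeneity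

variable {H : Type*} [NormedAddCommGroup H] [InnerProductSpace ℂ H] [CompleteSpace H]
variable {S : Std H}

namespace Modular

variable (D : Modular S)

lemma norm_U_apply_le (t : ℝ) (v : H) : ‖D.U t v‖ ≤ ‖v‖ := (D.norm_U t v).le

lemma integrable_smul_U {g : ℝ → ℂ} (hg : Integrable g) (ξ : H) :
    Integrable fun t => g t • D.U t ξ :=
  (hg.norm.mul_const ‖ξ‖).mono' (hg.aestronglyMeasurable.smul (D.U_cont ξ).aestronglyMeasurable)
    (Eventually.of_forall fun t => by rw [norm_smul, D.norm_U])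

/-- `∫ g t U t ξ dt`. -/
def vavg (g : ℝ → ℂ) (ξ : H) : H := ∫ t, g t • D.U t ξ

lemma vavg_sub {g : ℝ → ℂ} (hg : Integrable g) (ξ η : H) :
    D.vavg g (ξ - η) = D.vavg g ξ - D.vavg g η := by
  rw [vavg, vavg, vavg, ← integral_sub (D.integrable_smul_U hg ξ) (D.integrable_smul_U hg η)]
  simp only [map_sub, smul_sub]

lemma vavg_smul (g : ℝ → ℂ) (c : ℂ) (ξ : H) : D.vavg g (c • ξ) = c • D.vavg g ξ := by
  rw [vavg, vavg, ← integral_smul]
  simp only [map_smul, smul_comm c]

lemma smear_apply_Ω {g : ℝ → ℂ} (hg : Integrable g) (x : H →L[ℂ] H) :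
    D.smear g x S.Ω = D.vavg g (x S.Ω) := by
  rw [D.smear_apply hg, vavg]
  simp only [D.σ_apply_Ω]

lemma J_vavg {g : ℝ → ℂ} (hg : Integrable g) (ξ : H) :
    D.J (D.vavg g ξ) = D.vavg (fun t => conj (g t)) (D.J ξ) := by
  set T : H →L[ℝ] H := AddMonoidHom.toRealLinearMap
    { toFun := fun v => D.J v, map_zero' := map_zero _, map_add' := map_add _ } D.J.continuous
  have h := T.integral_comp_comm (D.integrable_smul_U hg ξ)
  rw [vavg, vavg]
  refine h.symm.trans (integral_congr_ae (Eventually.of_forall fun t => ?_))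
  show D.J (g t • D.U t ξ) = conj (g t) • D.U t (D.J ξ)
  rw [map_smulₛₗ, D.J_U]

lemma inner_vavg {g : ℝ → ℂ} (hg : Integrable g) (u ξ : H) :
    ⟪u, D.vavg g ξ⟫_ℂ = ⟪D.vavg (fun t => conj (g (-t))) u, ξ⟫_ℂ := by
  have hg' : Integrable fun t => conj (g (-t)) :=
    hg.comp_neg.norm.mono' (Complex.continuous_conj.comp_aestronglyMeasurable
      hg.comp_neg.aestronglyMeasurable) (Eventually.of_forall fun t => le_of_eq (by simp))
  rw [vavg, vavg, ← integral_inner (D.integrable_smul_U hg ξ), ← inner_conj_symm _ ξ,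
    ← integral_inner (D.integrable_smul_U hg' u), ← integral_conj, ← integral_neg_eq_self]
  refine integral_congr_ae (Eventually.of_forall fun t => ?_)
  simp only [inner_smul_right, map_mul, Complex.conj_conj, inner_conj_symm]
  rw [← D.inner_U t u, ← D.U_add_apply, add_neg_cancel, D.U_zero, one_apply_eq_self]

/-- The squares of the bands have constant integral. -/
theorem plancherel_band {d : ℝ} (hd : 0 < d) (ξ : H) :
    Integrable (fun f : ℝ => ‖D.vavg (fun t => kl d (2 * Real.pi * f) t) ξ‖ ^ 2) ∧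
      ∫ f : ℝ, ‖D.vavg (fun t => kl d (2 * Real.pi * f) t) ξ‖ ^ 2
        = (∫ t : ℝ, ‖kl d 0 t‖ ^ 2) * ‖ξ‖ ^ 2 := by
  set g : ℝ → H := fun t => kl d 0 t • D.U t ξ
  have hc : Continuous g :=
    ((differentiable_kl d 0).continuous.comp Complex.continuous_ofReal).smul (D.U_cont ξ)
  have hi : Integrable g := D.integrable_smul_U (by simpa using integrable_kl hd 0 0) ξ
  have hB : ∀ t, ‖g t‖ ≤ 2 * ‖ξ‖ := by
    intro t
    rw [norm_smul, D.norm_U]
    refine mul_le_mul_of_nonneg_right ((norm_kl_le d 0 t).trans ?_) (norm_nonneg _)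
    simp only [ofReal_re, ofReal_im, zero_mul, abs_zero, mul_zero, add_zero, Real.exp_zero, mul_one]
    exact mul_le_of_le_one_right zero_le_two (inv_le_one_of_one_le₀ (by nlinarith [sq_nonneg (d / 2 * t)]))
  obtain ⟨h1, h2⟩ := plancherel hc hi hB
  have e : ∀ f : ℝ, 𝓕 g f = D.vavg (fun t => kl d (2 * Real.pi * f) t) ξ := by
    intro f
    rw [Real.fourier_eq, vavg]
    refine integral_congr_ae (Eventually.of_forall fun t => ?_)
    simp only [g]
    rw [Circle.smul_def, Real.fourierChar_apply, smul_smul]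
    congr 1
    simp [kl]
    left
    congr 1
    ring
  simp only [e] at h1 h2
  refine ⟨h1, h2.trans ?_⟩
  rw [← integral_mul_const]
  simp only [g, norm_smul, D.norm_U, mul_pow]

lemma integral_kl_sq_pos {d : ℝ} (hd : 0 < d) : 0 < ∫ t : ℝ, ‖kl d 0 t‖ ^ 2 := by
  have hc : Continuous fun t : ℝ => ‖kl d 0 t‖ ^ 2 :=
    ((differentiable_kl d 0).continuous.comp Complex.continuous_ofReal).norm.pow 2
  have hi : Integrable fun t : ℝ => ‖kl d 0 t‖ ^ 2 := by
    refine (((integrable_kl hd 0 0).norm.const_mul 2)).mono' hc.aestronglyMeasurable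
      (Eventually.of_forall fun t => ?_)
    rw [Real.norm_of_nonneg (sq_nonneg _), sq, sub_zero]
    refine mul_le_mul_of_nonneg_right ((norm_kl_le d 0 t).trans ?_) (norm_nonneg _)
    simp only [ofReal_re, ofReal_im, zero_mul, abs_zero, mul_zero, add_zero, Real.exp_zero, mul_one]
    exact mul_le_of_le_one_right zero_le_two (inv_le_one_of_one_le₀ (by nlinarith [sq_nonneg (d / 2 * t)]))
  rw [integral_pos_iff_support_of_nonneg (fun t => sq_nonneg _) hi]
  exact hc.isOpen_support.measure_pos _ ⟨0, by simp [kl_zero]⟩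

/-- Some band of a nonzero element is nonzero. -/
theorem exists_band_ne_zero {d : ℝ} (hd : 0 < d) {x : H →L[ℂ] H} (hx : x ∈ S.M) (hx0 : x ≠ 0) :
    ∃ l, D.band d l x ≠ 0 := by
  by_contra! h
  obtain ⟨-, h2⟩ := D.plancherel_band hd (x S.Ω)
  have e : ∀ f : ℝ, D.vavg (fun t => kl d (2 * Real.pi * f) t) (x S.Ω) = 0 := fun f => by
    rw [← D.smear_apply_Ω (by simpa using integrable_kl hd (2 * Real.pi * f) 0)]
    exact (congrArg (fun T : H →L[ℂ] H => T S.Ω) (h (2 * Real.pi * f))).trans rfl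
  simp only [e, norm_zero, ne_eq, OfNat.ofNat_ne_zero, not_false_eq_true, zero_pow,
    integral_zero] at h2
  rcases mul_eq_zero.1 h2.symm with h3 | h3
  · exact (integral_kl_sq_pos hd).ne' h3
  · exact hx0 (S.separating x hx (by simpa using h3))

/-- A fixed element passes through the bands. -/
lemma mul_smear_mul {p q : H →L[ℂ] H} (hp : ∀ t, D.σ t p = p) (hq : ∀ t, D.σ t q = q)
    {g : ℝ → ℂ} (hg : Integrable g) (x : H →L[ℂ] H) :
    p * D.smear g x * q = D.smear g (p * x * q) := by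
  ext v
  rw [mul_apply_eq_comp, mul_apply_eq_comp, D.smear_apply hg, D.smear_apply hg,
    ← p.integral_comp_comm (D.integrable_smul_σ_apply hg x _)]
  simp only [D.σ_mul, hp, hq, map_smul, mul_apply_eq_comp]

/-- The vector of the graph of `J Δ^½`. -/
def gpair (y : H →L[ℂ] H) : WithLp 2 (H × H) := WithLp.toLp 2 (y S.Ω, D.J (star y S.Ω))

/-- The graph over the corner of `q`. -/
def gcorner (q : H →L[ℂ] H) : Submodule ℂ (WithLp 2 (H × H)) where
  carrier := {v | ∃ y ∈ S.M, q * y * q = y ∧ D.gpair y = v}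
  add_mem' := by
    rintro _ _ ⟨a, ha, ha', rfl⟩ ⟨b, hb, hb', rfl⟩
    exact ⟨a + b, add_mem ha hb, by rw [mul_add, add_mul, ha', hb'],
      by simp [gpair, star_add, ← WithLp.toLp_add]⟩
  zero_mem' := ⟨0, zero_mem _, by simp, by simp [gpair]⟩
  smul_mem' := by
    rintro c _ ⟨a, ha, ha', rfl⟩
    exact ⟨c • a, S.M.toStarSubalgebra.smul_mem ha c, by rw [mul_smul_comm, smul_mul_assoc, ha'],
      by simp [gpair, star_smul, map_smulₛₗ, ← WithLp.toLp_smul]⟩

lemma norm_sq_gpair (y : H →L[ℂ] H) :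
    ‖D.gpair y‖ ^ 2 = ‖y S.Ω‖ ^ 2 + ‖star y S.Ω‖ ^ 2 := by
  rw [WithLp.prod_norm_sq_eq_of_L2]
  simp [gpair, D.J.norm_map]

/-- `x` is an approximate eigenvector for `l0` within the corner of `q`. -/
def Resid (q : H →L[ℂ] H) (l0 : ℝ) : Prop :=
  ∀ ε : ℝ, 0 < ε → ∃ x ∈ S.M, q * x * q = x ∧ ‖x S.Ω‖ = 1 ∧ ∀ y ∈ S.M, q * y * q = y →
    ‖S.φ (x * star y) - (Real.exp l0 : ℂ) * S.φ (star y * x)‖
      ≤ ε * Real.sqrt ((S.φ (star y * y)).re + (S.φ (y * star y)).re)

lemma φ_star_mul (a b : H →L[ℂ] H) : S.φ (star a * b) = ⟪a S.Ω, b S.Ω⟫_ℂ := by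
  rw [Std.φ, mul_apply_eq_comp, ContinuousLinearMap.star_eq_adjoint,
    ContinuousLinearMap.adjoint_inner_right]

lemma re_φ_star_mul_self (a : H →L[ℂ] H) : (S.φ (star a * a)).re = ‖a S.Ω‖ ^ 2 := by
  rw [φ_star_mul, inner_self_eq_norm_sq_to_K]
  norm_cast

/-- The gap between a band and `l0`. -/
lemma gap_le {l0 l r d a c : ℝ} (hr : 0 < r) (hl : r < |l - l0|)
    (hd4 : 5 * d ≤ 1 - Real.exp (-(r / 4))) (ha : 0 ≤ a) (hc : 0 ≤ c)
    (hca : |c - Real.exp (l / 2) * a| ≤ 5 * d * (Real.exp (l / 2) * a)) :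
    min ((Real.exp (r / 2) - 1) * Real.exp l0 / (1 + Real.exp l0 * Real.exp (r / 2)))
      (Real.exp l0 * (1 - Real.exp (-(r / 2))) / (1 + Real.exp l0 * Real.exp (-(r / 2))))
      * (a ^ 2 + c ^ 2) ≤ |c ^ 2 - Real.exp l0 * a ^ 2| := by
  have hL := Real.exp_pos l0
  obtain ⟨h1, h2⟩ := abs_le.1 hca
  have hl2 : Real.exp (l / 2) ^ 2 = Real.exp l := by rw [← Real.exp_nat_mul]; congr 1; push_cast; ring
  rcases le_or_gt l0 l with hle | hgt
  · rw [abs_of_nonneg (sub_nonneg.2 hle)] at hl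
    have h3 : Real.exp (-(r / 4)) * (Real.exp (l / 2) * a) ≤ c := by
      have : 0 ≤ Real.exp (l / 2) * a := by positivity
      nlinarith [mul_le_mul_of_nonneg_right hd4 this]
    have h4 : Real.exp l0 * Real.exp (r / 2) * a ^ 2 ≤ c ^ 2 := by
      refine le_trans ?_ (pow_le_pow_left₀ (by positivity) h3 2)
      rw [← mul_assoc, mul_pow, ← Real.exp_add, ← Real.exp_add, ← Real.exp_nat_mul]
      refine mul_le_mul_of_nonneg_right (Real.exp_le_exp.2 ?_) (sq_nonneg _)
      push_cast; linarith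
    refine le_trans (mul_le_mul_of_nonneg_right (min_le_left _ _) (by positivity))
      (le_trans ?_ (le_abs_self _))
    rw [div_mul_eq_mul_div, div_le_iff₀ (by positivity)]
    nlinarith [mul_le_mul_of_nonneg_left h4 hL.le]
  · rw [abs_of_neg (sub_neg.2 hgt)] at hl
    have h3 : c ≤ Real.exp (r / 4) * (Real.exp (l / 2) * a) := by
      have h5 : 2 - Real.exp (-(r / 4)) ≤ Real.exp (r / 4) := by
        nlinarith [Real.add_one_le_exp (r / 4), Real.add_one_le_exp (-(r / 4))]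
      have : 0 ≤ Real.exp (l / 2) * a := by positivity
      nlinarith [mul_le_mul_of_nonneg_right hd4 this, mul_le_mul_of_nonneg_right h5 this]
    have h4 : c ^ 2 ≤ Real.exp l0 * Real.exp (-(r / 2)) * a ^ 2 := by
      refine le_trans (pow_le_pow_left₀ hc h3 2) ?_
      rw [← mul_assoc, mul_pow, ← Real.exp_add, ← Real.exp_add, ← Real.exp_nat_mul]
      refine mul_le_mul_of_nonneg_right (Real.exp_le_exp.2 ?_) (sq_nonneg _)
      push_cast; linarith
    refine le_trans (mul_le_mul_of_nonneg_right (min_le_right _ _) (by positivity))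
      (le_trans ?_ (neg_le_abs _))
    rw [div_mul_eq_mul_div, div_le_iff₀ (by positivity)]
    nlinarith [mul_le_mul_of_nonneg_left h4 hL.le]

/-- **A corner with residual at `l0` has narrow spectrum near `l0`.** -/
theorem exists_narrow_of_resid {q : H →L[ℂ] H} {l0 : ℝ} (hq : ∀ t, D.σ t q = q)
    (hqs : star q = q) (hres : Resid (S := S) q l0) {r d0 : ℝ} (hr : 0 < r) (hd0 : 0 < d0) :
    ∃ (l d : ℝ) (b : H →L[ℂ] H), |l - l0| ≤ r ∧ 0 < d ∧ d ≤ d0 ∧ b ≠ 0 ∧ q * b * q = b ∧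
      D.IsNarrow b l d := by
  by_contra! hno
  set d := min (min d0 1) ((1 - Real.exp (-(r / 4))) / 5) with hdef
  have hgp : 0 < 1 - Real.exp (-(r / 4)) := sub_pos.2 (Real.exp_lt_one_iff.2 (by linarith))
  have hd : 0 < d := lt_min (lt_min hd0 one_pos) (div_pos hgp (by norm_num))
  have hd4 : 5 * d ≤ 1 - Real.exp (-(r / 4)) := by
    have : d ≤ (1 - Real.exp (-(r / 4))) / 5 := min_le_right _ _
    linarith
  set κ := min ((Real.exp (r / 2) - 1) * Real.exp l0 / (1 + Real.exp l0 * Real.exp (r / 2)))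
    (Real.exp l0 * (1 - Real.exp (-(r / 2))) / (1 + Real.exp l0 * Real.exp (-(r / 2)))) with hκdef
  have hκ : 0 < κ := lt_min
    (div_pos (mul_pos (sub_pos.2 (Real.one_lt_exp_iff.2 (by linarith))) (Real.exp_pos _))
      (by positivity))
    (div_pos (mul_pos (Real.exp_pos _) (sub_pos.2 (Real.exp_lt_one_iff.2 (by linarith))))
      (by positivity))
  obtain ⟨x, hx, hxq, hx1, hxr⟩ := hres (κ / 2) (half_pos hκ)
  set K := (D.gcorner q).topologicalClosure
  have : CompleteSpace K := (D.gcorner q).isClosed_topologicalClosure.completeSpace_coe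
  set w : WithLp 2 (H × H) :=
    WithLp.toLp 2 (-(Real.exp l0 : ℂ) • x S.Ω, D.J (star x S.Ω)) with hw
  set ρ := K.starProjection w
  have hrw : ∀ v ∈ K, ‖⟪v, w⟫_ℂ‖ ≤ κ / 2 * ‖v‖ := by
    intro v hv
    refine (closure_minimal ?_ (isClosed_le (f := fun v => ‖⟪v, w⟫_ℂ‖) ((Continuous.inner (𝕜 := ℂ) continuous_id continuous_const).norm)
      (continuous_const.mul continuous_norm))) hv
    rintro _ ⟨y, hy, hyq, rfl⟩
    have h := hxr y hy hyq
    have h2 := re_φ_star_mul_self (S := S) (star y)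
    rw [star_star] at h2
    rw [re_φ_star_mul_self, h2, ← D.norm_sq_gpair, Real.sqrt_sq (norm_nonneg _)] at h
    refine le_trans (le_of_eq (congrArg _ ?_)) h
    have e : S.φ (x * star y) = ⟪star x S.Ω, star y S.Ω⟫_ℂ := by
      simpa using φ_star_mul (S := S) (star x) (star y)
    simp only [gpair, hw, WithLp.prod_inner_apply, inner_smul_right, e, φ_star_mul, D.inner_J]
    ring
  have hρ : ‖ρ‖ ≤ κ / 2 := by
    have hρK : ρ ∈ K := Submodule.starProjection_apply_mem K w
    have h1 := Submodule.starProjection_inner_eq_zero (K := K) w ρ hρK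
    rw [inner_sub_left, sub_eq_zero] at h1
    have h2 := hrw ρ hρK
    rw [← inner_conj_symm, h1, Complex.norm_conj, inner_self_eq_norm_sq_to_K] at h2
    simp only [norm_pow, RCLike.norm_ofReal, abs_norm] at h2
    rcases eq_or_lt_of_le (norm_nonneg ρ) with h3 | h3
    · rw [← h3]; linarith
    · nlinarith
  set g : ℝ → ℝ → ℂ := fun f t => kl d (2 * Real.pi * f) t
  have hgi : ∀ f, Integrable (g f) := fun f => by simpa using integrable_kl hd (2 * Real.pi * f) 0
  have key : ∀ f, κ ^ 2 * (‖D.vavg (g f) (x S.Ω)‖ ^ 2 + ‖D.vavg (g f) (D.J (star x S.Ω))‖ ^ 2)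
      ≤ ‖D.vavg (g f) ρ.fst‖ ^ 2 + ‖D.vavg (g f) ρ.snd‖ ^ 2 := by
    intro f
    set b := D.band d (2 * Real.pi * f) x with hb
    have hgc : Integrable fun t => conj (g f t) :=
      (hgi f).norm.mono' (Complex.continuous_conj.comp_aestronglyMeasurable
        (hgi f).aestronglyMeasurable) (Eventually.of_forall fun t => le_of_eq (by simp))
    have e1 : D.vavg (g f) (x S.Ω) = b S.Ω := (D.smear_apply_Ω (hgi f) x).symm
    have e2 : D.vavg (g f) (D.J (star x S.Ω)) = D.J (star b S.Ω) := by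
      rw [hb, band, D.star_smear (hgi f), D.smear_apply_Ω hgc, D.J_vavg hgc]
      simp only [Complex.conj_conj]
    rw [e1, e2, D.J.norm_map]
    rcases eq_or_ne b 0 with h0 | h0
    · rw [h0]
      simp only [star_zero, zero_apply, norm_zero]
      nlinarith [sq_nonneg ‖D.vavg (g f) ρ.fst‖, sq_nonneg ‖D.vavg (g f) ρ.snd‖]
    have hbM : b ∈ S.M := D.smear_mem _ hx
    have hbq : q * b * q = b := by
      rw [hb, band, D.mul_smear_mul hq hq (hgi f), hxq]
    have hn : D.IsNarrow b (2 * Real.pi * f) d := D.isNarrow_band hd _ hx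
    have hl : r < |2 * Real.pi * f - l0| := lt_of_not_ge fun h =>
      hno _ d b h hd ((min_le_left _ _).trans (min_le_left _ _)) h0 hbq hn
    have hest := hn.norm_J_star_sub_le hd ((min_le_left _ _).trans (min_le_right _ _))
    have hgap := gap_le hr hl hd4 (norm_nonneg (b S.Ω)) (norm_nonneg (star b S.Ω)) (by
      have h := (abs_norm_sub_norm_le (D.J (star b S.Ω))
        (Real.exp (2 * Real.pi * f / 2) • b S.Ω)).trans hest
      rw [D.J.norm_map, norm_smul, Real.norm_of_nonneg (Real.exp_pos _).le] at h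
      exact h.trans_eq (by ring))
    set y := D.smear (fun t => conj (g f (-t))) b
    have hgn : Integrable fun t => conj (g f (-t)) := hgc.comp_neg
    have hy : D.gpair y ∈ K := Submodule.le_topologicalClosure _
      ⟨y, D.smear_mem _ hbM, by rw [D.mul_smear_mul hq hq hgn, hbq], rfl⟩
    have h1 := Submodule.starProjection_inner_eq_zero (K := K) w (D.gpair y) hy
    rw [inner_sub_left, sub_eq_zero, ← inner_conj_symm w, ← inner_conj_symm ρ] at h1
    have e3 : ∀ u : H × H, ⟪D.gpair y, WithLp.toLp 2 u⟫_ℂ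
        = ⟪b S.Ω, D.vavg (g f) u.1⟫_ℂ + ⟪D.J (star b S.Ω), D.vavg (g f) u.2⟫_ℂ := by
      intro u
      have hgn' : Integrable fun t => g f (-t) := (hgi f).comp_neg
      rw [D.inner_vavg (hgi f), D.inner_vavg (hgi f), gpair, D.smear_apply_Ω hgn,
        D.star_smear hgn]
      simp only [Complex.conj_conj]
      rw [D.smear_apply_Ω hgn', D.J_vavg hgn', WithLp.prod_inner_apply]
    have h2 := congrArg conj h1
    simp only [Complex.conj_conj] at h2
    rw [show ρ = WithLp.toLp 2 (ρ.fst, ρ.snd) from rfl, hw, e3, e3, D.vavg_smul, e1, e2,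
      inner_smul_right, inner_self_eq_norm_sq_to_K, inner_self_eq_norm_sq_to_K, D.J.norm_map] at h2
    have h3 : |‖star b S.Ω‖ ^ 2 - Real.exp l0 * ‖b S.Ω‖ ^ 2|
        ≤ ‖b S.Ω‖ * ‖D.vavg (g f) ρ.fst‖ + ‖star b S.Ω‖ * ‖D.vavg (g f) ρ.snd‖ := by
      have := congrArg norm h2
      simp only [RCLike.ofReal_eq_complex_ofReal] at this
      rw [show (-(Real.exp l0 : ℂ)) * ((‖b S.Ω‖ : ℝ) : ℂ) ^ 2 + ((‖star b S.Ω‖ : ℝ) : ℂ) ^ 2
        = ((‖star b S.Ω‖ ^ 2 - Real.exp l0 * ‖b S.Ω‖ ^ 2 : ℝ) : ℂ) by push_cast; ring,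
        Complex.norm_real, Real.norm_eq_abs] at this
      rw [this]
      refine (norm_add_le _ _).trans (add_le_add (norm_inner_le_norm _ _) ?_)
      exact (norm_inner_le_norm _ _).trans_eq (by rw [D.J.norm_map])
    set A := ‖b S.Ω‖
    set C := ‖star b S.Ω‖
    set R1 := ‖D.vavg (g f) ρ.fst‖
    set R2 := ‖D.vavg (g f) ρ.snd‖
    rcases eq_or_lt_of_le (show 0 ≤ A ^ 2 + C ^ 2 by positivity) with hz | hz
    · rw [← hz]; nlinarith [sq_nonneg R1, sq_nonneg R2]
    have hcs : (A * R1 + C * R2) ^ 2 ≤ (A ^ 2 + C ^ 2) * (R1 ^ 2 + R2 ^ 2) := by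
      nlinarith [sq_nonneg (A * R2 - C * R1)]
    have h4 := pow_le_pow_left₀ (by positivity) (hgap.trans h3) 2
    rw [← hκdef] at h4
    refine le_of_mul_le_mul_left ?_ hz
    calc (A ^ 2 + C ^ 2) * (κ ^ 2 * (A ^ 2 + C ^ 2)) = (κ * (A ^ 2 + C ^ 2)) ^ 2 := by ring
      _ ≤ _ := h4.trans hcs
  obtain ⟨i1, v1⟩ := D.plancherel_band hd (x S.Ω)
  obtain ⟨i2, v2⟩ := D.plancherel_band hd (D.J (star x S.Ω))
  obtain ⟨i3, v3⟩ := D.plancherel_band hd ρ.fst
  obtain ⟨i4, v4⟩ := D.plancherel_band hd ρ.snd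
  have h := integral_mono ((i1.add i2).const_mul (κ ^ 2)) (i3.add i4) key
  rw [integral_const_mul] at h
  simp only [Pi.add_apply] at h
  rw [integral_add i1 i2, integral_add i3 i4, v1, v2, v3, v4, D.J.norm_map, hx1] at h
  set Kc := ∫ t : ℝ, ‖kl d 0 t‖ ^ 2
  have hK := integral_kl_sq_pos hd
  have h5 : ‖ρ.fst‖ ^ 2 + ‖ρ.snd‖ ^ 2 ≤ (κ / 2) ^ 2 := by
    rw [← WithLp.prod_norm_sq_eq_of_L2]
    exact pow_le_pow_left₀ (norm_nonneg _) hρ 2
  nlinarith [mul_nonneg (sq_nonneg κ) (mul_nonneg hK.le (sq_nonneg ‖star x S.Ω‖)),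
    mul_le_mul_of_nonneg_left h5 hK.le, mul_pos hK (pow_pos hκ 2)]

end Modular

end P132
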