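import Vale.Agent.P132.Homog.Interfaces

/-!
# The two-sided action `a ξ b*` in a standard form

`sand J a b ξ = a (J (b (J ξ)))`. Elementary norm identities for projections.
-/

set_option linter.unusedSectionVars false

namespace P132.Homogeneity

open Filter Topology
open scoped InnerProductSpace

variable {H : Type*} [NormedAddCommGroup H] [InnerProductSpace ℂ H] [CompleteSpace H]

/-- What is used of a modular conjugation. -/
structure SandConj (M : VonNeumannAlgebra H) (J : H →L⋆[ℂ] H) : Prop where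
  invol : ∀ v, J (J v) = v
  isometry : ∀ v, ‖J v‖ = ‖v‖
  comm : ∀ x ∈ M, ∀ y ∈ M, ∀ v, x (J (y (J v))) = J (y (J (x v)))

lemma StdForm.sandConj {M : VonNeumannAlgebra H} {J : H →L⋆[ℂ] H} {P : Set H}
    (hS : StdForm M J P) : SandConj M J where
  invol := hS.invol
  isometry := hS.isometry
  comm x hx y hy v := congr($(VonNeumannAlgebra.mem_commutant_iff.1 (hS.conj_mem y hy) x hx) v)

/-- `a ξ b*`. -/
def sand (J : H →L⋆[ℂ] H) (a b : H →L[ℂ] H) (ξ : H) : H := a (J (b (J ξ)))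

variable {M : VonNeumannAlgebra H} {J : H →L⋆[ℂ] H}
variable {a b c d p : H →L[ℂ] H}

lemma sand_add_left (a a' b : H →L[ℂ] H) (ξ : H) :
    sand J (a + a') b ξ = sand J a b ξ + sand J a' b ξ := by
  simp [sand]

lemma sand_add_right (a b b' : H →L[ℂ] H) (ξ : H) :
    sand J a (b + b') ξ = sand J a b ξ + sand J a b' ξ := by
  simp [sand]

lemma sand_sub (a b : H →L[ℂ] H) (ξ η : H) :
    sand J a b (ξ - η) = sand J a b ξ - sand J a b η := by
  simp [sand]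

lemma sand_sub_left (a a' b : H →L[ℂ] H) (ξ : H) :
    sand J (a - a') b ξ = sand J a b ξ - sand J a' b ξ := by
  simp [sand]

lemma sand_sub_right (a b b' : H →L[ℂ] H) (ξ : H) :
    sand J a (b - b') ξ = sand J a b ξ - sand J a b' ξ := by
  simp [sand]

lemma sand_one_one (hJ : SandConj M J) (ξ : H) : sand J 1 1 ξ = ξ := by
  simp [sand, hJ.invol]

lemma sand_sand (hJ : SandConj M J) (hb : b ∈ M) (hc : c ∈ M) (ξ : H) :
    sand J a b (sand J c d ξ) = sand J (a * c) (b * d) ξ := by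
  simp only [sand]
  rw [← hJ.comm c hc b hb (J (d (J ξ))), hJ.invol]
  rfl

lemma J_sand (hJ : SandConj M J) (ha : a ∈ M) (hb : b ∈ M) {ξ : H} (hξ : J ξ = ξ) :
    J (sand J a b ξ) = sand J b a ξ := by
  simp only [sand]
  rw [hJ.comm a ha b hb ξ, hJ.invol, hξ]

lemma norm_sand_comm (hJ : SandConj M J) (ha : a ∈ M) (hb : b ∈ M) {ξ : H} (hξ : J ξ = ξ) :
    ‖sand J a b ξ‖ = ‖sand J b a ξ‖ := by
  rw [← J_sand hJ ha hb hξ, hJ.isometry]

lemma norm_sand_le (hJ : SandConj M J) (ha : ‖a‖ ≤ 1) (hb : ‖b‖ ≤ 1) (ξ : H) : ‖sand J a b ξ‖ ≤ ‖ξ‖ := by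
  refine (a.le_of_opNorm_le ha _).trans ?_
  rw [one_mul, hJ.isometry]
  refine (b.le_of_opNorm_le hb _).trans ?_
  rw [one_mul, hJ.isometry]

lemma norm_le_one_of_star_mul_self (hp : IsStarProjection (star a * a)) : ‖a‖ ≤ 1 := by
  have h := IsStarProjection.norm_le _ hp
  rw [CStarRing.norm_star_mul_self] at h
  nlinarith [norm_nonneg a]

lemma norm_sq_add_of_proj (hp : IsStarProjection p) (x : H) :
    ‖x‖ ^ 2 = ‖p x‖ ^ 2 + ‖(1 - p) x‖ ^ 2 := by
  have h0 : ⟪p x, (1 - p) x⟫_ℂ = 0 := by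
    have : ⟪p x, (1 - p) x⟫_ℂ = ⟪x, p ((1 - p) x)⟫_ℂ := hp.isSelfAdjoint.isSymmetric x _
    rw [this, show p ((1 - p) x) = (p * (1 - p)) x from rfl, hp.mul_one_sub_self]
    simp
  have hx : x = p x + (1 - p) x := by simp
  conv_lhs => rw [hx, @norm_add_sq ℂ, h0]
  simp

lemma norm_sand_sq_left (hp : IsStarProjection p) (ξ : H) : ‖sand J a b ξ‖ ^ 2
      = ‖sand J (p * a) b ξ‖ ^ 2 + ‖sand J ((1 - p) * a) b ξ‖ ^ 2 :=
  norm_sq_add_of_proj hp (sand J a b ξ)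

lemma norm_sand_sq_right (hJ : SandConj M J) (hp : IsStarProjection p) (hpM : p ∈ M) (ha : a ∈ M)
    (ξ : H) : ‖sand J a b ξ‖ ^ 2
      = ‖sand J a (p * b) ξ‖ ^ 2 + ‖sand J a ((1 - p) * b) ξ‖ ^ 2 := by
  have h := norm_sq_add_of_proj hp (J (sand J a b ξ))
  have e : ∀ z ∈ M, ‖z (J (sand J a b ξ))‖ = ‖sand J a (z * b) ξ‖ := by
    intro z hz
    rw [← hJ.isometry (z (J (sand J a b ξ)))]
    congr 1
    simp only [sand]
    rw [← hJ.comm a ha z hz, hJ.invol]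
    rfl
  rw [hJ.isometry, e p hpM, e _ (sub_mem (one_mem M) hpM)] at h
  exact h

/-- The orthogonal block decomposition along `r = p + (r - p)` on both sides. -/
lemma norm_sand_sq_split (hJ : SandConj M J) {r : H →L[ℂ] H} (hp : IsStarProjection p)
    (hpM : p ∈ M) (hrM : r ∈ M) (hpr : p * r = p) (ξ : H) :
    ‖sand J r r ξ‖ ^ 2 = ‖sand J p p ξ‖ ^ 2 + ‖sand J p (r - p) ξ‖ ^ 2
      + ‖sand J (r - p) p ξ‖ ^ 2 + ‖sand J (r - p) (r - p) ξ‖ ^ 2 := by
  have h1 : (1 - p) * r = r - p := by rw [sub_mul, one_mul, hpr]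
  rw [norm_sand_sq_left hp, hpr, h1, norm_sand_sq_right hJ hp hpM hpM,
    norm_sand_sq_right hJ hp hpM (sub_mem hrM hpM), hpr, h1]
  ring

lemma tendsto_sand {α : Type*} {l : Filter α} {A B : α → (H →L[ℂ] H)} (hA : ∀ n, ‖A n‖ ≤ 1)
    (ha : ∀ x, Tendsto (fun n => A n x) l (𝓝 (a x)))
    (hb : ∀ x, Tendsto (fun n => B n x) l (𝓝 (b x))) (ξ : H) :
    Tendsto (fun n => sand J (A n) (B n) ξ) l (𝓝 (sand J a b ξ)) := by
  have h1 : Tendsto (fun n => A n (J (B n (J ξ)) - J (b (J ξ)))) l (𝓝 0) := by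
    refine squeeze_zero_norm (fun n => (A n).le_of_opNorm_le (hA n) _) ?_
    simp only [one_mul]
    exact tendsto_iff_norm_sub_tendsto_zero.1
      ((J.continuous.tendsto _).comp (hb (J ξ)))
  have h2 := h1.add (ha (J (b (J ξ))))
  simpa [sand] using h2

lemma tendsto_norm_sand_sq {α : Type*} {l : Filter α} {A B : α → (H →L[ℂ] H)}
    (hA : ∀ n, ‖A n‖ ≤ 1) (ha : ∀ x, Tendsto (fun n => A n x) l (𝓝 (a x)))
    (hb : ∀ x, Tendsto (fun n => B n x) l (𝓝 (b x))) (ξ : H) :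
    Tendsto (fun n => ‖sand J (A n) (B n) ξ‖ ^ 2) l (𝓝 (‖sand J a b ξ‖ ^ 2)) :=
  ((tendsto_sand hA ha hb ξ).norm).pow 2

end P132.Homogeneity
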