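import Vale.Agent.P132.TypeIII

/-!
# Interfaces of the homogeneity module (see ROUTE.md)

All statements live in a standard form: `M` on `H`, a conjugation `J` with `J M J = M'` and a
closed convex cone `P` of `J`-fixed vectors. None of the `...Out` is assumed by a final theorem.
-/

namespace P132.Homogeneity

open scoped InnerProductSpace

universe u

variable {H : Type u} [NormedAddCommGroup H] [InnerProductSpace ℂ H] [CompleteSpace H]

/-- the conjugate of an operator by a conjugation -/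
noncomputable def conjBy (J : H →L⋆[ℂ] H) (a : H →L[ℂ] H) : H →L[ℂ] H := J.comp (a.comp J)

/-- a standard form: conjugation and self-dual cone (only the properties used) -/
structure StdForm (M : VonNeumannAlgebra H) (J : H →L⋆[ℂ] H) (P : Set H) : Prop where
  invol : ∀ v, J (J v) = v
  isometry : ∀ v, ‖J v‖ = ‖v‖
  conj_mem : ∀ a ∈ M, conjBy J a ∈ M.commutant
  conj_mem' : ∀ b ∈ M.commutant, conjBy J b ∈ M
  closed : IsClosed P
  zero_mem : (0 : H) ∈ P
  add_mem : ∀ v ∈ P, ∀ w ∈ P, v + w ∈ P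
  smul_mem : ∀ c : ℝ, 0 ≤ c → ∀ v ∈ P, (c : ℂ) • v ∈ P
  fixed : ∀ v ∈ P, J v = v
  conj_invariant : ∀ a ∈ M, ∀ v ∈ P, a (conjBy J a v) ∈ P
  inner_nonneg : ∀ v ∈ P, ∀ w ∈ P, 0 ≤ (⟪v, w⟫_ℂ).re ∧ (⟪v, w⟫_ℂ).im = 0

/-- right action of `a` on the standard form -/
noncomputable def rmul (J : H →L⋆[ℂ] H) (a : H →L[ℂ] H) (v : H) : H := conjBy J (star a) v

/-- the compression `r v r` -/
noncomputable def comp2 (J : H →L⋆[ℂ] H) (r : H →L[ℂ] H) (v : H) : H := r (rmul J r v)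

/-- the vector `v` separates the corner `e M e` -/
def SepCorner (M : VonNeumannAlgebra H) (e : H →L[ℂ] H) (v : H) : Prop :=
  ∀ x ∈ M, x * e = x → x v = 0 → x = 0

variable (M : VonNeumannAlgebra H) (J : H →L⋆[ℂ] H) (P : Set H)

/-- full spectrum for the separating vectors of the cone -/
def FullSpec : Prop :=
  ∀ h ∈ P, ‖h‖ = 1 → SepCorner M 1 h → ∀ l : ℝ, 0 < l →
    InSpec M (fun a => ⟪h, a h⟫_ℂ) l

/-- equivalence of projections in `M` -/
def Equiv' (p q : H →L[ℂ] H) : Prop := ∃ v ∈ M, star v * v = p ∧ v * star v = q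

/-- (F) any two nonzero projections are equivalent, and each splits into two -/
def TypeIIIOut : Prop :=
  (∀ p ∈ M, ∀ q ∈ M, IsStarProjection p → IsStarProjection q → p ≠ 0 → q ≠ 0 → Equiv' M p q) ∧
  ∀ p ∈ M, IsStarProjection p → p ≠ 0 →
    ∃ q ∈ M, IsStarProjection q ∧ q * p = q ∧ q ≠ 0 ∧ q ≠ p

/-- (C) for a fixed projection, a nonzero element of the off-diagonal corner commuting nearly
with the vector -/
def OffDiagOut : Prop :=
  ∀ h ∈ P, SepCorner M 1 h → ∀ e ∈ M, IsStarProjection e → e ≠ 0 → e ≠ 1 → e h = rmul J e h →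
    ∀ η : ℝ, 0 < η → ∃ x ∈ M, x * e = x ∧ e * x = 0 ∧ x ≠ 0 ∧
      ‖x h - rmul J x h‖ ≤ η * ‖x h‖

/-- (D) Connes' cut: from an element to a partial isometry -/
def CutOut : Prop :=
  ∀ h ∈ P, SepCorner M 1 h → ∀ e ∈ M, IsStarProjection e → e h = rmul J e h →
    ∀ x ∈ M, x * e = x → e * x = 0 → x ≠ 0 → ∀ η : ℝ, 0 < η → η ≤ 1 →
      ‖x h - rmul J x h‖ ≤ η * ‖x h‖ →
        ∃ v ∈ M, v * e = v ∧ e * v = 0 ∧ v ≠ 0 ∧ IsStarProjection (star v * v) ∧
          ‖v h - rmul J v h‖ ^ 2 ≤ 20 * η * ‖v h‖ ^ 2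

/-- (D') a nearly intertwining partial isometry between any two corners -/
def PieceOut : Prop :=
  ∀ h ∈ P, ∀ k ∈ P, SepCorner M 1 h → SepCorner M 1 k →
    ∀ r ∈ M, ∀ r' ∈ M, IsStarProjection r → IsStarProjection r' → r ≠ 0 → r' ≠ 0 →
      ∀ η : ℝ, 0 < η → ∃ v ∈ M, v * r = v ∧ r' * v = v ∧ v ≠ 0 ∧
        IsStarProjection (star v * v) ∧
        ‖v (comp2 J r h) - rmul J v (comp2 J r' k)‖ ≤ η * ‖v (comp2 J r h)‖

/-- (E) homogeneity of the state space, in vector form -/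
def HomogOut : Prop :=
  ∀ h ∈ P, ∀ k ∈ P, ‖h‖ = 1 → ‖k‖ = 1 → SepCorner M 1 h → SepCorner M 1 k →
    ∀ ε : ℝ, 0 < ε → ∃ u ∈ unitary (H →L[ℂ] H), u ∈ M ∧ ‖u (conjBy J u h) - k‖ ≤ ε

end P132.Homogeneity
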