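import Vale.Agent.P132.Sigma
import Vale.Agent.P132.Homog.Interfaces

/-!
# P132, homogeneity module A: the standard form

From `Modular` and density of the entire elements: positivity of `⟨x* Ω, J x Ω⟩`, the cone spanned
by the `a J a J v`, uniqueness of the conjugation, and the consequences for other vectors of the
cone.
-/

noncomputable section

namespace P132

open Filter Topology Complex ComplexConjugate
open scoped InnerProductSpace
open Homogeneity (conjBy rmul comp2 SepCorner StdForm)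

variable {H : Type*} [NormedAddCommGroup H] [InnerProductSpace ℂ H] [CompleteSpace H]

/-! ### Conjugations -/

namespace Homogeneity

/-- A conjugation of `H`. -/
structure IsConj (J : H →L⋆[ℂ] H) : Prop where
  invol : ∀ v, J (J v) = v
  isometry : ∀ v, ‖J v‖ = ‖v‖

variable {J : H →L⋆[ℂ] H}

lemma StdForm.isConj {M : VonNeumannAlgebra H} {P : Set H} (h : StdForm M J P) : IsConj J :=
  ⟨h.invol, h.isometry⟩

omit [CompleteSpace H] in
lemma conjBy_apply (a : H →L[ℂ] H) (v : H) : conjBy J a v = J (a (J v)) := rfl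

omit [CompleteSpace H] in
lemma IsConj.inner (hJ : IsConj J) (a b : H) : ⟪J a, J b⟫_ℂ = ⟪b, a⟫_ℂ := by
  have hre : ∀ a b : H, (⟪J a, J b⟫_ℂ).re = (⟪a, b⟫_ℂ).re := by
    intro a b
    have h1 := @norm_add_sq ℂ H _ _ _ (J a) (J b)
    have h2 := @norm_add_sq ℂ H _ _ _ a b
    rw [← map_add, hJ.isometry, hJ.isometry, hJ.isometry] at h1
    simp only [RCLike.re_to_complex] at h1 h2
    linarith
  rw [← inner_conj_symm b a]
  refine Complex.ext (by rw [hre, Complex.conj_re]) ?_
  have h := hre a (I • b)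
  rw [map_smulₛₗ, inner_smul_right, inner_smul_right] at h
  simp at h
  rw [Complex.conj_im]
  linarith

omit [CompleteSpace H] in
lemma IsConj.conjBy_conjBy (hJ : IsConj J) (a : H →L[ℂ] H) : conjBy J (conjBy J a) = a :=
  ContinuousLinearMap.ext fun v => by simp [conjBy_apply, hJ.invol]

omit [CompleteSpace H] in
lemma IsConj.conjBy_mul (hJ : IsConj J) (a b : H →L[ℂ] H) :
    conjBy J (a * b) = conjBy J a * conjBy J b :=
  ContinuousLinearMap.ext fun v => by simp [conjBy_apply, hJ.invol, mul_apply_eq_comp]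

omit [CompleteSpace H] in
lemma conjBy_smul (c : ℂ) (a : H →L[ℂ] H) : conjBy J (c • a) = conj c • conjBy J a :=
  ContinuousLinearMap.ext fun v => by simp [conjBy_apply, map_smulₛₗ]

omit [CompleteSpace H] in
lemma IsConj.conjBy_one (hJ : IsConj J) : conjBy J 1 = 1 :=
  ContinuousLinearMap.ext fun v => by simp [conjBy_apply, hJ.invol]

lemma IsConj.star_conjBy (hJ : IsConj J) (a : H →L[ℂ] H) :
    star (conjBy J a) = conjBy J (star a) := by
  symm
  rw [ContinuousLinearMap.star_eq_adjoint, ContinuousLinearMap.star_eq_adjoint,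
    ContinuousLinearMap.eq_adjoint_iff]
  intro x y
  calc ⟪conjBy J (a.adjoint) x, y⟫_ℂ = ⟪J (a.adjoint (J x)), J (J y)⟫_ℂ := by
        rw [conjBy_apply, hJ.invol y]
    _ = ⟪a (J y), J x⟫_ℂ := by rw [hJ.inner, ContinuousLinearMap.adjoint_inner_right]
    _ = ⟪J (J x), J (a (J y))⟫_ℂ := (hJ.inner _ _).symm
    _ = ⟪x, conjBy J a y⟫_ℂ := by rw [hJ.invol, conjBy_apply]

lemma StdForm.commute {M : VonNeumannAlgebra H} {P : Set H} (h : StdForm M J P) {x y : H →L[ℂ] H}
    (hx : x ∈ M) (hy : y ∈ M) : x * conjBy J y = conjBy J y * x :=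
  VonNeumannAlgebra.mem_commutant_iff.1 (h.conj_mem y hy) x hx

end Homogeneity

open Homogeneity

namespace Modular

variable {S : Std H} (D : Modular S)

/-- `J` as a continuous conjugate linear map. -/
def Jc : H →L⋆[ℂ] H := D.J.toLinearIsometry.toContinuousLinearMap

lemma Jc_apply (v : H) : D.Jc v = D.J v := rfl

lemma isConj : IsConj D.Jc := ⟨D.J_J, D.J.norm_map⟩

lemma inner_J (a b : H) : ⟪D.J a, D.J b⟫_ℂ = ⟪b, a⟫_ℂ := D.isConj.inner a b

lemma conj_commute {x y : H →L[ℂ] H} (hx : x ∈ S.M) (hy : y ∈ S.M) :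
    x * conjBy D.Jc y = conjBy D.Jc y * x :=
  ContinuousLinearMap.ext fun v => by
    simpa [conjBy_apply, mul_apply_eq_comp, Jc_apply] using D.J_commutant x hx y hy v

lemma conj_mem_commutant {y : H →L[ℂ] H} (hy : y ∈ S.M) : conjBy D.Jc y ∈ S.M.commutant :=
  VonNeumannAlgebra.mem_commutant_iff.2 fun _ hx => D.conj_commute hx hy

/-- `J M' J ⊆ M` (the reverse inclusion is part of `Modular`). -/
def CommTh : Prop := ∀ b ∈ S.M.commutant, conjBy D.Jc b ∈ S.M

/-- Elements with entire orbit are dense, together with their adjoints. -/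
def EntireDense : Prop :=
  ∀ x ∈ S.M, ∀ ε > 0, ∃ y, D.IsEntire y ∧
    ‖y S.Ω - x S.Ω‖ ≤ ε ∧ ‖star y S.Ω - star x S.Ω‖ ≤ ε

/-! ### Entire elements -/

/-- `F` is the entire extension of the orbit of `x`. -/
structure IsExt (x : H →L[ℂ] H) (F : ℂ → H →L[ℂ] H) : Prop where
  diff : Differentiable ℂ F
  mem : ∀ z, F z ∈ S.M
  real : ∀ t : ℝ, F t = D.σ t x

lemma IsEntire.exists_ext {x : H →L[ℂ] H} (h : D.IsEntire x) : ∃ F, D.IsExt x F :=
  let ⟨_, F, h1, h2, h3⟩ := h
  ⟨F, h1, h2, h3⟩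

omit [CompleteSpace H] in
/-- Two entire functions which agree on the real line are equal. -/
lemma eq_of_real {E : Type*} [NormedAddCommGroup E] [NormedSpace ℂ E] [CompleteSpace E]
    {f g : ℂ → E} (hf : Differentiable ℂ f) (hg : Differentiable ℂ g)
    (h : ∀ t : ℝ, f t = g t) : f = g := by
  refine AnalyticOnNhd.eq_of_frequently_eq (z₀ := (0 : ℂ))
    (hf.differentiableOn.analyticOnNhd isOpen_univ)
    (hg.differentiableOn.analyticOnNhd isOpen_univ) ?_
  refine Filter.frequently_iff.2 fun {U} hU => ?_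
  obtain ⟨ε, hε, hsub⟩ := Metric.mem_nhdsWithin_iff.1 hU
  refine ⟨((ε / 2 : ℝ) : ℂ), hsub ⟨?_, ?_⟩, h _⟩
  · simp [abs_of_pos hε]
    linarith
  · simp [hε.ne']

variable {D} {x y : H →L[ℂ] H} {F G : ℂ → H →L[ℂ] H}

lemma IsExt.zero (h : D.IsExt x F) : F 0 = x := by
  rw [← Complex.ofReal_zero, h.real, σ_zero]

lemma IsExt.add_real (h : D.IsExt x F) (z : ℂ) (t : ℝ) : F (z + t) = D.σ t (F z) := by
  refine congrFun (eq_of_real (f := fun z => F (z + t)) (g := fun z => D.σ t (F z)) ?_ ?_ ?_) z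
  · exact h.diff.comp (differentiable_id.add_const _)
  · exact ((differentiable_const _).mul h.diff).mul (differentiable_const _)
  · intro s
    rw [← Complex.ofReal_add, h.real, h.real, σ_σ, add_comm]

lemma IsExt.shift (h : D.IsExt x F) (z : ℂ) : D.IsExt (F z) fun w => F (z + w) :=
  ⟨h.diff.comp (differentiable_id.const_add _), fun _ => h.mem _, h.add_real z⟩

lemma IsExt.J_sub (h : D.IsExt x F) (z : ℂ) :
    D.J (F (z - I / 2) S.Ω) = star (F z) S.Ω := by
  have h' := h.shift z
  simpa [sub_eq_add_neg] using D.J_half (F z) _ h'.diff h'.mem h'.real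

lemma IsExt.norm_add_real (h : D.IsExt x F) (z : ℂ) (t : ℝ) :
    ‖F (z + t) S.Ω‖ = ‖F z S.Ω‖ := by
  rw [h.add_real, σ_apply_Ω, norm_U]

variable (D)

/-- The two point function of two orbits. -/
def twoPt (u : H →L[ℂ] H) (v : H) (F G : ℂ → H →L[ℂ] H) (z w : ℂ) : ℂ :=
  ⟪F (conj z) v, u (G w v)⟫_ℂ

omit D in
lemma differentiable_twoPt (u : H →L[ℂ] H) (v : H) (hF : Differentiable ℂ F)
    (hG : Differentiable ℂ G) (z w : ℂ) :
    Differentiable ℂ fun ζ => twoPt u v F G (z + ζ) (w + ζ) := by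
  have hs : Differentiable ℂ fun ζ => star (F (conj (z + ζ))) := fun ζ =>
    (differentiableAt_star_conj_iff.2 (hF _) :
      DifferentiableAt ℂ (star ∘ F ∘ conj) (z + ζ)).comp ζ (differentiableAt_id.const_add z)
  have h : Differentiable ℂ fun ζ => star (F (conj (z + ζ))) (u (G (w + ζ) v)) :=
    hs.clm_apply (u.differentiable.comp
      ((hG.comp (differentiable_id.const_add w)).clm_apply (differentiable_const v)))
  have he : (fun ζ => twoPt u v F G (z + ζ) (w + ζ))
      = fun ζ => innerSL ℂ v (star (F (conj (z + ζ))) (u (G (w + ζ) v))) := by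
    funext ζ
    rw [innerSL_apply_apply, ContinuousLinearMap.star_eq_adjoint,
      ContinuousLinearMap.adjoint_inner_right]
    rfl
  rw [he]
  exact (innerSL ℂ v).differentiable.comp h

lemma twoPt_one_const (hF : D.IsExt x F) (hG : D.IsExt y G) (z w ζ : ℂ) :
    twoPt 1 S.Ω F G (z + ζ) (w + ζ) = twoPt 1 S.Ω F G z w := by
  refine congrFun (eq_of_real (differentiable_twoPt 1 S.Ω hF.diff hG.diff z w)
    (differentiable_const _) fun t => ?_) ζ
  simp only [twoPt, map_add, Complex.conj_ofReal, hF.add_real, hG.add_real, σ_apply_Ω,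
    one_apply_eq_self]
  rw [← ContinuousLinearMap.adjoint_inner_right, ← ContinuousLinearMap.star_eq_adjoint, D.U_star,
    ← mul_apply_eq_comp, ← D.U_add, neg_add_cancel, D.U_zero, one_apply_eq_self]

/-! ### Positivity -/

/-- `⟨c* Ω, J c Ω⟩` in terms of the orbit of `c`. -/
lemma inner_star_J_eq (hF : D.IsExt x F) :
    ⟪star x S.Ω, D.J (x S.Ω)⟫_ℂ = (‖F (-(I / 4)) S.Ω‖ ^ 2 : ℝ) := by
  have h1 := hF.J_sub 0
  rw [hF.zero, zero_sub] at h1
  rw [← h1, inner_J]
  have h2 := twoPt_one_const D hF hF 0 (-(I / 2)) (I / 4)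
  have h3 : -(I / 2) + I / 4 = -(I / 4) := by ring
  simp only [twoPt, h3, zero_add, map_div₀, Complex.conj_I, map_ofNat, neg_div, map_zero, hF.zero,
    one_apply_eq_self] at h2
  rw [← h2, inner_self_eq_norm_sq_to_K]
  push_cast
  rfl

lemma inner_star_J_nonneg (hd : D.EntireDense) (hx : x ∈ S.M) :
    0 ≤ (⟪star x S.Ω, D.J (x S.Ω)⟫_ℂ).re ∧ (⟪star x S.Ω, D.J (x S.Ω)⟫_ℂ).im = 0 := by
  set K := {z : ℂ | 0 ≤ z.re ∧ z.im = 0}
  have hK : IsClosed K :=
    (isClosed_le continuous_const Complex.continuous_re).inter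
      (isClosed_eq Complex.continuous_im continuous_const)
  choose y hy hy1 hy2 using fun n : ℕ => hd x hx (1 / ((n : ℝ) + 1)) (by positivity)
  have l1 : Tendsto (fun n => y n S.Ω) atTop (𝓝 (x S.Ω)) := tendsto_iff_norm_sub_tendsto_zero.2
    (squeeze_zero (fun _ => norm_nonneg _) hy1 tendsto_one_div_add_atTop_nhds_zero_nat)
  have l2 : Tendsto (fun n => star (y n) S.Ω) atTop (𝓝 (star x S.Ω)) :=
    tendsto_iff_norm_sub_tendsto_zero.2
      (squeeze_zero (fun _ => norm_nonneg _) hy2 tendsto_one_div_add_atTop_nhds_zero_nat)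
  have l3 := l2.inner (𝕜 := ℂ) ((D.J.continuous.tendsto _).comp l1)
  refine hK.mem_of_tendsto l3 (Eventually.of_forall fun n => ?_)
  obtain ⟨F, hF⟩ := IsEntire.exists_ext D (hy n)
  simp only [K, Function.comp_apply, D.inner_star_J_eq hF, Set.mem_ofPred_eq, Complex.ofReal_re,
    Complex.ofReal_im, and_true]
  positivity

/-- Central elements of the state are fixed by `J`. -/
theorem J_apply_of_central (hd : D.EntireDense) {e : H →L[ℂ] H} (he : e ∈ S.M)
    (hsa : IsSelfAdjoint e) (hc : ∀ y ∈ S.M, S.φ (e * y) = S.φ (y * e)) :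
    D.J (e S.Ω) = e S.Ω := by
  have hφ : ∀ a : H →L[ℂ] H, S.φ (e * a) = ⟪e S.Ω, a S.Ω⟫_ℂ := fun a => by
    rw [Std.φ, mul_apply_eq_comp, ← ContinuousLinearMap.adjoint_inner_left,
      ← ContinuousLinearMap.star_eq_adjoint, hsa.star_eq]
  have hent : ∀ y, D.IsEntire y → ⟪D.J (e S.Ω), star y S.Ω⟫_ℂ = ⟪e S.Ω, star y S.Ω⟫_ℂ := by
    intro y hy
    obtain ⟨F, hF⟩ := IsEntire.exists_ext D hy
    set g : ℂ → ℂ := fun z => ⟪e S.Ω, F z S.Ω⟫_ℂ with hgdef
    have hg : Differentiable ℂ g :=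
      (innerSL ℂ (e S.Ω)).differentiable.comp (hF.diff.clm_apply (differentiable_const _))
    have hper : Function.Periodic g I := fun z => by
      have hs := hF.shift (z + I)
      have h1 := D.kms (F (z + I)) _ hs.diff hs.mem hs.real e he
      simp only [add_neg_cancel_right] at h1
      rw [← hc _ (hF.mem _), hφ, hφ] at h1
      exact h1
    obtain ⟨C, hC⟩ := (isCompact_Icc (a := (0 : ℝ)) (b := 1)).exists_bound_of_continuousOn
      (f := fun s : ℝ => ‖e S.Ω‖ * ‖F (s * I) S.Ω‖)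
      ((continuous_const.mul ((hF.diff.continuous.comp (by fun_prop)).clm_apply
        continuous_const).norm).continuousOn)
    have hb : ∀ z, ‖g z‖ ≤ C := by
      intro z
      rw [← hper.int_mul (-⌊z.im⌋) z]
      set s : ℝ := z.im - ⌊z.im⌋
      have hs : s ∈ Set.Icc (0 : ℝ) 1 :=
        ⟨sub_nonneg.2 (Int.floor_le _), by linarith [Int.lt_floor_add_one z.im]⟩
      have he' : z + ((-⌊z.im⌋ : ℤ) : ℂ) * I = (s : ℂ) * I + (z.re : ℂ) := by
        apply Complex.ext <;> simp [s, ← sub_eq_add_neg, Int.self_sub_floor]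
      rw [he']
      refine le_trans ?_ ((le_abs_self _).trans (hC s hs))
      refine (norm_inner_le_norm _ _).trans ?_
      rw [hF.norm_add_real]
    have hconst := hg.apply_eq_apply_of_bounded
      (isBounded_iff_forall_norm_le.2 ⟨C, by rintro _ ⟨z, rfl⟩; exact hb z⟩) (-(I / 2)) 0
    simp only [hgdef, hF.zero] at hconst
    have h1 := hF.J_sub 0
    rw [hF.zero, zero_sub] at h1
    have hyM : star y ∈ S.M := star_mem hy.1
    calc ⟪D.J (e S.Ω), star y S.Ω⟫_ℂ = ⟪F (-(I / 2)) S.Ω, e S.Ω⟫_ℂ := by rw [← h1, D.inner_J]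
      _ = conj ⟪e S.Ω, y S.Ω⟫_ℂ := by rw [← hconst, inner_conj_symm]
      _ = S.φ (star y * e) := by
          rw [inner_conj_symm, Std.φ, mul_apply_eq_comp, ContinuousLinearMap.star_eq_adjoint,
            ContinuousLinearMap.adjoint_inner_right]
      _ = ⟪e S.Ω, star y S.Ω⟫_ℂ := by rw [← hc _ hyM, hφ]
  refine sub_eq_zero.1 (S.cyclic.eq_zero_of_inner_left ℂ ?_)
  rintro _ ⟨b, hb, rfl⟩
  choose c hc1 _ hc2 using fun n : ℕ =>
    hd (star b) (star_mem hb) (1 / ((n : ℝ) + 1)) (by positivity)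
  have l : Tendsto (fun n => star (c n) S.Ω) atTop (𝓝 (b S.Ω)) := by
    refine tendsto_iff_norm_sub_tendsto_zero.2 (squeeze_zero (fun _ => norm_nonneg _) ?_
      tendsto_one_div_add_atTop_nhds_zero_nat)
    simpa only [star_star] using hc2
  rw [inner_sub_left, sub_eq_zero]
  exact tendsto_nhds_unique
    ((tendsto_const_nhds (x := D.J (e S.Ω))).inner (𝕜 := ℂ) l)
    (((tendsto_const_nhds (x := e S.Ω)).inner (𝕜 := ℂ) l).congr fun n => (hent _ (hc1 n)).symm)

/-- The pairing condition which puts two `J`-fixed vectors in one cone. -/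
def Pair (F : Set H) : Prop :=
  (∀ v ∈ F, D.J v = v) ∧ ∀ v ∈ F, ∀ w ∈ F, ∀ x ∈ S.M,
    0 ≤ (⟪x v, D.J (star x w)⟫_ℂ).re ∧ (⟪x v, D.J (star x w)⟫_ℂ).im = 0

theorem pair_singleton (hd : D.EntireDense) : D.Pair {S.Ω} := by
  refine ⟨fun v hv => by rw [Set.mem_singleton_iff.1 hv, D.J_Ω], fun v hv w hw x hx => ?_⟩
  rw [Set.mem_singleton_iff.1 hv, Set.mem_singleton_iff.1 hw]
  simpa using D.inner_star_J_nonneg hd (star_mem hx)

/-- The closed convex cone of the `a J a J v`, `v ∈ F`. -/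
def cone (F : Set H) : Set H :=
  closure ↑(AddSubmonoid.closure
    (Set.image2 (fun a v => a (conjBy D.Jc a v)) (S.M : Set (H →L[ℂ] H)) F))

lemma gen_mem_cone {F : Set H} {a : H →L[ℂ] H} (ha : a ∈ S.M) {v : H} (hv : v ∈ F) :
    a (conjBy D.Jc a v) ∈ D.cone F :=
  subset_closure (AddSubmonoid.subset_closure (Set.mem_image2_of_mem ha hv))

theorem subset_cone (F : Set H) : F ⊆ D.cone F := fun v hv => by
  simpa [D.isConj.conjBy_one] using D.gen_mem_cone (a := 1) (one_mem _) hv

/-- To map the cone into a closed submonoid it is enough to look at the generators. -/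
lemma cone_induction {F : Set H} {C : Set H} (T : H → H) (hC : IsClosed C) (hTc : Continuous T)
    (h0 : T 0 ∈ C) (hadd : ∀ ξ η, T ξ ∈ C → T η ∈ C → T (ξ + η) ∈ C)
    (hgen : ∀ a ∈ S.M, ∀ v ∈ F, T (a (conjBy D.Jc a v)) ∈ C) {ξ : H} (hξ : ξ ∈ D.cone F) :
    T ξ ∈ C := by
  refine closure_minimal (t := T ⁻¹' C) (fun v hv => ?_) (hC.preimage hTc) hξ
  induction hv using AddSubmonoid.closure_induction with
  | mem v hv => obtain ⟨a, ha, w, hw, rfl⟩ := hv; exact hgen a ha w hw
  | zero => exact h0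
  | add v w _ _ h1 h2 => exact hadd v w h1 h2

lemma inner_gen {F : Set H} (hF : D.Pair F) {a b : H →L[ℂ] H} (ha : a ∈ S.M) (hb : b ∈ S.M)
    {v w : H} (hv : v ∈ F) (hw : w ∈ F) :
    0 ≤ (⟪a (conjBy D.Jc a v), b (conjBy D.Jc b w)⟫_ℂ).re ∧
      (⟪a (conjBy D.Jc a v), b (conjBy D.Jc b w)⟫_ℂ).im = 0 := by
  set c := star a * b with hcdef
  have hc : c ∈ S.M := mul_mem (star_mem ha) hb
  have e : ⟪a (conjBy D.Jc a v), b (conjBy D.Jc b w)⟫_ℂ
      = ⟪star c v, D.J (star (star c) w)⟫_ℂ := by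
    calc ⟪a (conjBy D.Jc a v), b (conjBy D.Jc b w)⟫_ℂ
        = ⟪v, (star (conjBy D.Jc a) * c) (conjBy D.Jc b w)⟫_ℂ := by
          simp [hcdef, mul_apply_eq_comp, ContinuousLinearMap.star_eq_adjoint,
            ContinuousLinearMap.adjoint_inner_right]
      _ = ⟪v, c (conjBy D.Jc c w)⟫_ℂ := by
          rw [D.isConj.star_conjBy, ← D.conj_commute hc (star_mem ha), hcdef, D.isConj.conjBy_mul]
          simp [mul_apply_eq_comp]
      _ = _ := by
          rw [star_star, ContinuousLinearMap.star_eq_adjoint c,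
            ContinuousLinearMap.adjoint_inner_left]
          simp [conjBy_apply, Jc_apply, hF.1 w hw]
  rw [e]
  exact hF.2 v hv w hw _ (star_mem hc)

/-- The standard form spanned by a set with the pairing condition. -/
theorem stdForm (hcomm : D.CommTh) {F : Set H} (hF : D.Pair F) :
    StdForm S.M D.Jc (D.cone F) where
  invol := D.J_J
  isometry := D.J.norm_map
  conj_mem _ ha := D.conj_mem_commutant ha
  conj_mem' := hcomm
  closed := isClosed_closure
  zero_mem := subset_closure (zero_mem _)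
  add_mem v hv w hw := map_mem_closure₂ continuous_add hv hw fun _ ha _ hb => add_mem ha hb
  smul_mem r hr ξ hξ := by
    refine D.cone_induction (fun v => (r : ℂ) • v) isClosed_closure (by fun_prop)
      (by simpa using subset_closure (zero_mem _))
      (fun v w hv hw => by
        simpa using map_mem_closure₂ continuous_add hv hw fun _ ha _ hb => add_mem ha hb)
      (fun a ha v hv => ?_) hξ
    have h := D.gen_mem_cone (a := ((√r : ℝ) : ℂ) • a)
      (S.M.toStarSubalgebra.smul_mem ha _) hv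
    rw [conjBy_smul, Complex.conj_ofReal] at h
    simp only [smul_apply, map_smul, smul_smul] at h
    rwa [← Complex.ofReal_mul, Real.mul_self_sqrt hr] at h
  fixed ξ hξ := by
    refine sub_eq_zero.1 (D.cone_induction (C := {0}) (fun v => D.Jc v - v) isClosed_singleton
      (D.Jc.continuous.sub continuous_id) (by simp) (fun v w hv hw => ?_) (fun a ha v hv => ?_) hξ)
    · simp only [Set.mem_singleton_iff, sub_eq_zero] at *
      rw [map_add, hv, hw]
    · simp only [Set.mem_singleton_iff, sub_eq_zero]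
      have h := D.conj_commute ha ha
      calc D.Jc (a (conjBy D.Jc a v)) = conjBy D.Jc a (a v) := by
            simp [conjBy_apply, Jc_apply, hF.1 v hv]
        _ = a (conjBy D.Jc a v) := by
            simpa [mul_apply_eq_comp] using (congrArg (fun T : H →L[ℂ] H => T v) h).symm
  conj_invariant a ha ξ hξ := by
    refine D.cone_induction (fun v => a (conjBy D.Jc a v)) isClosed_closure (by fun_prop)
      (by simpa using subset_closure (zero_mem _))
      (fun v w hv hw => by
        simpa using map_mem_closure₂ continuous_add hv hw fun _ ha _ hb => add_mem ha hb)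
      (fun b hb v hv => ?_) hξ
    have e : a (conjBy D.Jc a (b (conjBy D.Jc b v))) = (a * b) (conjBy D.Jc (a * b) v) := by
      calc a (conjBy D.Jc a (b (conjBy D.Jc b v)))
          = a ((conjBy D.Jc a * b) (conjBy D.Jc b v)) := rfl
        _ = _ := by rw [← D.conj_commute hb ha, D.isConj.conjBy_mul]; rfl
    rw [e]
    exact D.gen_mem_cone (mul_mem ha hb) hv
  inner_nonneg ξ hξ η hη := by
    let C : H → Set H := fun v => {w | 0 ≤ (⟪v, w⟫_ℂ).re ∧ (⟪v, w⟫_ℂ).im = 0}
    have hC : ∀ v, IsClosed (C v) := fun v =>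
      (isClosed_le continuous_const (Complex.continuous_re.comp
        (continuous_const.inner continuous_id))).inter
      (isClosed_eq (Complex.continuous_im.comp (continuous_const.inner continuous_id))
        continuous_const)
    have hadd : ∀ v a b, a ∈ C v → b ∈ C v → a + b ∈ C v := fun v a b ha hb => by
      simp only [C, Set.mem_ofPred_eq, inner_add_right, Complex.add_re, Complex.add_im] at *
      exact ⟨add_nonneg ha.1 hb.1, by rw [ha.2, hb.2, add_zero]⟩
    have hsymm : ∀ v w, w ∈ C v → v ∈ C w := fun v w h => by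
      simp only [C, Set.mem_ofPred_eq] at *
      rw [← inner_conj_symm w v, Complex.conj_re, Complex.conj_im, h.2, neg_zero]
      exact ⟨h.1, rfl⟩
    have h1 : ∀ a ∈ S.M, ∀ v ∈ F, ξ ∈ C (a (conjBy D.Jc a v)) := fun a ha v hv =>
      D.cone_induction id (hC _) continuous_id (by simp [C]) (hadd _)
        (fun b hb w hw => D.inner_gen hF ha hb hv hw) hξ
    exact D.cone_induction id (hC ξ) continuous_id (by simp [C]) (hadd ξ)
      (fun a ha v hv => hsymm _ _ (h1 a ha v hv)) hη

/-- If `⟨x Ω, J x* Ω⟩ = 0` and `x` is self-adjoint then `x = 0`. -/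
theorem eq_zero_of_inner_J_eq_zero (hd : D.EntireDense) (hx : x ∈ S.M) (hsa : IsSelfAdjoint x)
    (h0 : ⟪x S.Ω, D.J (x S.Ω)⟫_ℂ = 0) : x = 0 := by
  choose y hy hy1 hy2 using fun n : ℕ => hd x hx (1 / ((n : ℝ) + 1)) (by positivity)
  have l1 : Tendsto (fun n => y n S.Ω) atTop (𝓝 (x S.Ω)) := tendsto_iff_norm_sub_tendsto_zero.2
    (squeeze_zero (fun _ => norm_nonneg _) hy1 tendsto_one_div_add_atTop_nhds_zero_nat)
  have l2 : Tendsto (fun n => star (y n) S.Ω) atTop (𝓝 (x S.Ω)) := by
    refine tendsto_iff_norm_sub_tendsto_zero.2 (squeeze_zero (fun _ => norm_nonneg _) ?_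
      tendsto_one_div_add_atTop_nhds_zero_nat)
    simpa only [hsa.star_eq] using hy2
  choose F hF using fun n => IsEntire.exists_ext D (hy n)
  have l3 : Tendsto (fun n => ‖F n (-(I / 4)) S.Ω‖) atTop (𝓝 0) := by
    have h := ((l2.inner (𝕜 := ℂ) ((D.J.continuous.tendsto _).comp l1)).norm).sqrt
    rw [h0, norm_zero, Real.sqrt_zero] at h
    refine h.congr fun n => ?_
    simp only [Function.comp_apply, D.inner_star_J_eq (hF n), Complex.norm_real, Real.norm_eq_abs,
      abs_pow, abs_norm, Real.sqrt_sq (norm_nonneg _)]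
  refine S.separating x hx ?_
  refine S.cyclic.eq_zero_of_inner_left ℂ ?_
  rintro _ ⟨b, hb, rfl⟩
  refine eq_of_forall_dist_le fun ε hε => ?_
  obtain ⟨c, hc, hc1, -⟩ := hd b hb (ε / (‖x S.Ω‖ + 1)) (by positivity)
  obtain ⟨G, hG⟩ := IsEntire.exists_ext D hc
  have hlim : Tendsto (fun n => ⟪y n S.Ω, c S.Ω⟫_ℂ) atTop (𝓝 0) := by
    refine squeeze_zero_norm (fun n => ?_) (by simpa using l3.mul_const ‖G (I / 4) S.Ω‖)
    have h2 := twoPt_one_const D (hF n) hG 0 0 (I / 4)
    simp only [twoPt, zero_add, map_div₀, Complex.conj_I, map_ofNat, neg_div, map_zero,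
      (hF n).zero, hG.zero, one_apply_eq_self] at h2
    rw [← h2]
    exact norm_inner_le_norm _ _
  have he : ⟪x S.Ω, c S.Ω⟫_ℂ = 0 :=
    tendsto_nhds_unique (l1.inner (𝕜 := ℂ) tendsto_const_nhds) hlim
  rw [dist_eq_norm, sub_zero, show b S.Ω = c S.Ω - (c S.Ω - b S.Ω) by abel, inner_sub_right, he,
    zero_sub, norm_neg]
  refine (norm_inner_le_norm _ _).trans ?_
  calc ‖x S.Ω‖ * ‖c S.Ω - b S.Ω‖ ≤ (‖x S.Ω‖ + 1) * (ε / (‖x S.Ω‖ + 1)) := by
        refine mul_le_mul (by linarith) hc1 (norm_nonneg _) (by positivity)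
    _ = ε := by field_simp

/-- A sesquilinear form with real diagonal is Hermitian. -/
lemma herm (M : VonNeumannAlgebra H) (f : (H →L[ℂ] H) → (H →L[ℂ] H) → ℂ)
    (ha1 : ∀ a b c, f (a + b) c = f a c + f b c) (ha2 : ∀ a b c, f a (b + c) = f a b + f a c)
    (hs1 : ∀ (k : ℂ) a b, f (k • a) b = conj k * f a b)
    (hs2 : ∀ (k : ℂ) a b, f a (k • b) = k * f a b)
    (h : ∀ a ∈ M, (f a a).im = 0) {a b : H →L[ℂ] H} (ha : a ∈ M) (hb : b ∈ M) :
    f b a = conj (f a b) := by
  have h1 := h _ (add_mem ha hb)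
  have h2 := h _ (add_mem ha (M.toStarSubalgebra.smul_mem hb I))
  simp only [ha1, ha2, hs1, hs2, Complex.add_im, Complex.mul_im, Complex.mul_re, Complex.conj_re,
    Complex.conj_im, Complex.I_re, Complex.I_im, h a ha, h b hb] at h1 h2
  refine Complex.ext ?_ ?_ <;> simp at * <;> linarith

variable {S' : Std H} (D' : Modular S')

/-- The modular conjugation is the only conjugation of a standard form containing the vector. -/
theorem J_eq_of_stdForm (hd' : D'.EntireDense) {J : H →L⋆[ℂ] H} {P : Set H}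
    (hstd : StdForm S'.M J P) (hΩ : S'.Ω ∈ P) (v : H) : D'.J v = J v := by
  have hJ := hstd.isConj
  set h := S'.Ω with hh
  have hJh : J h = h := hstd.fixed _ hΩ
  set u : H →L[ℂ] H := J.comp D'.Jc with hu
  have huv : ∀ w, u w = J (D'.J w) := fun w => rfl
  -- positivity of `⟨h, m J m J h⟩`
  have hpos : ∀ m ∈ S'.M, 0 ≤ (⟪h, m (conjBy J m h)⟫_ℂ).re ∧ (⟪h, m (conjBy J m h)⟫_ℂ).im = 0 :=
    fun m hm => hstd.inner_nonneg _ hΩ _ (hstd.conj_invariant m hm _ hΩ)
  -- the form on `M h`
  have hqA : ∀ a ∈ S'.M, 0 ≤ (⟪a h, J (star a h)⟫_ℂ).re ∧ (⟪a h, J (star a h)⟫_ℂ).im = 0 := by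
    intro a ha
    have e : ⟪a h, J (star a h)⟫_ℂ = ⟪h, star a (conjBy J (star a) h)⟫_ℂ := by
      rw [conjBy_apply, hJh, ContinuousLinearMap.star_eq_adjoint,
        ContinuousLinearMap.adjoint_inner_right]
    rw [e]
    exact hpos _ (star_mem ha)
  -- the form on `M' h = J' M h`
  have hqB : ∀ a ∈ S'.M, (⟪D'.J (a h), u (star a h)⟫_ℂ).im = 0 := by
    intro a ha
    have hb : conjBy D'.Jc a ∈ S'.M.commutant := D'.conj_mem_commutant ha
    set m := conjBy J (star (conjBy D'.Jc a)) with hm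
    have hmM : m ∈ S'.M := hstd.conj_mem' _ (star_mem hb)
    have e1 : D'.J (a h) = conjBy D'.Jc a h := by rw [hh, conjBy_apply, Jc_apply, Jc_apply, D'.J_Ω]
    have e2 : u (star a h) = m h := by
      rw [huv, hm, D'.isConj.star_conjBy, conjBy_apply, hJh, hh, conjBy_apply, Jc_apply, Jc_apply, D'.J_Ω]
    have e3 : star (conjBy D'.Jc a) = conjBy J m := by rw [hm, hJ.conjBy_conjBy]
    rw [e1, e2, ← ContinuousLinearMap.adjoint_inner_right, ← ContinuousLinearMap.star_eq_adjoint, e3,
      show conjBy J m (m h) = (conjBy J m * m) h from rfl, ← hstd.commute hmM hmM]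
    exact (hpos m hmM).2
  have hA : ∀ a ∈ S'.M, ∀ b ∈ S'.M,
      ⟪b h, J (star a h)⟫_ℂ = conj ⟪a h, J (star b h)⟫_ℂ := fun a ha b hb =>
    herm S'.M (fun p q => ⟪p h, J (star q h)⟫_ℂ) (fun _ _ _ => by simp)
      (fun _ _ _ => by simp) (fun _ _ _ => by simp [mul_comm])
      (fun _ _ _ => by simp [star_smul, map_smulₛₗ])
      (fun a ha => (hqA a ha).2) ha hb
  have hB : ∀ a ∈ S'.M, ∀ b ∈ S'.M,
      ⟪D'.J (b h), u (star a h)⟫_ℂ = conj ⟪D'.J (a h), u (star b h)⟫_ℂ := fun a ha b hb =>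
    herm S'.M (fun p q => ⟪D'.J (q h), u (star p h)⟫_ℂ) (fun _ _ _ => by simp)
      (fun _ _ _ => by simp)
      (fun _ _ _ => by simp [star_smul, mul_comm])
      (fun _ _ _ => by simp [map_smulₛₗ, mul_comm])
      hqB hb ha
  -- constancy of the two point functions
  have key : ∀ a b F G, D'.IsExt a F → D'.IsExt b G → ∀ z w ζ : ℂ,
      twoPt u h F G (z + ζ) (w + ζ) = twoPt u h F G z w ∧
        twoPt u h F G z w = conj (twoPt u h G F (conj w) (conj z)) := by
    intro a b F G hF hG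
    have mF : ∀ z, F z ∈ S'.M := fun z => hF.mem z
    have mG : ∀ z, G z ∈ S'.M := fun z => hG.mem z
    set g := twoPt u h F G
    set k : ℂ → ℂ → ℂ := fun z w => conj (twoPt u h G F (conj w) (conj z)) with hk
    have hJ' : ∀ (c : H →L[ℂ] H) K, D'.IsExt c K → ∀ w,
        J (star (K w) h) = u (K (w - I / 2) h) := fun c K hK w => by
      rw [huv, hh, hK.J_sub]
    have eA : ∀ z w, g z (w - I / 2) = k (z + I / 2) w := by
      intro z w
      have h1 := hA (G w) (mG w) (F (conj z)) (mF _)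
      rw [hJ' b G hG, hJ' a F hF] at h1
      simp only [g, hk, twoPt, Complex.conj_conj]
      rw [h1]
      congr 3
      simp only [map_add, map_div₀, Complex.conj_I, map_ofNat, neg_div, sub_eq_add_neg]
    have eB : ∀ z w, g (z + I / 2) w = k z (w - I / 2) := by
      intro z w
      have h1 := hB (G w) (mG w) (F (conj z)) (mF _)
      have eG : D'.J (star (G w) h) = G (w - I / 2) h := by rw [hh, ← hG.J_sub, D'.J_J]
      have eF : D'.J (star (F (conj z)) h) = F (conj z - I / 2) h := by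
        rw [hh, ← hF.J_sub, D'.J_J]
      rw [huv, huv, eG, eF, ← hJ.invol (D'.J (F (conj z) h)), ← hJ.invol (D'.J (G w h)), hJ.inner,
        hJ.inner, ← huv, ← huv] at h1
      simp only [g, hk, twoPt, Complex.conj_conj]
      rw [show conj (z + I / 2) = conj z - I / 2 by
        simp [map_div₀, map_ofNat, neg_div, sub_eq_add_neg]]
      rw [h1, Complex.conj_conj]
    have per : ∀ z w, g (z + I) (w + I) = g z w := by
      intro z w
      have h1 := eB (z + I / 2) (w + I)
      have h2 := eA z (w + I / 2)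
      rw [show w + I / 2 - I / 2 = w by ring] at h2
      rw [show z + I / 2 + I / 2 = z + I by ring, show w + I - I / 2 = w + I / 2 by ring] at h1
      rw [h1, h2]
    intro z w ζ
    have hdiff := differentiable_twoPt u h hF.diff hG.diff z w
    have hconst : ∀ ζ, g (z + ζ) (w + ζ) = g z w := by
      intro ζ
      obtain ⟨C, hC⟩ := (isCompact_Icc (a := (0 : ℝ)) (b := 1)).exists_bound_of_continuousOn
        (f := fun s : ℝ => ‖u‖ * ‖F (conj (z + s * I)) h‖ * ‖G (w + s * I) h‖)
        (by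
          refine Continuous.continuousOn ?_
          exact ((continuous_const.mul ((hF.diff.continuous.comp (by fun_prop)).clm_apply
            continuous_const).norm)).mul
            ((hG.diff.continuous.comp (by fun_prop)).clm_apply continuous_const).norm)
      have hper : ∀ (n : ℤ) ξ, g (z + (ξ + n * I)) (w + (ξ + n * I)) = g (z + ξ) (w + ξ) := by
        intro n ξ
        have hp : Function.Periodic (fun ξ : ℂ => g (z + ξ) (w + ξ)) I := fun ξ => by
          simp only [← add_assoc, per]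
        exact hp.int_mul n ξ
      have hb : ∀ ξ, ‖g (z + ξ) (w + ξ)‖ ≤ C := by
        intro ξ
        rw [← hper (-⌊ξ.im⌋) ξ]
        set s : ℝ := ξ.im - ⌊ξ.im⌋
        have hs : s ∈ Set.Icc (0 : ℝ) 1 :=
          ⟨sub_nonneg.2 (Int.floor_le _), by linarith [Int.lt_floor_add_one ξ.im]⟩
        have e : ξ + ((-⌊ξ.im⌋ : ℤ) : ℂ) * I = (s : ℂ) * I + (ξ.re : ℂ) := by
          apply Complex.ext <;> simp [s, ← sub_eq_add_neg, Int.self_sub_floor]
        rw [e]
        refine le_trans ?_ ((le_abs_self _).trans (hC s hs))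
        simp only [g, twoPt]
        rw [← add_assoc, ← add_assoc, map_add, Complex.conj_ofReal]
        refine (norm_inner_le_norm _ _).trans ?_
        rw [hh, hF.norm_add_real, mul_comm ‖u‖, mul_assoc]
        refine mul_le_mul_of_nonneg_left ?_ (norm_nonneg _)
        rw [← hG.norm_add_real (w + s * I) ξ.re]
        exact u.le_opNorm _
      have := hdiff.apply_eq_apply_of_bounded
        (isBounded_iff_forall_norm_le.2 ⟨C, by rintro _ ⟨ξ, rfl⟩; exact hb ξ⟩) ζ 0
      simpa using this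
    refine ⟨hconst ζ, ?_⟩
    have h1 := hconst (-(I / 2))
    have h2 := eA (z - I / 2) w
    rw [sub_add_cancel] at h2
    rw [← sub_eq_add_neg, ← sub_eq_add_neg] at h1
    rw [← h1, h2]
  -- `u` is positive
  have hdense : ∀ w : H, ∀ ε > 0, ∃ a, D'.IsEntire a ∧ ‖a h - w‖ ≤ ε := by
    intro w ε hε
    obtain ⟨_, ⟨a, ha, rfl⟩, hd1⟩ := S'.cyclic.exists_dist_lt w (half_pos hε)
    obtain ⟨b, hb, hb1, -⟩ := hd' a ha (ε / 2) (half_pos hε)
    refine ⟨b, hb, ?_⟩
    rw [dist_eq_norm'] at hd1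
    calc ‖b h - w‖ ≤ ‖b h - a h‖ + ‖a h - w‖ := norm_sub_le_norm_sub_add_norm_sub _ _ _
      _ ≤ ε := by rw [hh]; linarith
  choose e he hel using fun (w : H) (n : ℕ) => hdense w (1 / ((n : ℝ) + 1)) (by positivity)
  have hlim : ∀ w, Tendsto (fun n => e w n h) atTop (𝓝 w) := fun w =>
    tendsto_iff_norm_sub_tendsto_zero.2
      (squeeze_zero (fun _ => norm_nonneg _) (hel w) tendsto_one_div_add_atTop_nhds_zero_nat)
  have husymm : ∀ v w, ⟪v, u w⟫_ℂ = ⟪u v, w⟫_ℂ := by
    intro v w
    refine tendsto_nhds_unique ((hlim v).inner (𝕜 := ℂ) ((u.continuous.tendsto _).comp (hlim w)))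
      ((((u.continuous.tendsto _).comp (hlim v)).inner (𝕜 := ℂ) (hlim w)).congr fun n => ?_)
    obtain ⟨F, hF⟩ := IsEntire.exists_ext D' (he v n)
    obtain ⟨G, hG⟩ := IsEntire.exists_ext D' (he w n)
    have h1 := (key _ _ F G hF hG 0 0 0).2
    simp only [twoPt, map_zero, hF.zero, hG.zero, inner_conj_symm] at h1
    exact h1.symm
  have hupos : ∀ v, 0 ≤ (⟪v, u v⟫_ℂ).re := by
    intro v
    refine ge_of_tendsto ((Complex.continuous_re.tendsto _).comp
      ((hlim v).inner (𝕜 := ℂ) ((u.continuous.tendsto _).comp (hlim v))))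
      (Eventually.of_forall fun n => ?_)
    obtain ⟨F, hF⟩ := IsEntire.exists_ext D' (he v n)
    have h1 := (key _ _ F F hF hF (-(I / 4)) (-(I / 4)) (I / 4)).1
    have h2 := hqA (F (I / 4)) (hF.mem _)
    rw [show J (star (F (I / 4)) h) = u (F (-(I / 4)) h) by
      rw [huv, hh, ← hF.J_sub, show I / 4 - I / 2 = -(I / 4) by ring]] at h2
    simp only [twoPt, neg_add_cancel,
      map_zero, map_neg, map_div₀, Complex.conj_I, map_ofNat, neg_div, neg_neg, hF.zero] at h1
    rw [← h1] at h2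
    exact h2.1
  have huu : ∀ w, ‖u w‖ = ‖w‖ := fun w => by rw [huv, hJ.isometry, D'.J.norm_map]
  -- a positive symmetric isometry is the identity
  have hu1 : u v = v := by
    have h2 : u (u v) = v := by
      refine ext_inner_left ℂ fun w => ?_
      rw [husymm, huv, huv, hJ.inner, D'.inner_J]
    have hw := hupos (v - u v)
    rw [map_sub, h2, show u v - v = -(v - u v) by abel, inner_neg_right, Complex.neg_re] at hw
    have := @inner_self_eq_norm_sq ℂ H _ _ _ (v - u v)
    simp only [RCLike.re_to_complex] at this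
    have h0 : ‖v - u v‖ = 0 := by nlinarith [norm_nonneg (v - u v)]
    exact (sub_eq_zero.1 (norm_eq_zero.1 h0)).symm
  rw [huv] at hu1
  conv_rhs => rw [← hu1, hJ.invol]

end Modular

/-! ### Other vectors of the cone -/

namespace Homogeneity

open P132.Modular

variable {M : VonNeumannAlgebra H} {J : H →L⋆[ℂ] H} {P : Set H}

/-- A separating vector of the cone is cyclic. -/
theorem StdForm.cyclic (hstd : StdForm M J P) {h : H} (hP : h ∈ P) (hsep : SepCorner M 1 h) :
    Dense {v : H | ∃ x ∈ M, x h = v} := by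
  let E : Submodule ℂ H :=
    { carrier := (fun a : H →L[ℂ] H => a h) '' (M.commutant : Set (H →L[ℂ] H))
      add_mem' := by
        rintro _ _ ⟨a, ha, rfl⟩ ⟨b, hb, rfl⟩
        exact ⟨a + b, AddMemClass.add_mem ha hb, rfl⟩
      zero_mem' := ⟨0, ZeroMemClass.zero_mem M.commutant, rfl⟩
      smul_mem' := by
        rintro c _ ⟨a, ha, rfl⟩
        exact ⟨c • a, M.commutant.toStarSubalgebra.smul_mem ha c, rfl⟩ }
  have : CompleteSpace E.topologicalClosure := E.isClosed_topologicalClosure.completeSpace_coe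
  set G := E.topologicalClosure
  set e := G.starProjection
  have he : e ∈ M := by
    rw [VonNeumannAlgebra.IsStarProjection.mem_iff isStarProjection_starProjection]
    intro y hy x hx
    rw [Submodule.mem_comap, show LinearMap.range e.toLinearMap = G from
      Submodule.range_starProjection G] at *
    refine map_mem_closure (f := y) y.continuous hx ?_
    rintro _ ⟨a, ha, rfl⟩
    exact ⟨y * a, mul_mem hy ha, rfl⟩
  have hh : h ∈ G := E.le_topologicalClosure ⟨1, one_mem M.commutant, rfl⟩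
  have he1 : 1 - e = 0 := hsep _ (sub_mem (one_mem M) he) (mul_one _)
    (by simp [e, Submodule.starProjection_eq_self_iff.2 hh])
  intro v
  have hv : J v ∈ G := by
    refine Submodule.starProjection_eq_self_iff.1 ?_
    have := congrArg (fun T : H →L[ℂ] H => T (J v)) he1
    exact (sub_eq_zero.1 (by simpa using this)).symm
  have h2 := map_mem_closure (f := J) J.continuous hv (t := {v : H | ∃ x ∈ M, x h = v}) ?_
  · rwa [hstd.invol] at h2
  rintro _ ⟨b, hb, rfl⟩
  exact ⟨conjBy J b, hstd.conj_mem' b hb, by rw [conjBy_apply, hstd.fixed h hP]⟩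

/-- Every standard vector has modular data. -/
def HasModular (H : Type*) [NormedAddCommGroup H] [InnerProductSpace ℂ H] [CompleteSpace H] :
    Prop := ∀ S : Std H, ∃ D : Modular S, D.EntireDense

/-- A unit separating vector of the cone as a standard vector, with the same conjugation. -/
theorem StdForm.exists_modular (hstd : StdForm M J P) (hmod : HasModular H) {h : H} (hP : h ∈ P)
    (h1 : ‖h‖ = 1) (hsep : SepCorner M 1 h) :
    ∃ (S : Std H) (D : Modular S), S.M = M ∧ S.Ω = h ∧ D.EntireDense ∧ ∀ v, D.J v = J v := by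
  let S : Std H := ⟨M, h, h1, hstd.cyclic hP hsep, fun x hx h0 => hsep x hx (mul_one x) h0⟩
  obtain ⟨D, hD⟩ := hmod S
  exact ⟨S, D, rfl, rfl, hD, D.J_eq_of_stdForm hD hstd hP⟩

/-- Any two vectors of the cone pair positively. -/
theorem StdForm.pairing (hstd : StdForm M J P) {v w : H} (hv : v ∈ P) (hw : w ∈ P)
    {x : H →L[ℂ] H} (hx : x ∈ M) :
    0 ≤ (⟪x v, J (star x w)⟫_ℂ).re ∧ (⟪x v, J (star x w)⟫_ℂ).im = 0 := by
  have e : ⟪x v, J (star x w)⟫_ℂ = ⟪v, star x (conjBy J (star x) w)⟫_ℂ := by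
    rw [conjBy_apply, hstd.fixed w hw, ContinuousLinearMap.star_eq_adjoint,
      ContinuousLinearMap.adjoint_inner_right]
  rw [e]
  exact hstd.inner_nonneg v hv _ (hstd.conj_invariant _ (star_mem hx) w hw)

/-- The compressions stay in the cone. -/
theorem StdForm.comp2_mem (hstd : StdForm M J P) {r : H →L[ℂ] H} (hr : r ∈ M)
    (hrp : IsStarProjection r) {h : H} (hP : h ∈ P) : comp2 J r h ∈ P := by
  rw [comp2, rmul, hrp.isSelfAdjoint.star_eq]
  exact hstd.conj_invariant r hr h hP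

/-- The compression `r h r` separates the corner of `r`. -/
theorem StdForm.sepCorner_comp2 (hstd : StdForm M J P) (hmod : HasModular H) {h : H} (hP : h ∈ P)
    (hsep : SepCorner M 1 h) {r : H →L[ℂ] H} (hrp : IsStarProjection r) :
    SepCorner M r (comp2 J r h) := by
  intro x hx hxr h0
  by_cases hh0 : h = 0
  · exact hsep x hx (mul_one x) (by simp [hh0])
  set k := ((‖h‖⁻¹ : ℝ) : ℂ) • h with hk
  have hkP : k ∈ P := hstd.smul_mem _ (by positivity) h hP
  have hk1 : ‖k‖ = 1 := by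
    simp [hk, norm_smul, inv_mul_cancel₀ (norm_ne_zero_iff.2 hh0)]
  have hksep : SepCorner M 1 k := fun y hy hy1 h2 => hsep y hy hy1 <| by
    simpa [hk, hh0] using h2
  obtain ⟨S, D, hSM, hSΩ, hD, hDJ⟩ := hstd.exists_modular hmod hkP hk1 hksep
  have hJ := hstd.isConj
  set c := star x * x with hc
  have hcM : c ∈ M := mul_mem (star_mem hx) hx
  have hcsa : IsSelfAdjoint c := IsSelfAdjoint.star_mul_self x
  have hcr : c * r = c := by rw [hc, mul_assoc, hxr]
  have hck : c (conjBy J r k) = 0 := by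
    have h3 : x (conjBy J r h) = 0 := by
      rw [comp2, rmul, hrp.isSelfAdjoint.star_eq] at h0
      calc x (conjBy J r h) = (x * r) (conjBy J r h) := by rw [hxr]
        _ = 0 := h0
    simp [hc, hk, mul_apply_eq_comp, h3]
  have hzero : c (conjBy J c k) = 0 := by
    calc c (conjBy J c k) = c ((conjBy J c * conjBy J r) k) := by rw [← hJ.conjBy_mul, hcr]
      _ = (c * conjBy J c) (conjBy J r k) := rfl
      _ = conjBy J c (c (conjBy J r k)) := by rw [hstd.commute hcM hcM]; rfl
      _ = 0 := by rw [hck, map_zero]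
  have h4 : ⟪c S.Ω, D.J (c S.Ω)⟫_ℂ = 0 := by
    rw [hSΩ, hDJ, ← ContinuousLinearMap.adjoint_inner_right,
      ← ContinuousLinearMap.star_eq_adjoint, hcsa.star_eq,
      show J (c k) = conjBy J c k by rw [conjBy_apply, hstd.fixed k hkP], hzero, inner_zero_right]
  have h5 : c = 0 := D.eq_zero_of_inner_J_eq_zero hD (hSM ▸ hcM) hcsa h4
  rwa [hc, CStarRing.star_mul_self_eq_zero_iff] at h5

end Homogeneity

end P132
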