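import Vale.Agent.P132.Homog.Layer
import Vale.Agent.P132.Homog.Sandwich
import Vale.Agent.P132.Homog.Standard
import Vale.Agent.P132.Tomita.Convex

/-!
# Connes' cut, and pieces between two corners

From a nearly commuting element of an off-diagonal corner to a nearly commuting partial isometry,
by the threshold lemma applied to a spectral discretisation of `x + x⋆`.
-/

set_option linter.unusedSectionVars false

noncomputable section

namespace P132.Homogeneity

open Filter Topology
open scoped InnerProductSpace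
open Vale.Agent.P132.Homog (exists_threshold_proj)
open Vale.Agent.P132.Tomita (cfc_mem)

variable {H : Type*} [NormedAddCommGroup H] [InnerProductSpace ℂ H] [CompleteSpace H]
variable {M : VonNeumannAlgebra H} {J : H →L⋆[ℂ] H} {P : Set H}

/-! ### Range projections and spectral discretisation -/

/-- The projection on the closure of the range. -/
def rangeClos (g : H →L[ℂ] H) : H →L[ℂ] H :=
  g.range.topologicalClosure.starProjection

lemma rangeClos_mul (g : H →L[ℂ] H) : rangeClos g * g = g := by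
  ext x
  exact Submodule.starProjection_eq_self_iff.2
    (Submodule.le_topologicalClosure _ ⟨x, rfl⟩)

lemma mul_rangeClos_eq_zero {g B : H →L[ℂ] H} (h : B * g = 0) : B * rangeClos g = 0 := by
  have hle : g.range.topologicalClosure ≤ B.ker := by
    refine Submodule.topologicalClosure_minimal _ ?_ B.isClosed_ker
    rintro _ ⟨x, rfl⟩
    exact congr($h x)
  ext x
  exact hle (Submodule.coe_mem _)

lemma rangeClos_mem {g : H →L[ℂ] H} (hg : g ∈ M) : rangeClos g ∈ M := by
  have hp : IsStarProjection (rangeClos g) := isStarProjection_starProjection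
  rw [VonNeumannAlgebra.IsStarProjection.mem_iff hp]
  intro y hy
  rw [rangeClos, Submodule.range_starProjection, Module.End.mem_invtSubmodule]
  intro v hv
  have hv' : v ∈ closure (g.range : Set H) := by
    rwa [← Submodule.topologicalClosure_coe]
  change y v ∈ g.range.topologicalClosure
  rw [← SetLike.mem_coe, Submodule.topologicalClosure_coe]
  refine map_mem_closure y.continuous hv' ?_
  rintro _ ⟨z, rfl⟩
  exact ⟨y z, congr($(VonNeumannAlgebra.mem_commutant_iff.1 hy g hg) z)⟩

/-- The positive part beyond `t`. -/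
def above (X : H →L[ℂ] H) (t : ℝ) : H →L[ℂ] H := cfc (fun s : ℝ => max (s - t) 0) X

/-- The negative part below `t`. -/
def below (X : H →L[ℂ] H) (t : ℝ) : H →L[ℂ] H := cfc (fun s : ℝ => max (t - s) 0) X

lemma above_neg_zero {X : H →L[ℂ] H} (hX : IsSelfAdjoint X) :
    above (-X) 0 = below X 0 := by
  rw [above, below, ← cfc_comp_neg (fun s : ℝ => max (s - 0) 0) X]
  simp

lemma norm_sq_eq_re_inner_star_mul (v : H →L[ℂ] H) (h : H) :
    ‖v h‖ ^ 2 = (⟪h, (star v * v) h⟫_ℂ).re := by
  rw [mul_apply_eq_comp, ContinuousLinearMap.star_eq_adjoint,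
    ContinuousLinearMap.adjoint_inner_right, inner_self_eq_norm_sq_to_K]
  norm_cast

lemma norm_sq_posPart {X : H →L[ℂ] H} (hX : IsSelfAdjoint X) (h : H) :
    ‖X h‖ ^ 2 = ‖above X 0 h‖ ^ 2 + ‖above (-X) 0 h‖ ^ 2 := by
  rw [above_neg_zero hX]
  have h1 : X = above X 0 - below X 0 := by
    rw [above, below, ← cfc_sub _ _ X]
    conv_lhs => rw [← cfc_id' ℝ X]
    refine cfc_congr fun s _ => ?_
    rcases le_total s 0 with hs | hs <;> simp [hs]
  have h2 : above X 0 * below X 0 = 0 := by
    rw [above, below, ← cfc_mul _ _ X, ← cfc_zero ℝ X]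
    refine cfc_congr fun s _ => ?_
    rcases le_total s 0 with hs | hs <;> simp [hs]
  have h3 : ⟪above X 0 h, below X 0 h⟫_ℂ = 0 := by
    rw [show ⟪above X 0 h, below X 0 h⟫_ℂ = ⟪h, above X 0 (below X 0 h)⟫_ℂ from
      (cfc_predicate _ X : IsSelfAdjoint (above X 0)).isSymmetric _ _,
      show above X 0 (below X 0 h) = 0 from congr($h2 h), inner_zero_right]
  conv_lhs => rw [h1]
  rw [sub_apply, @norm_sub_sq ℂ, h3]
  simp

lemma norm_sum_orthogonal_le {ι : Type*} [Fintype ι] (T S : ι → H)
    (hT : Pairwise fun i j => ⟪T i, T j⟫_ℂ = 0) (hS : Pairwise fun i j => ⟪S i, S j⟫_ℂ = 0)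
    {δ : ℝ} (hδ : 0 ≤ δ) (hle : ∀ i, ‖T i‖ ≤ δ * ‖S i‖) : ‖∑ i, T i‖ ≤ δ * ‖∑ i, S i‖ := by
  have e : ∀ U : ι → H, (Pairwise fun i j => ⟪U i, U j⟫_ℂ = 0) →
      ‖∑ i, U i‖ ^ 2 = ∑ i, ‖U i‖ ^ 2 := fun U hU => by
    simpa using Vale.Agent.P132.Homog.norm_sq_sum_smul hU (fun _ => (1 : ℝ))
  refine (pow_le_pow_iff_left₀ (norm_nonneg _) (by positivity) two_ne_zero).1 ?_
  rw [mul_pow, e T hT, e S hS, Finset.mul_sum]
  exact Finset.sum_le_sum fun i _ => by
    rw [← mul_pow]; exact pow_le_pow_left₀ (norm_nonneg _) (hle i) 2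

/-- A finite spectral approximation in `M` of a self-adjoint element of `M`. -/
lemma exists_spectral_approx {X : H →L[ℂ] H} (hX : X ∈ M) (hXs : IsSelfAdjoint X) {δ : ℝ}
    (hδ : 0 < δ) : ∃ (n : ℕ) (Q : Fin n → (H →L[ℂ] H)) (c : Fin n → ℝ),
      (∀ i, Q i ∈ M) ∧ (∀ i, IsStarProjection (Q i)) ∧ (∀ i j, i ≠ j → Q i * Q j = 0) ∧
      ∑ i, Q i = 1 ∧
      (∀ v, ‖X v - (∑ i, c i • Q i) v‖ ≤ δ * ‖v‖) ∧
      (∀ v, ‖above X 0 v - (∑ i, max (c i) 0 • Q i) v‖ ≤ δ * ‖v‖) ∧
      ∀ a : ℝ, 0 ≤ a → ∀ W : H →L[ℂ] H, W * W = 1 → star W = W → W * X * W = -X →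
        IsStarProjection (∑ i with a < c i, Q i) ∧
        (∑ i with a < c i, Q i) * W * (∑ i with a < c i, Q i) = 0 := by
  classical
  set n : ℕ := ⌈(‖X‖ + 1) / δ⌉₊ + 1 with hn
  have hnδ : ‖X‖ + 1 ≤ n * δ := by
    rw [← div_le_iff₀ hδ]
    exact (Nat.le_ceil _).trans (by simp [hn])
  set t : ℕ → ℝ := fun i => ((i : ℝ) - n) * δ with ht
  have htmono : Monotone t := fun i j hij =>
    mul_le_mul_of_nonneg_right (sub_le_sub_right (by exact_mod_cast hij) _) hδ.le
  have htn : t n = 0 := by simp [ht]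
  have htsucc : ∀ i, t (i + 1) = t i + δ := fun i => by simp only [ht]; push_cast; ring
  set g : ℕ → (H →L[ℂ] H) := fun i => above X (t i) with hg
  set k : ℕ → (H →L[ℂ] H) := fun i => below X (t i) with hk
  set E : ℕ → (H →L[ℂ] H) := fun i => rangeClos (g i) with hE
  have hgM : ∀ i, g i ∈ M := fun i => cfc_mem hX _
  have hgs : ∀ i, IsSelfAdjoint (g i) := fun i => cfc_predicate _ X
  have hks : ∀ i, IsSelfAdjoint (k i) := fun i => cfc_predicate _ X
  have hEp : ∀ i, IsStarProjection (E i) := fun i => isStarProjection_starProjection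
  have hEM : ∀ i, E i ∈ M := fun i => rangeClos_mem (hgM i)
  have hEg : ∀ i, E i * g i = g i := fun i => rangeClos_mul _
  have hgE : ∀ i, g i * E i = g i := fun i => by
    simpa [star_mul, (hgs i).star_eq, (hEp i).isSelfAdjoint.star_eq] using congr(star $(hEg i))
  have hkE : ∀ i, k i * E i = 0 := fun i => by
    refine mul_rangeClos_eq_zero ?_
    simp only [hk, hg, above, below]
    rw [← cfc_mul _ _ X, ← cfc_zero ℝ X]
    refine cfc_congr fun s _ => ?_
    rcases le_total s (t i) with hs | hs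
    · simp [max_eq_right (sub_nonpos.2 hs)]
    · simp [max_eq_right (sub_nonpos.2 hs)]
  have hEk : ∀ i, E i * k i = 0 := fun i => by
    simpa [star_mul, (hks i).star_eq, (hEp i).isSelfAdjoint.star_eq] using congr(star $(hkE i))
  have hXgk : ∀ i, X - t i • (1 : H →L[ℂ] H) = g i - k i := fun i => by
    simp only [hg, hk, above, below]
    have hid : X - t i • (1 : H →L[ℂ] H)
        = cfc (fun s : ℝ => s) X - cfc (fun _ : ℝ => t i) X := by
      rw [cfc_id' ℝ X, cfc_const (t i) X, Algebra.algebraMap_eq_smul_one]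
    rw [hid, ← cfc_sub _ _ X, ← cfc_sub _ _ X]
    refine cfc_congr fun s _ => ?_
    rcases le_total s (t i) with hs | hs
    · simp [max_eq_right (sub_nonpos.2 hs), max_eq_left (sub_nonneg.2 hs)]
    · simp [max_eq_right (sub_nonpos.2 hs), max_eq_left (sub_nonneg.2 hs)]
  -- monotonicity
  have hmono : ∀ i j, i ≤ j → E i * E j = E j := by
    intro i j hij
    rcases hij.lt_or_eq with hlt | rfl
    swap
    · exact (hEp i).isIdempotentElem.eq
    have hpos : 0 < t j - t i := sub_pos.2
      (mul_lt_mul_of_pos_right (sub_lt_sub_right (by exact_mod_cast hlt) _) hδ)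
    have hfac : g j = g i * cfc (fun s => max (s - t j) 0 / max (s - t i) (t j - t i)) X := by
      simp only [hg, above]
      have hcont : Continuous fun s => max (s - t j) 0 / max (s - t i) (t j - t i) :=
        Continuous.div (by fun_prop) (by fun_prop)
          fun s => ne_of_gt (hpos.trans_le (le_max_right _ _))
      rw [← cfc_mul _ _ X (by fun_prop) hcont.continuousOn]
      refine cfc_congr fun s _ => ?_
      rcases le_total s (t j) with hs | hs
      · simp [max_eq_right (sub_nonpos.2 hs)]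
      · have h1 : t j - t i ≤ s - t i := sub_le_sub_right hs _
        have h2 : s - t i ≠ 0 := ne_of_gt (hpos.trans_le h1)
        simp only [max_eq_left h1, max_eq_left (hpos.le.trans h1)]
        field_simp
    have h1 : (1 - E i) * E j = 0 := mul_rangeClos_eq_zero
      (by rw [hfac, ← mul_assoc, sub_mul 1 (E i) (g i), hEg, one_mul, sub_self, zero_mul])
    rw [sub_mul, one_mul, sub_eq_zero] at h1
    exact h1.symm
  have hmono' : ∀ i j, i ≤ j → E j * E i = E j := fun i j hij => by
    simpa [star_mul, (hEp i).isSelfAdjoint.star_eq, (hEp j).isSelfAdjoint.star_eq]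
      using congr(star $(hmono i j hij))
  -- the ends
  have hspec : ∀ s ∈ spectrum ℝ X, |s| ≤ ‖X‖ := fun s hs => by
    have : Nontrivial (H →L[ℂ] H) := by
      by_contra h
      rw [not_nontrivial_iff_subsingleton] at h
      simp [spectrum.of_subsingleton] at hs
    simpa using spectrum.norm_le_norm_of_mem hs
  have hE0 : E 0 = 1 := by
    have hinv : g 0 * cfc (fun s => 1 / max (s - t 0) 1) X = 1 := by
      simp only [hg, above]
      have hcont : Continuous fun s => 1 / max (s - t 0) 1 :=
        Continuous.div continuous_const (by fun_prop)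
          fun s => ne_of_gt (zero_lt_one.trans_le (le_max_right _ _))
      rw [← cfc_mul _ _ X (by fun_prop) hcont.continuousOn, ← cfc_one ℝ X]
      refine cfc_congr fun s hs => ?_
      have h1 : (1 : ℝ) ≤ s - t 0 := by
        have := (abs_le.1 (hspec s hs)).1
        simp only [ht, Nat.cast_zero]
        linarith
      have h2 : s - t 0 ≠ 0 := ne_of_gt (zero_lt_one.trans_le h1)
      simp only [max_eq_left h1, max_eq_left (zero_le_one.trans h1), Pi.one_apply]
      field_simp
    calc E 0 = E 0 * (g 0 * cfc (fun s => 1 / max (s - t 0) 1) X) := by rw [hinv, mul_one]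
      _ = 1 := by rw [← mul_assoc, hEg, hinv]
  have hElast : E (2 * n) = 0 := by
    have hg0 : g (2 * n) = 0 := by
      simp only [hg, above]
      rw [← cfc_zero ℝ X]
      refine cfc_congr fun s hs => max_eq_right ?_
      have := (abs_le.1 (hspec s hs)).2
      simp only [ht]
      push_cast
      linarith
    have := mul_rangeClos_eq_zero (g := g (2 * n)) (B := 1) (by rw [hg0, mul_zero])
    rwa [one_mul] at this
  -- the partition
  let Q : Fin (2 * n) → (H →L[ℂ] H) := fun i => E i - E (i + 1)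
  have hQM : ∀ i, Q i ∈ M := fun i => sub_mem (hEM _) (hEM _)
  have hQp : ∀ i, IsStarProjection (Q i) := fun i =>
    (hEp _).sub_of_mul_eq_left (hEp _) (hmono' _ _ (Nat.le_succ _))
  have hQ0 : ∀ i j : Fin (2 * n), i < j → Q i * Q j = 0 := by
    intro i j hij
    have h1 : (i : ℕ) + 1 ≤ j := hij
    simp only [Q]
    rw [sub_mul, mul_sub, mul_sub, hmono _ _ (by omega), hmono _ _ (by omega), hmono _ _ h1,
      hmono _ _ (by omega), sub_self]
  have horth : ∀ i j, i ≠ j → Q i * Q j = 0 := fun i j hij => by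
    rcases lt_or_gt_of_ne hij with h | h
    · exact hQ0 i j h
    · simpa [star_mul, (hQp i).isSelfAdjoint.star_eq, (hQp j).isSelfAdjoint.star_eq]
        using congr(star $(hQ0 j i h))
  have hone : ∑ i, Q i = 1 := by
    rw [Fin.sum_univ_eq_sum_range (fun i => E i - E (i + 1)), Finset.sum_range_sub', hE0, hElast,
      sub_zero]
  -- the error on one piece
  have hD : ∀ i : Fin (2 * n), ∀ v, ‖(X * Q i) v - (t i • Q i) v‖ ≤ δ * ‖Q i v‖ := by
    intro i v
    have h1 : (X - t i • (1 : H →L[ℂ] H)) * Q i = (g i - g (i + 1)) * Q i := by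
      have hk0 : k i * Q i = 0 := by
        have : Q i = E i * Q i := by
          simp only [Q]
          rw [mul_sub, (hEp _).isIdempotentElem.eq, hmono _ _ (Nat.le_succ _)]
        rw [this, ← mul_assoc, hkE, zero_mul]
      have hg1 : g (i + 1) * Q i = 0 := by
        have h : g (i + 1) * E i = g (i + 1) := by
          conv_lhs => rw [← hgE (i + 1), mul_assoc, hmono' _ _ (Nat.le_succ _), hgE]
        simp only [Q]
        rw [mul_sub, h, hgE, sub_self]
      rw [hXgk, sub_mul, hk0, sub_mul, hg1]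
    have h2 : ‖g i - g (i + 1)‖ ≤ δ := by
      simp only [hg, above]
      rw [← cfc_sub _ _ X]
      refine norm_cfc_le hδ.le fun s _ => ?_
      rw [Real.norm_eq_abs]
      refine (abs_max_sub_max_le_abs _ _ _).trans_eq ?_
      rw [htsucc]
      ring_nf
      exact abs_of_pos hδ
    have h3 : (X * Q i) v - (t i • Q i) v = (g i - g (i + 1)) (Q i v) := by
      have := congr($h1 v)
      simpa using this
    rw [h3]
    exact (g i - g (i + 1)).le_of_opNorm_le h2 _
  have happrox : ∀ v, ‖X v - (∑ i : Fin (2 * n), t i • Q i) v‖ ≤ δ * ‖v‖ := by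
    intro v
    have e1 : X v - (∑ i : Fin (2 * n), t i • Q i) v
        = ∑ i : Fin (2 * n), ((X * Q i) v - (t i • Q i) v) := by
      rw [Finset.sum_sub_distrib]
      congr 1
      · rw [← sum_apply, ← Finset.mul_sum, hone, mul_one]
      · rw [sum_apply]
    have hcomm : ∀ i : Fin (2 * n), X * Q i = Q i * X := by
      intro i
      have he : ∀ m, E m * X = X * E m := fun m => by
        have h1 : X * E m = g m + t m • E m := by
          have := congr($(hXgk m) * E m)
          rw [sub_mul, sub_mul, smul_mul_assoc, one_mul, hgE, hkE, sub_zero, sub_eq_iff_eq_add]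
            at this
          exact this
        have h2 : E m * X = g m + t m • E m := by
          have := congr(E m * $(hXgk m))
          rw [mul_sub, mul_sub, mul_smul_comm, mul_one, hEg, hEk, sub_zero, sub_eq_iff_eq_add]
            at this
          exact this
        rw [h1, h2]
      simp only [Q]
      rw [mul_sub, sub_mul, he, he]
    have e2 : ∑ i, Q i v = v := by rw [← sum_apply, hone, one_apply_eq_self]
    have hin : ∀ i (w : H), Q i ((X * Q i) w - (t i • Q i) w) = (X * Q i) w - (t i • Q i) w := by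
      intro i w
      have hq : Q i * Q i = Q i := (hQp i).isIdempotentElem.eq
      have : Q i * (X * Q i - t i • Q i) = X * Q i - t i • Q i := by
        rw [mul_sub, ← mul_assoc, ← hcomm, mul_assoc, hq, mul_smul_comm, hq]
      simpa using congr($this w)
    have hperp : ∀ i j, i ≠ j → ∀ a b : H, ⟪Q i a, Q j b⟫_ℂ = 0 := fun i j hij a b => by
      rw [show ⟪Q i a, Q j b⟫_ℂ = ⟪a, Q i (Q j b)⟫_ℂ from (hQp i).isSelfAdjoint.isSymmetric _ _,
        show Q i (Q j b) = 0 from congr($(horth i j hij) b), inner_zero_right]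
    rw [e1]
    conv_rhs => rw [← e2]
    refine norm_sum_orthogonal_le _ _ (fun i j hij => ?_) (fun i j hij => hperp i j hij v v) hδ.le
      fun i => hD i v
    change ⟪_, _⟫_ℂ = 0
    rw [← hin i v, ← hin j v]
    exact hperp i j hij _ _
  have hpick : ∀ i : Fin (2 * n), E n * Q i = if n ≤ (i : ℕ) then Q i else 0 := by
    intro i
    simp only [Q]
    split_ifs with h
    · rw [mul_sub, hmono _ _ h, hmono _ _ (h.trans (Nat.le_succ _))]
    · have h' : (i : ℕ) + 1 ≤ n := by omega
      rw [mul_sub, hmono' _ _ ((Nat.le_succ _).trans h'), hmono' _ _ h', sub_self]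
  have hpos : above X 0 = E n * X := by
    have h1 := congr(E n * $(hXgk n))
    rw [htn, zero_smul, sub_zero, mul_sub, hEg, hEk, sub_zero] at h1
    rw [h1]
    simp only [hg]
    rw [htn]
  refine ⟨2 * n, Q, fun i => t i, hQM, hQp, horth, hone, happrox, fun v => ?_, ?_⟩
  · have h1 : (∑ i : Fin (2 * n), max (t i) 0 • Q i) = E n * ∑ i : Fin (2 * n), t i • Q i := by
      rw [Finset.mul_sum]
      refine Finset.sum_congr rfl fun i _ => ?_
      rw [mul_smul_comm, hpick]
      split_ifs with h
      · rw [max_eq_left]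
        rw [← htn]; exact htmono h
      · rw [max_eq_right, zero_smul, smul_zero]
        rw [← htn]; exact htmono (by omega)
    rw [hpos, h1]
    calc ‖(E n * X) v - (E n * ∑ i : Fin (2 * n), t i • Q i) v‖
        = ‖E n (X v - (∑ i : Fin (2 * n), t i • Q i) v)‖ := by simp
      _ ≤ ‖X v - (∑ i : Fin (2 * n), t i • Q i) v‖ :=
        ((E n).le_of_opNorm_le ((hEp n).norm_le _) _).trans_eq (one_mul _)
      _ ≤ _ := happrox v
  · intro a ha W hW2 hWs hWX
    have hex : ∃ m, 2 * n ≤ m ∨ a < t m := ⟨2 * n, Or.inl le_rfl⟩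
    set m := Nat.find hex with hm
    have hm2 : m ≤ 2 * n := Nat.find_min' hex (Or.inl le_rfl)
    have hiff : ∀ i < 2 * n, a < t i ↔ m ≤ i := fun i hi =>
      ⟨fun h => Nat.find_min' hex (Or.inr h), fun h => by
        rcases Nat.find_spec hex with h' | h'
        · omega
        · exact h'.trans_le (htmono h)⟩
    have hmn : n ≤ m := by
      by_contra h
      push Not at h
      rcases Nat.find_spec hex with h' | h'
      · omega
      · have := h'.trans_le (htmono h.le)
        rw [htn] at this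
        linarith
    have hsum : ∑ i ∈ (Finset.univ : Finset (Fin (2 * n))).filter (fun i : Fin (2 * n) => a < t i),
        Q i = E m := by
      have key : ∀ N, m ≤ N → ∑ i ∈ Finset.range N, (if m ≤ i then E i - E (i + 1) else 0)
          = E m - E N := by
        intro N hN
        induction N, hN using Nat.le_induction with
        | base =>
          rw [sub_self]
          exact Finset.sum_eq_zero fun i hi => if_neg (by simp at hi; omega)
        | succ N hN ih => rw [Finset.sum_range_succ, ih, if_pos hN]; abel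
      have h := key (2 * n) hm2
      rw [hElast, sub_zero] at h
      rw [Finset.sum_filter, ← h, ← Fin.sum_univ_eq_sum_range
        (fun i => if m ≤ i then E i - E (i + 1) else 0)]
      exact Finset.sum_congr rfl fun i _ => by simp only [hiff i i.2, Q]
    simp only [hsum]
    refine ⟨hEp m, ?_⟩
    have htm : 0 ≤ t m := htn ▸ htmono hmn
    -- `W g W` is the reflected function
    let u : unitary (H →L[ℂ] H) := ⟨W, Unitary.mem_iff.2 ⟨by rw [hWs, hW2], by rw [hWs, hW2]⟩⟩
    have hcont : Continuous (Unitary.conjStarAlgAut ℝ (H →L[ℂ] H) u) := by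
      change Continuous fun x : H →L[ℂ] H => W * x * star W
      fun_prop
    have hmap := StarAlgHomClass.map_cfc (Unitary.conjStarAlgAut ℝ (H →L[ℂ] H) u)
      (fun s => max (s - t m) 0) X (by fun_prop) hcont hXs
      (by change IsSelfAdjoint (W * X * star W); rw [hWs, hWX]; exact hXs.neg)
    change W * g m * star W = cfc (fun s => max (s - t m) 0) (W * X * star W) at hmap
    rw [hWs, hWX, ← cfc_comp_neg (fun s => max (s - t m) 0) X] at hmap
    have h0 : g m * (W * g m * W) = 0 := by
      rw [hmap]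
      simp only [hg, above]
      rw [← cfc_mul _ _ X, ← cfc_zero ℝ X]
      refine cfc_congr fun s _ => ?_
      rcases le_total 0 s with hs | hs
      · rw [max_eq_right (by linarith : -s - t m ≤ 0), mul_zero, Pi.zero_apply]
      · rw [max_eq_right (by linarith : s - t m ≤ 0), zero_mul, Pi.zero_apply]
    have h1 : g m * W * g m = 0 := by
      calc g m * W * g m = g m * (W * g m * (W * W)) := by rw [hW2, mul_one, mul_assoc]
        _ = g m * (W * g m * W) * W := by simp only [mul_assoc]
        _ = 0 := by rw [h0, zero_mul]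
    have h2 : E m * W * g m = 0 := by
      have h3 := congr(star $(mul_rangeClos_eq_zero h1))
      rw [star_mul, star_mul, show star (rangeClos (g m)) = E m from (hEp m).isSelfAdjoint.star_eq,
        star_zero, hWs, (hgs m).star_eq, ← mul_assoc] at h3
      exact h3
    exact mul_rangeClos_eq_zero h2

/-! ### The cut -/

lemma conjBy_sum {ι : Type*} (s : Finset ι) (a : ι → (H →L[ℂ] H)) :
    conjBy J (∑ i ∈ s, a i) = ∑ i ∈ s, conjBy J (a i) := by
  ext v
  simp [conjBy, sum_apply]

lemma conjBy_rsmul (c : ℝ) (a : H →L[ℂ] H) : conjBy J (c • a) = c • conjBy J a := by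
  rw [RCLike.real_smul_eq_coe_smul (K := ℂ), conjBy_smul, RCLike.conj_ofReal,
    ← RCLike.real_smul_eq_coe_smul]

lemma isStarProjection_conjBy (hJ : IsConj J) {p : H →L[ℂ] H} (hp : IsStarProjection p) :
    IsStarProjection (conjBy J p) :=
  ⟨by rw [IsIdempotentElem, ← hJ.conjBy_mul, hp.isIdempotentElem.eq],
    by rw [IsSelfAdjoint, hJ.star_conjBy, hp.isSelfAdjoint.star_eq]⟩

/-- The threshold projection: a projection `E` in `M` with `E W E = 0` nearly commuting with `h`. -/
lemma exists_half_space (hS : StdForm M J P) {h : H} (hh : J h = h) {Y W : H →L[ℂ] H}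
    (hY : Y ∈ M) (hYs : IsSelfAdjoint Y) (hW2 : W * W = 1) (hWs : star W = W)
    (hWY : W * Y * W = -Y) {η u : ℝ} (hu : 0 < u) (hη : 0 < η) (hη1 : η ≤ 1)
    (hd : ‖Y h - conjBy J Y h‖ ≤ 2 * η * u) (hub : ‖Y h‖ ≤ 3 * u)
    (hlo : u ^ 2 / 2 ≤ ‖above Y 0 h‖ ^ 2) :
    ∃ E ∈ M, IsStarProjection E ∧ E * W * E = 0 ∧ E h ≠ 0 ∧
      ‖E h - conjBy J E h‖ ^ 2 ≤ 28 * η * ‖E h‖ ^ 2 := by
  classical
  set d := η * u / 100 with hd0
  have hdpos : 0 < d := by positivity
  set δ := d / (‖h‖ + 1) with hδ
  have hδpos : 0 < δ := by positivity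
  have hδh : δ * ‖h‖ ≤ d := by
    rw [hδ, div_mul_eq_mul_div, div_le_iff₀ (by positivity)]
    nlinarith
  obtain ⟨n, Q, c, hQM, hQp, horth, hone, h1, h2, h3⟩ := exists_spectral_approx hY hYs hδpos
  have hJ := hS.isConj
  have happ := (h1 h).trans hδh
  have happ' := (h2 h).trans hδh
  set A := ∑ i, c i • Q i with hA
  set Ap := ∑ i, max (c i) 0 • Q i with hAp
  have hcA : ∑ i, c i • conjBy J (Q i) = conjBy J A := by
    rw [hA, conjBy_sum]
    exact Finset.sum_congr rfl fun i _ => (conjBy_rsmul _ _).symm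
  have hnorm : ∀ T : H →L[ℂ] H, ‖conjBy J T h‖ = ‖T h‖ := fun T => by
    rw [conjBy_apply, hh, hS.isometry]
  have e1 : ‖A h‖ ≤ 3 * u + d := by
    calc ‖A h‖ = ‖Y h - (Y h - A h)‖ := by rw [sub_sub_cancel]
      _ ≤ _ := (norm_sub_le _ _).trans (add_le_add hub happ)
  have e2 : ‖A h - conjBy J A h‖ ≤ 2 * η * u + 2 * d := by
    have h5 : ‖conjBy J Y h - conjBy J A h‖ ≤ d := by
      rw [conjBy_apply, conjBy_apply, hh, ← map_sub, hS.isometry]
      exact happ
    calc ‖A h - conjBy J A h‖
        = ‖(Y h - conjBy J Y h) + ((conjBy J Y h - conjBy J A h) - (Y h - A h))‖ := by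
          congr 1; abel
      _ ≤ 2 * η * u + (d + d) :=
          (norm_add_le _ _).trans (add_le_add hd ((norm_sub_le _ _).trans (add_le_add h5 happ)))
      _ = _ := by ring
  have e3 : 47 / 100 * u ^ 2 ≤ ‖Ap h‖ ^ 2 := by
    have h5 : ‖above Y 0 h‖ ≤ ‖Ap h‖ + d :=
      (norm_le_norm_add_norm_sub' (above Y 0 h) (Ap h)).trans (add_le_add le_rfl happ')
    have h6 : 7 / 10 * u ≤ ‖above Y 0 h‖ := by nlinarith [norm_nonneg (above Y 0 h)]
    have h7 : d ≤ u / 100 := by rw [hd0]; nlinarith
    have h8 : 69 / 100 * u ≤ ‖Ap h‖ := by linarith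
    nlinarith [norm_nonneg (Ap h)]
  obtain ⟨a, ha, hne, hle⟩ := exists_threshold_proj (ι := Fin n) Q (fun i => conjBy J (Q i)) c hQp
    (fun i => isStarProjection_conjBy hJ (hQp i)) horth
    (fun i j hij => by
      rw [← hJ.conjBy_mul, horth i j hij]
      ext v; simp [conjBy])
    hone (by rw [← conjBy_sum, hone, hJ.conjBy_one])
    (fun i j => hS.commute (hQM i) (hQM j)) h (K := 28 * η)
    (by
      rw [hcA, hnorm A]
      calc ‖A h - conjBy J A h‖ * (‖A h‖ + ‖A h‖)
          ≤ (2 * η * u + 2 * d) * ((3 * u + d) + (3 * u + d)) :=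
            mul_le_mul e2 (add_le_add e1 e1) (by positivity) (by positivity)
        _ ≤ 28 * η * (47 / 100 * u ^ 2) := by
            rw [hd0]
            nlinarith [mul_pos (mul_pos hη hu) hu,
              mul_le_mul_of_nonneg_left hη1 (mul_pos (mul_pos hη hu) hu).le]
        _ ≤ _ := mul_le_mul_of_nonneg_left e3 (by positivity))
    (fun h0 => by
      have h5 : ‖Ap h‖ = 0 := by rw [h0, norm_zero]
      rw [h5] at e3
      nlinarith)
  obtain ⟨hEp, hEWE⟩ := h3 a ha W hW2 hWs hWY
  refine ⟨_, sum_mem fun i _ => hQM i, hEp, hEWE, hne, ?_⟩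
  rw [conjBy_sum]
  exact hle

/-- (D) From a nearly commuting element of the corner to a partial isometry. -/
theorem exists_cut (hS : StdForm M J P) {h : H} (hh : h ∈ P) (hsep : SepCorner M 1 h)
    {e : H →L[ℂ] H} (heM : e ∈ M) (he : IsStarProjection e) (hce : e h = rmul J e h)
    {x : H →L[ℂ] H} (hxM : x ∈ M) (hxe : x * e = x) (hex : e * x = 0) (hx0 : x ≠ 0) {η : ℝ}
    (hη : 0 < η) (hη' : η ≤ 1 / 400) (hx : ‖x h - rmul J x h‖ ≤ η * ‖x h‖) :
    ∃ v ∈ M, v * e = v ∧ e * v = 0 ∧ v ≠ 0 ∧ IsStarProjection (star v * v) ∧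
      ‖v h - rmul J v h‖ ^ 2 ≤ 400 * η * ‖v h‖ ^ 2 := by
  have hJ := hS.isConj
  have hJh : J h = h := hS.fixed h hh
  have hsx : star x ∈ M := star_mem hxM
  have hes : star e = e := he.isSelfAdjoint.star_eq
  have hee : e * e = e := he.isIdempotentElem.eq
  have hxe' : e * star x = star x := by simpa [star_mul, hes] using congr(star $hxe)
  have hex' : star x * e = 0 := by simpa [star_mul, hes] using congr(star $hex)
  have hrmul : ∀ a : H →L[ℂ] H, rmul J a h = J (star a h) := fun a => by
    rw [rmul, conjBy_apply, hJh]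
  have hJe : J (e h) = e h := by rw [hce, hrmul, hes, hS.invol, ← hes, ← hrmul, ← hce, hes]
  set u := ‖x h‖ with hu
  have hupos : 0 < u := norm_pos_iff.2 fun h0 => hx0 (hsep x hxM (mul_one x) h0)
  set X := x + star x with hXdef
  set W := e + e - 1 with hWdef
  have hWs : star W = W := by simp [hWdef, hes]
  have hW2 : W * W = 1 := by
    simp only [hWdef, sub_mul, mul_sub, add_mul, mul_add, hee, one_mul, mul_one]
    abel
  have hWX : W * X * W = -X := by
    simp only [hWdef, hXdef, sub_mul, mul_sub, add_mul, mul_add, hex, hxe', one_mul, mul_one,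
      hxe, hex', zero_mul, add_zero]
    abel
  have hperp : ⟪x h, star x h⟫_ℂ = 0 := by
    rw [show star x h = e (star x h) from congr($(hxe'.symm) h),
      show ⟪x h, e (star x h)⟫_ℂ = ⟪e (x h), star x h⟫_ℂ from
        (he.isSelfAdjoint.isSymmetric _ _).symm,
      show e (x h) = 0 from congr($hex h), inner_zero_left]
  have hXsq : ‖X h‖ ^ 2 = u ^ 2 + ‖star x h‖ ^ 2 := by
    rw [hXdef, add_apply, @norm_add_sq ℂ, hperp]
    simp [hu]
  have hxs : ‖star x h‖ ≤ u + η * u := by
    rw [← hS.isometry (star x h), ← hrmul]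
    calc ‖rmul J x h‖ = ‖x h - (x h - rmul J x h)‖ := by rw [sub_sub_cancel]
      _ ≤ _ := (norm_sub_le _ _).trans (add_le_add le_rfl hx)
  have hd : ‖X h - conjBy J X h‖ ≤ 2 * η * u := by
    have h1 : star x h - J (x h) = -J (x h - rmul J x h) := by
      rw [hrmul, map_sub, hS.invol, neg_sub]
    calc ‖X h - conjBy J X h‖
        = ‖(x h - rmul J x h) + (star x h - J (x h))‖ := by
          congr 1
          rw [conjBy_apply, hJh, hXdef, add_apply, map_add, hrmul]
          abel
      _ ≤ η * u + η * u := by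
          refine (norm_add_le _ _).trans (add_le_add hx ?_)
          rw [h1, norm_neg, hS.isometry]
          exact hx
      _ = _ := by ring
  have hub : ‖X h‖ ≤ 3 * u := by
    rw [hXdef, add_apply]
    refine (norm_add_le _ _).trans ?_
    nlinarith
  have hXM : X ∈ M := add_mem hxM hsx
  have hXs : IsSelfAdjoint X := by simp [IsSelfAdjoint, hXdef, add_comm]
  obtain ⟨Y, hY, hYs, hWY, hYd, hYub, hYlo⟩ : ∃ Y ∈ M, IsSelfAdjoint Y ∧ W * Y * W = -Y ∧
      ‖Y h - conjBy J Y h‖ ≤ 2 * η * u ∧ ‖Y h‖ ≤ 3 * u ∧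
      u ^ 2 / 2 ≤ ‖above Y 0 h‖ ^ 2 := by
    have hsq := norm_sq_posPart hXs h
    have hu2 : u ^ 2 ≤ ‖X h‖ ^ 2 := by rw [hXsq]; linarith [sq_nonneg ‖star x h‖]
    rcases le_total (‖above (-X) 0 h‖ ^ 2) (‖above X 0 h‖ ^ 2) with hc | hc
    · exact ⟨X, hXM, hXs, hWX, hd, hub, by linarith⟩
    · refine ⟨-X, neg_mem hXM, hXs.neg, by rw [mul_neg, neg_mul, hWX], ?_, ?_, by linarith⟩
      · have : conjBy J (-X) h = -conjBy J X h := by simp [conjBy_apply]
        rwa [neg_apply, this, ← neg_sub', norm_neg]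
      · rwa [neg_apply, norm_neg]
  obtain ⟨E, hEM, hE, hEWE, hEh, hEd⟩ := exists_half_space hS hJh hY hYs hW2 hWs hWY hupos hη
    (by linarith) hYd hYub hYlo
  set f := 1 - e with hf
  have hff : f * f = f := he.one_sub.isIdempotentElem.eq
  have hfs : star f = f := he.one_sub.isSelfAdjoint.star_eq
  have hEE : E * E = E := hE.isIdempotentElem.eq
  have hEs : star E = E := hE.isSelfAdjoint.star_eq
  have hEe : E * e * E + E * e * E = E := by
    simp only [hWdef, mul_sub, sub_mul, mul_add, add_mul, mul_one, hEE, sub_eq_zero] at hEWE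
    exact hEWE
  have hEf : E * f * E + E * f * E = E := by
    simp only [hf, mul_sub, sub_mul, mul_one, hEE]
    calc E - E * e * E + (E - E * e * E) = E + E - (E * e * E + E * e * E) := by abel
      _ = E := by rw [hEe]; abel
  set v := f * E * e + f * E * e with hv
  have hsv : star v = e * E * f + e * E * f := by
    simp [hv, star_add, star_mul, hfs, hEs, hes, mul_assoc]
  have hvv : star v * v = e * E * e + e * E * e := by
    calc star v * v = e * ((E * (f * f) * E + E * (f * f) * E)
          + (E * (f * f) * E + E * (f * f) * E)) * e := by rw [hsv, hv]; noncomm_ring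
      _ = e * (E + E) * e := by rw [hff, hEf]
      _ = _ := by noncomm_ring
  have hvv' : v * star v = f * E * f + f * E * f := by
    calc v * star v = f * ((E * (e * e) * E + E * (e * e) * E)
          + (E * (e * e) * E + E * (e * e) * E)) * f := by rw [hsv, hv]; noncomm_ring
      _ = f * (E + E) * f := by rw [hee, hEe]
      _ = _ := by noncomm_ring
  have hfM : f ∈ M := sub_mem (one_mem M) heM
  have hvM : v ∈ M := add_mem (mul_mem (mul_mem hfM hEM) heM) (mul_mem (mul_mem hfM hEM) heM)
  have hproj : IsStarProjection (star v * v) := by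
    refine ⟨?_, by simp [IsSelfAdjoint, star_mul]⟩
    rw [IsIdempotentElem, hvv]
    calc (e * E * e + e * E * e) * (e * E * e + e * E * e)
        = e * ((E * (e * e) * E + E * (e * e) * E) + (E * (e * e) * E + E * (e * e) * E)) * e := by
          noncomm_ring
      _ = e * (E + E) * e := by rw [hee, hEe]
      _ = _ := by noncomm_ring
  -- the norms
  have hEp : ∀ y, (⟪y, E y⟫_ℂ).re = ‖E y‖ ^ 2 := fun y => by
    rw [norm_sq_eq_re_inner_star_mul, hEs, hEE]
  have hA2 : ‖v h‖ ^ 2 = 2 * ‖E (e h)‖ ^ 2 := by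
    rw [norm_sq_eq_re_inner_star_mul, hvv, ← hEp (e h)]
    have : ⟪h, e (E (e h))⟫_ℂ = ⟪e h, E (e h)⟫_ℂ := (he.isSelfAdjoint.isSymmetric _ _).symm
    simp [this]
    ring
  have hB2 : ‖star v h‖ ^ 2 = 2 * ‖E (f h)‖ ^ 2 := by
    rw [norm_sq_eq_re_inner_star_mul, star_star, hvv', ← hEp (f h)]
    have : ⟪h, f (E (f h))⟫_ℂ = ⟪f h, E (f h)⟫_ℂ :=
      (he.one_sub.isSelfAdjoint.isSymmetric _ _).symm
    simp [this]
    ring
  have hcomm : ∀ T ∈ M, conjBy J e (T h) = T (e h) := fun T hT => by
    have h1 : T (conjBy J e h) = conjBy J e (T h) := congr($(hS.commute hT heM) h)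
    rw [← h1, hce, rmul, hes]
  have hsum2 : ‖E h‖ ^ 2 = ‖E (e h)‖ ^ 2 + ‖E (f h)‖ ^ 2 := by
    rw [norm_sq_add_of_proj (isStarProjection_conjBy hJ he) (E h), sub_apply, one_apply_eq_self,
      hcomm E hEM, ← map_sub]
    simp [hf]
  have hJv : rmul J v h = J (star v h) := hrmul v
  have hdiff : ‖v h - rmul J v h‖ ≤ 2 * ‖E h - conjBy J E h‖ := by
    have hz2 : J (star v h) = f (conjBy J e (conjBy J E h)) + f (conjBy J e (conjBy J E h)) := by
      have hfJ : ∀ w, f (conjBy J e w) = conjBy J e (f w) := fun w =>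
        congr($(hS.commute hfM heM) w)
      have hfJ' : ∀ w, f (conjBy J E w) = conjBy J E (f w) := fun w =>
        congr($(hS.commute hfM hEM) w)
      have hJf : J (f h) = f h := by simp [hf, hJh, hJe]
      rw [hfJ, hfJ', ← hJf, conjBy_apply, conjBy_apply, hS.invol, hsv]
      simp [hS.invol]
    have hz3 : v h = f (conjBy J e (E h)) + f (conjBy J e (E h)) := by
      rw [hcomm E hEM, hv]
      simp
    have hb : ‖f (conjBy J e (E h - conjBy J E h))‖ ≤ ‖E h - conjBy J E h‖ :=
      ((f.le_of_opNorm_le (he.one_sub.norm_le _) _).trans_eq (one_mul _)).trans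
        (((conjBy J e).le_of_opNorm_le ((isStarProjection_conjBy hJ he).norm_le _) _).trans_eq
          (one_mul _))
    calc ‖v h - rmul J v h‖
        = ‖f (conjBy J e (E h - conjBy J E h)) + f (conjBy J e (E h - conjBy J E h))‖ := by
          rw [hJv, hz2, hz3, map_sub, map_sub]; congr 1; abel
      _ ≤ _ := (norm_add_le _ _).trans (by linarith)
  set d := ‖v h - rmul J v h‖
  set A := ‖v h‖ with hA
  have hBA : ‖star v h‖ ≤ A + d := by
    rw [← hS.isometry (star v h), ← hJv]
    exact (norm_le_norm_add_norm_sub' (rmul J v h) (v h)).trans (le_of_eq (by rw [norm_sub_rev]))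
  have h1 : d ^ 2 ≤ 56 * η * (A ^ 2 + ‖star v h‖ ^ 2) := by
    have h2 : d ^ 2 ≤ (2 * ‖E h - conjBy J E h‖) ^ 2 :=
      pow_le_pow_left₀ (norm_nonneg _) hdiff 2
    rw [mul_pow] at h2
    rw [hA, hA2, hB2, ← mul_add, ← hsum2]
    linarith
  have h3 : ‖star v h‖ ^ 2 ≤ 2 * A ^ 2 + 2 * d ^ 2 :=
    (pow_le_pow_left₀ (norm_nonneg _) hBA 2).trans (by nlinarith [sq_nonneg (A - d)])
  have h4 : d ^ 2 ≤ 400 * η * A ^ 2 := by
    nlinarith [mul_le_mul_of_nonneg_left h3 hη.le, mul_le_mul_of_nonneg_right hη' (sq_nonneg d),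
      mul_nonneg hη.le (sq_nonneg A)]
  refine ⟨v, hvM, ?_, ?_, fun h0 => hEh ?_, hproj, h4⟩
  · simp [hv, add_mul, mul_assoc, hee]
  · simp [hv, mul_add, ← mul_assoc, hf, mul_sub, hee]
  · have hA0 : A = 0 := by rw [hA, h0]; simp
    have hB0 : ‖star v h‖ = 0 := by rw [h0]; simp
    have h5 : ‖E h‖ ^ 2 = 0 := by
      rw [hA0] at hA2
      rw [hB0] at hB2
      rw [hsum2]
      linarith
    simpa using h5

/-- (D') A nearly intertwining partial isometry between any two corners. -/
theorem pieceOut (hS : StdForm M J P)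
    (hsupp : ∀ h ∈ P, SepCorner M 1 h → ∀ r ∈ M, IsStarProjection r →
      SepCorner M r (comp2 J r h))
    (hC : OffDiagOut M J P) (hT : TypeIIIOut M) : PieceOut M J P := by
  intro h hh k hk hsh hsk r hrM r' hr'M hr hr' h0 h0' η hη
  have hJ := hS.sandConj
  have hone : (1 : H →L[ℂ] H) ≠ 0 := fun h1 => h0 (by rw [← mul_one r, h1, mul_zero])
  obtain ⟨q, hqM, hq, -, hq0, hq1⟩ := hT.2 1 (one_mem M) (.one _) hone
  have hq'M : 1 - q ∈ M := sub_mem (one_mem M) hqM
  obtain ⟨a, haM, ha, ha'⟩ := hT.1 r hrM q hqM hr hq h0 hq0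
  obtain ⟨b, hbM, hb, hb'⟩ :=
    hT.1 r' hr'M (1 - q) hq'M hr' hq.one_sub h0' (sub_ne_zero.2 (Ne.symm hq1))
  have hfix : ∀ {w s t : H →L[ℂ] H}, IsStarProjection s → star w * w = s → w * star w = t →
      w * s = w ∧ t * w = w := by
    intro w s t hs h1 h2
    have hp : IsStarProjection (star w * w) := h1 ▸ hs
    have h3 : w * (star w * w) = w := by
      have hz : star (w - w * (star w * w)) * (w - w * (star w * w)) = 0 := by
        have h4 : star w * w * (star w * w) = star w * w := hp.isIdempotentElem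
        rw [star_sub, star_mul, hp.isSelfAdjoint.star_eq, sub_mul, mul_sub, mul_sub]
        simp only [← mul_assoc] at h4 ⊢
        simp [h4]
      exact (sub_eq_zero.1 ((CStarRing.star_mul_self_eq_zero_iff _).1 hz)).symm
    exact ⟨h1 ▸ h3, by rw [← h2, mul_assoc, h3]⟩
  obtain ⟨har, hqa⟩ := hfix hr ha ha'
  obtain ⟨hbr, hqb⟩ := hfix hr' hb hb'
  have hqs : star q = q := hq.isSelfAdjoint.star_eq
  have hqb0 : q * b = 0 := by rw [← hqb, ← mul_assoc, hq.mul_one_sub_self, zero_mul]
  have hqa0 : (1 - q) * a = 0 := by rw [← hqa, ← mul_assoc, hq.one_sub_mul_self, zero_mul]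
  have hab : star a * b = 0 := by
    rw [← hqa, star_mul, hqs, mul_assoc, hqb0, mul_zero]
  have hba : star b * a = 0 := by simpa [star_mul] using congr(star $hab)
  set Z := sand J a a h + sand J b b k with hZ
  have hconj : ∀ w ∈ M, ∀ z ∈ P, sand J w w z ∈ P := fun w hw z hz => hS.conj_invariant w hw z hz
  have hZP : Z ∈ P := hS.add_mem _ (hconj a haM h hh) _ (hconj b hbM k hk)
  have hadd : ∀ (s t : H →L[ℂ] H) (y z : H), sand J s t (y + z) = sand J s t y + sand J s t z :=
    fun s t y z => by simp [sand]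
  have hZsand : ∀ s ∈ M, ∀ t ∈ M,
      sand J s t Z = sand J (s * a) (t * a) h + sand J (s * b) (t * b) k := fun s _ t ht => by
    rw [hZ, hadd, sand_sand hJ ht haM, sand_sand hJ ht hbM]
  have hl : ∀ (s : H →L[ℂ] H) (y : H), sand J s 1 y = s y := fun s y => by
    simp [sand, hS.invol]
  have hr1 : ∀ (s : H →L[ℂ] H) (y : H), rmul J s y = sand J 1 (star s) y := fun s y => by
    simp [rmul, sand, conjBy]
  have hcomp : ∀ (s : H →L[ℂ] H), IsStarProjection s → ∀ y, comp2 J s y = sand J s s y :=
    fun s hs y => by simp [comp2, rmul, sand, conjBy, hs.isSelfAdjoint.star_eq]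
  have hzero : ∀ (s : H →L[ℂ] H) (y : H), sand J 0 s y = 0 ∧ sand J s 0 y = 0 := fun s y => by
    simp [sand]
  have hsepZ : SepCorner M 1 Z := by
    intro y hy _ hyZ
    -- kill the component in each corner
    have key : ∀ w ∈ M, ∀ (t : H →L[ℂ] H) (z : H), IsStarProjection t → w * t = w →
        SepCorner M t (comp2 J t z) → sand J (y * w) t z = 0 → y * w = 0 := by
      intro w hw t z ht hwt hz h1
      refine hz (y * w) (mul_mem hy hw) (by rw [mul_assoc, hwt]) ?_
      rw [hcomp t ht]
      change ((y * w) * t) (J (t (J z))) = 0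
      rw [mul_assoc, hwt]
      exact h1
    have hy0 : sand J y 1 Z = 0 := by rw [hl]; exact hyZ
    have hya : sand J (y * a) r h = 0 := by
      have h1 : sand J 1 (star a) (sand J y 1 Z) = 0 := by rw [hy0]; simp [sand]
      rw [sand_sand hJ (star_mem haM) hy, one_mul, mul_one, hZsand y hy _ (star_mem haM), ha,
        hab, (hzero _ _).2, add_zero] at h1
      exact h1
    have hyb : sand J (y * b) r' k = 0 := by
      have h1 : sand J 1 (star b) (sand J y 1 Z) = 0 := by rw [hy0]; simp [sand]
      rw [sand_sand hJ (star_mem hbM) hy, one_mul, mul_one, hZsand y hy _ (star_mem hbM), hb,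
        hba, (hzero _ _).2, zero_add] at h1
      exact h1
    have h1 := key a haM r h hr har (hsupp h hh hsh r hrM hr) hya
    have h2 := key b hbM r' k hr' hbr (hsupp k hk hsk r' hr'M hr') hyb
    calc y = y * (q + (1 - q)) := by rw [add_sub_cancel, mul_one]
      _ = y * a * star a + y * b * star b := by
          rw [mul_add, ← hb', ← ha', mul_assoc y a, mul_assoc y b]
      _ = 0 := by rw [h1, h2, zero_mul, zero_mul, add_zero]
  have hqZ : q Z = rmul J q Z := by
    rw [← hl q Z, hr1, hqs, hZsand _ hqM _ (one_mem M), hZsand _ (one_mem M) _ hqM, hqa, hqb0,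
      one_mul, one_mul, (hzero _ _).1, (hzero _ _).2]
  set η₀ := min (1 / 400) (η ^ 2 / 400) with hη₀
  have hη₀pos : 0 < η₀ := lt_min (by norm_num) (by positivity)
  obtain ⟨x, hxM, hxe, hex, hx0, hx⟩ := hC Z hZP hsepZ q hqM hq hq0 hq1 hqZ η₀ hη₀pos
  obtain ⟨w, hwM, hwe, hew, hw0, hwp, hw⟩ :=
    exists_cut hS hZP hsepZ hqM hq hqZ hxM hxe hex hx0 hη₀pos (min_le_left _ _) hx
  have hbs := star_mem hbM
  have hwf : (1 - q) * w = w := by rw [sub_mul, one_mul, hew, sub_zero]
  have hws : star w * (1 - q) = star w := by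
    simpa [star_mul, hq.one_sub.isSelfAdjoint.star_eq] using congr(star $hwf)
  set v := star b * w * a with hv
  have hvM : v ∈ M := mul_mem (mul_mem hbs hwM) haM
  have hbv : b * v = w * a := by
    rw [hv, ← mul_assoc, ← mul_assoc, hb', hwf]
  have hvr : v * r = v := by rw [hv, mul_assoc, har]
  have hr'v : r' * v = v := by
    have : r' * star b = star b := by
      simpa [star_mul, hr'.isSelfAdjoint.star_eq] using congr(star $hbr)
    rw [hv, ← mul_assoc, ← mul_assoc, this]
  have hqp : q * (star w * w) = star w * w := by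
    have : q * star w = star w := by simpa [star_mul, hqs] using congr(star $hwe)
    rw [← mul_assoc, this]
  have hvv : star v * v = star a * (star w * w) * a := by
    calc star v * v = star a * (star w * (b * star b) * w) * a := by
          simp [hv, star_mul, mul_assoc]
      _ = _ := by rw [hb', hws]
  have hp : IsStarProjection (star v * v) := by
    refine ⟨?_, by simp [IsSelfAdjoint, star_mul]⟩
    rw [IsIdempotentElem, hvv]
    calc star a * (star w * w) * a * (star a * (star w * w) * a)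
        = star a * ((star w * w) * ((a * star a) * (star w * w))) * a := by simp only [mul_assoc]
      _ = _ := by rw [ha', hqp, hwp.isIdempotentElem.eq]
  have hvne : v ≠ 0 := fun h0' => hw0 <| by
    calc w = w * (a * star a) := by rw [ha', hwe]
      _ = b * v * star a := by rw [← mul_assoc, hbv]
      _ = 0 := by rw [h0', mul_zero, zero_mul]
  refine ⟨v, hvM, hvr, hr'v, hvne, hp, ?_⟩
  have hwb : w * b = 0 := by rw [← hwe, mul_assoc, hqb0, mul_zero]
  have hwa : star w * a = 0 := by rw [← hws, mul_assoc, hqa0, mul_zero]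
  have hwsb : star w * b = a * star v := by
    have hq_w : q * star w = star w := by simpa [star_mul, hqs] using congr(star $hwe)
    simp only [hv, star_mul, star_star]
    rw [← mul_assoc, ha', ← mul_assoc, hq_w]
  have hLw : w Z = sand J (b * v) a h := by
    rw [← hl w Z, hZsand _ hwM _ (one_mem M), hwb, (hzero _ _).1, add_zero, one_mul, hbv]
  have hRw : rmul J w Z = sand J b (a * star v) k := by
    rw [hr1, hZsand _ (one_mem M) _ (star_mem hwM), hwa, (hzero _ _).2, zero_add, one_mul, hwsb]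
  have hvh : v (comp2 J r h) = sand J v r h := by
    rw [hcomp r hr]
    change (v * r) (J (r (J h))) = _
    rw [hvr]
    rfl
  have hvs : star v ∈ M := star_mem hvM
  have hvk : rmul J v (comp2 J r' k) = sand J r' (star v) k := by
    have : star v * r' = star v := by
      simpa [star_mul, hr'.isSelfAdjoint.star_eq] using congr(star $hr'v)
    rw [hcomp r' hr', hr1, sand_sand hJ hvs hr'M, one_mul, this]
  have hvrs : r * star v = star v := by
    simpa [star_mul, hr.isSelfAdjoint.star_eq] using congr(star $hvr)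
  have hd : ‖v (comp2 J r h) - rmul J v (comp2 J r' k)‖ ≤ ‖w Z - rmul J w Z‖ := by
    have h1 : sand J (star b) (star a) (w Z - rmul J w Z)
        = v (comp2 J r h) - rmul J v (comp2 J r' k) := by
      rw [sand_sub, hLw, hRw, sand_sand hJ (star_mem haM) (mul_mem hbM hvM),
        sand_sand hJ (star_mem haM) hbM, hvh, hvk, ha, hb, ← mul_assoc (star b), hb, hr'v,
        ← mul_assoc (star a), ha, hvrs]
    rw [← h1]
    exact norm_sand_le hJ (by rw [norm_star]; exact norm_le_one_of_star_mul_self (hb ▸ hr'))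
      (by rw [norm_star]; exact norm_le_one_of_star_mul_self (ha ▸ hr)) _
  have hn : ‖w Z‖ ≤ ‖v (comp2 J r h)‖ := by
    have h1 : sand J b a (v (comp2 J r h)) = w Z := by
      rw [hvh, sand_sand hJ haM hvM, har, hLw]
    rw [← h1]
    exact norm_sand_le hJ (norm_le_one_of_star_mul_self (hb ▸ hr'))
      (norm_le_one_of_star_mul_self (ha ▸ hr)) _
  refine hd.trans (le_trans ?_ (mul_le_mul_of_nonneg_left hn hη.le))
  refine (pow_le_pow_iff_left₀ (norm_nonneg _) (by positivity) two_ne_zero).1 (hw.trans ?_)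
  rw [mul_pow]
  exact mul_le_mul_of_nonneg_right (by linarith [min_le_right (1 / 400 : ℝ) (η ^ 2 / 400)])
    (sq_nonneg _)

end P132.Homogeneity
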