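import Vale.Agent.P132.Homog.Standard
import Vale.Agent.P132.Tomita.Smoothing

/-!
# P132, homogeneity module A: the entire elements are dense
-/

noncomputable section

namespace P132

open Filter Topology
open scoped InnerProductSpace

variable {H : Type*} [NormedAddCommGroup H] [InnerProductSpace ℂ H] [CompleteSpace H]

/-- Every `Modular` has a dense set of entire elements. -/
theorem Modular.entireDense {S : Std H} (D : Modular S) : D.EntireDense := by
  intro x hx ε hε
  obtain ⟨xs, hxs, h1, h2⟩ :=
    Vale.Agent.P132.Tomita.exists_entire_approx D.U_zero D.U_add D.U_star D.U_cont D.σ_mem hx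
  obtain ⟨n, hn1, hn2⟩ :=
    (((tendsto_iff_norm_sub_tendsto_zero.1 (h1 S.Ω)).eventually_le_const hε).and
      ((tendsto_iff_norm_sub_tendsto_zero.1 (h2 S.Ω)).eventually_le_const hε)).exists
  obtain ⟨hm, -, F, hF1, hF2, -, hF3⟩ := hxs n
  exact ⟨xs n, ⟨hm, F, hF1, hF2, hF3⟩, hn1, hn2⟩

/-- `HasModular` needs only the existence of the modular data. -/
theorem Homogeneity.hasModular_of_nonempty
    (h : ∀ S : Std H, Nonempty (Modular S)) : Homogeneity.HasModular H :=
  fun S => ⟨(h S).some, (h S).some.entireDense⟩

end P132
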