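import Vale.Agent.P132.Homog.Greedy

/-!
# Homogeneity of the cone from pieces
-/

set_option linter.unusedSectionVars false

namespace P132.Homogeneity

open Filter Topology
open scoped InnerProductSpace

variable {H : Type*} [NormedAddCommGroup H] [InnerProductSpace ℂ H] [CompleteSpace H]
variable {M : VonNeumannAlgebra H} {J : H →L⋆[ℂ] H} {P : Set H}

lemma comp2_eq_sand {r : H →L[ℂ] H} (hr : IsStarProjection r) (h : H) :
    comp2 J r h = sand J r r h := by
  simp [comp2, rmul, sand, conjBy, hr.isSelfAdjoint.star_eq]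

lemma rmul_eq_sand (v : H →L[ℂ] H) (ξ : H) : rmul J v ξ = sand J 1 (star v) ξ := by
  simp [rmul, sand, conjBy]

/-- Splitting repeatedly gives nonzero subprojections tending strongly to `0`. -/
lemma exists_small (hT : TypeIIIOut M) {p : H →L[ℂ] H} (hpM : p ∈ M) (hp : IsStarProjection p)
    (hp0 : p ≠ 0) : ∃ e : ℕ → (H →L[ℂ] H), (∀ n, e n ∈ M) ∧ (∀ n, IsStarProjection (e n)) ∧
      (∀ n, e n ≠ 0) ∧ (∀ n, e n * p = e n) ∧
      ∀ x, Tendsto (fun n => e n x) atTop (𝓝 0) := by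
  have hex : ∀ t : {t : H →L[ℂ] H // t ∈ M ∧ IsStarProjection t ∧ t ≠ 0},
      ∃ q ∈ M, IsStarProjection q ∧ q * t.1 = q ∧ q ≠ 0 ∧ q ≠ t.1 :=
    fun t => hT.2 t.1 t.2.1 t.2.2.1 t.2.2.2
  choose f hfM hfp hfm hf0 hfne using hex
  let s : ℕ → {t : H →L[ℂ] H // t ∈ M ∧ IsStarProjection t ∧ t ≠ 0} := fun n => Nat.rec
    ⟨p, hpM, hp, hp0⟩ (fun _ t => ⟨t.1 - f t, sub_mem t.2.1 (hfM t),
      (hfp t).sub_of_mul_eq_left t.2.2.1 (hfm t), sub_ne_zero.2 (Ne.symm (hfne t))⟩) n
  have hs : ∀ n, (s n).1 * p = (s n).1 := by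
    intro n
    induction n with
    | zero => exact hp.isIdempotentElem.eq
    | succ n ih =>
      change ((s n).1 - f (s n)) * p = (s n).1 - f (s n)
      rw [sub_mul, ih, ← hfm (s n), mul_assoc, ih]
  refine ⟨fun n => f (s n), fun n => hfM _, fun n => hfp _, fun n => hf0 _,
    fun n => by
      change f (s n) * p = f (s n)
      rw [← hfm (s n), mul_assoc, hs n], fun x => ?_⟩
  have hstep : ∀ n, ‖(s n).1 x‖ ^ 2 = ‖f (s n) x‖ ^ 2 + ‖(s (n + 1)).1 x‖ ^ 2 := by
    intro n
    have h1 := norm_sq_add_of_proj (hfp (s n)) ((s n).1 x)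
    have h2 : f (s n) ((s n).1 x) = f (s n) x := congr($(hfm (s n)) x)
    have h3 : (1 - f (s n)) ((s n).1 x) = (s (n + 1)).1 x := by
      change (s n).1 x - f (s n) ((s n).1 x) = (s n).1 x - f (s n) x
      rw [h2]
    rwa [h2, h3] at h1
  have hsum : ∀ N, (∑ i ∈ Finset.range N, ‖f (s i) x‖ ^ 2) + ‖(s N).1 x‖ ^ 2 = ‖p x‖ ^ 2 := by
    intro N
    induction N with
    | zero => simp [s]
    | succ N ih => rw [Finset.sum_range_succ, ← ih, hstep N]; ring
  have h0 : Tendsto (fun n => ‖f (s n) x‖ ^ 2) atTop (𝓝 0) :=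
    (summable_of_sum_range_le (c := ‖p x‖ ^ 2) (fun _ => sq_nonneg _) fun N => by
      linarith [hsum N, sq_nonneg ‖(s N).1 x‖]).tendsto_atTop_zero
  rw [tendsto_zero_iff_norm_tendsto_zero]
  simpa using h0.sqrt

/-- A nearly intertwining partial isometry is a piece. -/
lemma isPiece_of_intertwine (hS : StdForm M J P) {h k : H} (hk : J k = k) {η η₀ : ℝ}
    {r r' v : H →L[ℂ] H} (hr'M : r' ∈ M) (hr : IsStarProjection r)
    (hr' : IsStarProjection r') (hv : v ∈ M) (hvr : v * r = v) (hr'v : r' * v = v)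
    (hp : IsStarProjection (star v * v)) (hne : v (comp2 J r h) ≠ 0)
    (hη₀ : 0 < η₀) (hsmall : 4 * η₀ ^ 2 ≤ η) (hone : 4 * η₀ ^ 2 ≤ 1)
    (he : ‖v (comp2 J r h) - rmul J v (comp2 J r' k)‖ ≤ η₀ * ‖v (comp2 J r h)‖) :
    IsPiece M J h k η r r' v := by
  have hJ : SandConj M J := hS.sandConj
  have hvs : star v ∈ M := star_mem hv
  have hsr' : star v * r' = star v := by
    simpa [star_mul, hr'.isSelfAdjoint.star_eq] using congr(star $hr'v)
  have e1 : v (comp2 J r h) = sand J v r h := by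
    rw [comp2_eq_sand hr]
    change (v * r) (J (r (J h))) = _
    rw [hvr]
    rfl
  have e2 : rmul J v (comp2 J r' k) = sand J r' (star v) k := by
    rw [comp2_eq_sand hr', rmul_eq_sand, sand_sand hJ hvs hr'M, one_mul, hsr']
  rw [e1, e2] at he
  rw [e1] at hne
  set E := sand J v r h - sand J r' (star v) k with hE
  set N := ‖sand J v r h‖ with hN
  have hblock : ∀ a ∈ M, ∀ b ∈ M,
      sand J a b E = sand J (a * v) (b * r) h - sand J (a * r') (b * star v) k := by
    intro a _ b hb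
    rw [hE, sand_sub, sand_sand hJ hb hv, sand_sand hJ hb hr'M]
  have hQ : IsStarProjection (v * star v) := isStarProjection_fin hp
  have hpM : star v * v ∈ M := mul_mem hvs hv
  have hqM : v * star v ∈ M := mul_mem hv hvs
  have hvn := norm_v_le hp
  have hvsn : ‖star v‖ ≤ 1 := by rw [norm_star]; exact hvn
  have h1n : ‖(1 : H →L[ℂ] H)‖ ≤ 1 := (IsStarProjection.one _).norm_le _
  have hvp : v * (star v * v) = v := mul_init hp
  have hqv : v * star v * v = v := by rw [mul_assoc, hvp]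
  have hpvs : star v * v * star v = star v := by simpa [star_mul] using congr(star $hvp)
  have hpr : star v * v * r = star v * v := by rw [mul_assoc, hvr]
  have hqr' : v * star v * r' = v * star v := by rw [mul_assoc, hsr']
  -- the three corners of `E`
  have c1 : sand J (v * star v) v E
      = sand J v v h - sand J (v * star v) (v * star v) k := by
    rw [hblock _ hqM _ hv, hqv, hvr, hqr']
  have c2 : sand J 1 (1 - star v * v) E = sand J v (r - star v * v) h := by
    rw [hblock _ (one_mem M) _ (sub_mem (one_mem M) hpM), sub_mul 1 (star v * v) r, hpr,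
      sub_mul 1 (star v * v) (star v), hpvs]
    simp [sand]
  have c3 : sand J (1 - v * star v) 1 E = -sand J (r' - v * star v) (star v) k := by
    rw [hblock _ (sub_mem (one_mem M) hqM) _ (one_mem M), sub_mul 1 (v * star v) v, hqv,
      sub_mul 1 (v * star v) r', hqr']
    simp [sand]
  have b0 : ‖sand J v v h - sand J (v * star v) (v * star v) k‖ ≤ ‖E‖ := by
    rw [← c1]; exact norm_sand_le hJ (hQ.norm_le _) hvn _
  have b1' : ‖sand J v (r - star v * v) h‖ ≤ ‖E‖ := by
    rw [← c2]; exact norm_sand_le hJ h1n (hp.one_sub.norm_le _) _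
  have b1 : ‖sand J (star v * v) (r - star v * v) h‖ ≤ ‖E‖ := by
    have h := sand_sand (J := J) (a := star v) (d := r - star v * v) hJ (one_mem M) hv h
    rw [one_mul] at h
    rw [← h]
    exact (norm_sand_le hJ hvsn h1n _).trans b1'
  have b2 : ‖sand J (v * star v) (r' - v * star v) k‖ ≤ ‖E‖ := by
    rw [norm_sand_comm hJ hqM (sub_mem hr'M hqM) hk]
    have h := sand_sand (J := J) (a := 1) (d := star v) hJ hv (sub_mem hr'M hqM) k
    rw [one_mul] at h
    rw [← h]
    refine (norm_sand_le hJ h1n hvn _).trans ?_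
    rw [← norm_neg, ← c3]
    exact norm_sand_le hJ (hQ.one_sub.norm_le _) h1n _
  -- the mass
  have hsplit : N ^ 2 = ‖sand J v (star v * v) h‖ ^ 2 + ‖sand J v (r - star v * v) h‖ ^ 2 := by
    have h := norm_sand_sq_right (J := J) (b := r) hJ hp hpM hv h
    rwa [hpr, sub_mul 1 (star v * v) r, one_mul, hpr] at h
  have hx : ‖sand J v (star v * v) h‖ ≤ ‖sand J (star v * v) (star v * v) h‖ := by
    have h := sand_sand (J := J) (a := v) (d := star v * v) hJ (one_mem M) hpM h
    rw [hvp, one_mul] at h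
    rw [← h]
    exact norm_sand_le hJ hvn h1n _
  have hm : N ^ 2 ≤ mass J h v + ‖E‖ ^ 2 := by
    rw [hsplit]
    exact add_le_add (pow_le_pow_left₀ (norm_nonneg _) hx 2)
      (pow_le_pow_left₀ (norm_nonneg _) b1' 2)
  have hNpos : 0 < N := norm_pos_iff.2 hne
  have hE2 : ‖E‖ ^ 2 ≤ η₀ ^ 2 * N ^ 2 := by
    rw [← mul_pow]
    exact pow_le_pow_left₀ (norm_nonneg _) he 2
  have hN2 : 0 < N ^ 2 := by positivity
  have hm' : 3 * N ^ 2 ≤ 4 * mass J h v := by nlinarith
  have hη : 0 < η := lt_of_lt_of_le (by positivity) hsmall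
  have hlt : ‖E‖ ^ 2 < η * mass J h v := by
    nlinarith [mul_le_mul_of_nonneg_right hsmall hN2.le, mul_le_mul_of_nonneg_left hm' hη.le,
      mul_pos hη hN2]
  exact ⟨hv, hp, hvr, hr'v, (pow_le_pow_left₀ (norm_nonneg _) b0 2).trans_lt hlt,
    (pow_le_pow_left₀ (norm_nonneg _) b1 2).trans_lt hlt,
    (pow_le_pow_left₀ (norm_nonneg _) b2 2).trans_lt hlt⟩

/-- (E): pieces and type III give homogeneity of the unit vectors of the cone. -/
theorem homogOut (hS : StdForm M J P)
    (hsupp : ∀ h ∈ P, SepCorner M 1 h → ∀ r ∈ M, IsStarProjection r →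
      SepCorner M r (comp2 J r h))
    (hD : PieceOut M J P) (hT : TypeIIIOut M) : HomogOut M J P := by
  intro h hh k hk hh1 hk1 hsh hsk ε hε
  have hI : Input M J h k := by
    refine ⟨fun η hη r hrM r' hr'M hr hr' h0 h0' => ?_,
      fun p hpM hp hp0 => exists_small hT hpM hp hp0,
      fun p hpM q hqM hp hq hp0 hq0 => hT.1 p hpM q hqM hp hq hp0 hq0⟩
    set η₀ := √(min η 1 / 4) with hη₀
    have hpos : 0 < min η 1 / 4 := by have := lt_min hη one_pos; positivity
    have hsq : η₀ ^ 2 = min η 1 / 4 := Real.sq_sqrt hpos.le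
    obtain ⟨v, hv, hvr, hr'v, hv0, hp, he⟩ :=
      hD h hh k hk hsh hsk r hrM r' hr'M hr hr' h0 h0' η₀ (Real.sqrt_pos.2 hpos)
    exact ⟨v, isPiece_of_intertwine hS (hS.fixed k hk) hr'M hr hr' hv hvr hr'v hp
      (fun h' => hv0 (hsupp h hh hsh r hrM hr v hv hvr h')) (Real.sqrt_pos.2 hpos)
      (by rw [hsq]; linarith [min_le_left η 1]) (by rw [hsq]; linarith [min_le_right η 1]) he⟩
  obtain ⟨u, hu, u1, u2, u3⟩ :=
    exists_unitary_near hS.sandConj (hS.fixed h hh) (hS.fixed k hk) hh1 hk1 hI hε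
  exact ⟨u, Unitary.mem_iff.2 ⟨u1, u2⟩, hu, u3⟩

end P132.Homogeneity
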