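import Vale.Agent.P132.Homog.Standard

/-!
# P132, homogeneity: cone representatives of vector states

A unit vector `ξ`, cyclic and separating, is moved into a cone of `Ω` by a unitary of the
commutant. With isometries `s₀, s₁` of orthogonal ranges and sum `1`, and `tᵢ = J sᵢ J`, take the
modular conjugation `J'` of `Ω' = (s₀ t₀ Ω + s₁ t₁ ξ)/√2`. It maps block `(i,j)` to `(j,i)`; its
block `(0,0)` is `J`, block `(0,1)` is `w J` with `w` a unitary of the commutant, block `(1,1)`
is `w J w⋆`, and positivity for `Ω'` says that `Ω` and `w⋆ ξ` pair positively.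
-/

noncomputable section

namespace P132

open Filter Topology Complex ComplexConjugate
open scoped InnerProductSpace
open Homogeneity (conjBy rmul comp2 SepCorner StdForm IsConj HasModular HomogOut TypeIIIOut
  conjBy_apply)

namespace Homogeneity

variable {H : Type*} [NormedAddCommGroup H] [InnerProductSpace ℂ H] [CompleteSpace H]

lemma apply_commute {M : VonNeumannAlgebra H} {a b : H →L[ℂ] H} (ha : a ∈ M)
    (hb : b ∈ M.commutant) (v : H) : b (a v) = a (b v) := by
  have h := congrArg (fun T : H →L[ℂ] H => T v)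
    (VonNeumannAlgebra.mem_commutant_iff.1 hb a ha)
  simpa [mul_apply_eq_comp] using h.symm

lemma inner_star_apply (a : H →L[ℂ] H) (v w : H) : ⟪star a v, w⟫_ℂ = ⟪v, a w⟫_ℂ := by
  rw [ContinuousLinearMap.star_eq_adjoint, ContinuousLinearMap.adjoint_inner_left]

/-- A vector separating for the commutant is cyclic. -/
lemma dense_of_separating_commutant (M : VonNeumannAlgebra H) (v : H)
    (h : ∀ b ∈ M.commutant, b v = 0 → b = 0) : Dense {w : H | ∃ x ∈ M, x v = w} := by
  let E : Submodule ℂ H :=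
    { carrier := (fun a : H →L[ℂ] H => a v) '' (M : Set (H →L[ℂ] H))
      add_mem' := by
        rintro _ _ ⟨a, ha, rfl⟩ ⟨b, hb, rfl⟩
        exact ⟨a + b, AddMemClass.add_mem ha hb, rfl⟩
      zero_mem' := ⟨0, ZeroMemClass.zero_mem M, rfl⟩
      smul_mem' := by
        rintro c _ ⟨a, ha, rfl⟩
        exact ⟨c • a, M.toStarSubalgebra.smul_mem ha c, rfl⟩ }
  have : CompleteSpace E.topologicalClosure := E.isClosed_topologicalClosure.completeSpace_coe
  set G := E.topologicalClosure
  set e := G.starProjection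
  have he : e ∈ M.commutant := by
    rw [VonNeumannAlgebra.IsStarProjection.mem_iff isStarProjection_starProjection]
    intro y hy x hx
    rw [VonNeumannAlgebra.commutant_commutant] at hy
    rw [Submodule.mem_comap, show LinearMap.range e.toLinearMap = G from
      Submodule.range_starProjection G] at *
    refine map_mem_closure (f := y) y.continuous hx ?_
    rintro _ ⟨a, ha, rfl⟩
    exact ⟨y * a, mul_mem hy ha, rfl⟩
  have hv : v ∈ G := E.le_topologicalClosure ⟨1, one_mem M, rfl⟩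
  have he1 : 1 - e = 0 := h _ (sub_mem (one_mem _) he)
    (by simp [e, Submodule.starProjection_eq_self_iff.2 hv])
  intro x
  have hx : e x = x := by
    have := congrArg (fun T : H →L[ℂ] H => T x) he1
    exact (sub_eq_zero.1 (by simpa using this)).symm
  exact (Submodule.starProjection_eq_self_iff.1 hx : x ∈ G)

lemma separating_commutant_of_dense {M : VonNeumannAlgebra H} {v : H}
    (hv : Dense {w : H | ∃ x ∈ M, x v = w}) {b : H →L[ℂ] H} (hb : b ∈ M.commutant)
    (h0 : b v = 0) : b = 0 := by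
  refine ContinuousLinearMap.ext fun ξ => ?_
  refine hv.induction (P := fun ξ => b ξ = (0 : H →L[ℂ] H) ξ) ?_
    (isClosed_eq b.continuous (ContinuousLinearMap.continuous _)) ξ
  rintro _ ⟨a, ha, rfl⟩
  simp [apply_commute ha hb, h0]

/-- A conjugation exchanging `M` and `M'` with `⟨h, a J a J h⟩ ≥ 0` spans a standard form. -/
theorem exists_stdForm_of_conj {M : VonNeumannAlgebra H} {J : H →L⋆[ℂ] H} (hJ : IsConj J)
    (h1 : ∀ a ∈ M, conjBy J a ∈ M.commutant) (h2 : ∀ b ∈ M.commutant, conjBy J b ∈ M) {h : H}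
    (hh : J h = h)
    (hpos : ∀ a ∈ M, 0 ≤ (⟪h, a (conjBy J a h)⟫_ℂ).re ∧ (⟪h, a (conjBy J a h)⟫_ℂ).im = 0) :
    ∃ P, StdForm M J P ∧ h ∈ P := by
  set G : Set H := (fun a : H →L[ℂ] H => a (conjBy J a h)) '' (M : Set (H →L[ℂ] H)) with hG
  set A : AddSubmonoid H := (AddSubmonoid.closure G).topologicalClosure with hA
  have hgen : ∀ a ∈ M, a (conjBy J a h) ∈ A := fun a ha =>
    AddSubmonoid.le_topologicalClosure _ (AddSubmonoid.subset_closure ⟨a, ha, rfl⟩)
  have hind : ∀ {C : Set H} (T : H → H), IsClosed C → Continuous T → T 0 ∈ C →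
      (∀ v w, T v ∈ C → T w ∈ C → T (v + w) ∈ C) → (∀ a ∈ M, T (a (conjBy J a h)) ∈ C) →
      ∀ v ∈ A, T v ∈ C := by
    intro C T hC hT h0 hadd hg v hv
    refine closure_minimal (t := T ⁻¹' C) (fun w hw => ?_) (hC.preimage hT) hv
    refine AddSubmonoid.closure_induction (motive := fun w _ => T w ∈ C) ?_ h0
      (fun x y _ _ hx hy => hadd x y hx hy) hw
    rintro _ ⟨a, ha, rfl⟩
    exact hg a ha
  have hcomm : ∀ {x y : H →L[ℂ] H}, x ∈ M → y ∈ M → x * conjBy J y = conjBy J y * x :=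
    fun hx hy => VonNeumannAlgebra.mem_commutant_iff.1 (h1 _ hy) _ hx
  have hmul : ∀ a ∈ M, ∀ b ∈ M,
      a (conjBy J a (b (conjBy J b h))) = (a * b) (conjBy J (a * b) h) := by
    intro a ha b hb
    calc a (conjBy J a (b (conjBy J b h))) = a ((conjBy J a * b) (conjBy J b h)) := rfl
      _ = _ := by rw [← hcomm hb ha, hJ.conjBy_mul]; rfl
  refine ⟨A, ⟨hJ.invol, hJ.isometry, h1, h2, isClosed_closure, zero_mem A,
    fun v hv w hw => add_mem hv hw, ?_, ?_, ?_, ?_⟩, ?_⟩
  · intro c hc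
    refine hind (fun v => (c : ℂ) • v) isClosed_closure (by fun_prop)
      (by simp [zero_mem]) (fun v w hv hw => by
        rw [smul_add]; exact add_mem (S := AddSubmonoid H) hv hw)
      (fun a ha => ?_)
    have := hgen (((√c : ℝ) : ℂ) • a) (M.toStarSubalgebra.smul_mem ha _)
    rw [conjBy_smul, Complex.conj_ofReal] at this
    simp only [smul_apply, map_smul, smul_smul] at this
    rwa [← Complex.ofReal_mul, Real.mul_self_sqrt hc] at this
  · intro v hv
    refine sub_eq_zero.1 (hind (C := {0}) (fun v => J v - v) isClosed_singleton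
      (J.continuous.sub continuous_id) (by simp) (fun v w hv hw => ?_) (fun a ha => ?_) v hv)
    · simp only [Set.mem_singleton_iff, sub_eq_zero] at *
      rw [map_add, hv, hw]
    · simp only [Set.mem_singleton_iff, sub_eq_zero]
      calc J (a (conjBy J a h)) = conjBy J a (a h) := by simp [conjBy_apply, hh]
        _ = a (conjBy J a h) := apply_commute ha (h1 a ha) h
  · intro a ha
    exact hind (fun v => a (conjBy J a v)) isClosed_closure (by fun_prop)
      (by simp [zero_mem])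
      (fun v w hv hw => by
        rw [map_add, map_add]; exact add_mem (S := AddSubmonoid H) hv hw)
      (fun b hb => by rw [hmul a ha b hb]; exact hgen _ (mul_mem ha hb))
  · intro v hv w hw
    let C : H → Set H := fun v => {w | 0 ≤ (⟪v, w⟫_ℂ).re ∧ (⟪v, w⟫_ℂ).im = 0}
    have hC : ∀ v, IsClosed (C v) := fun v =>
      (isClosed_le continuous_const (Complex.continuous_re.comp
        (continuous_const.inner continuous_id))).inter
      (isClosed_eq (Complex.continuous_im.comp (continuous_const.inner continuous_id))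
        continuous_const)
    have hadd : ∀ v a b, a ∈ C v → b ∈ C v → a + b ∈ C v := fun v a b ha hb => by
      simp only [C, Set.mem_ofPred_eq, inner_add_right, Complex.add_re, Complex.add_im] at *
      exact ⟨add_nonneg ha.1 hb.1, by rw [ha.2, hb.2, add_zero]⟩
    have hsymm : ∀ v w, w ∈ C v → v ∈ C w := fun v w h => by
      simp only [C, Set.mem_ofPred_eq] at *
      rw [← inner_conj_symm w v, Complex.conj_re, Complex.conj_im, h.2, neg_zero]
      exact ⟨h.1, rfl⟩
    have hgg : ∀ a ∈ M, ∀ b ∈ M, b (conjBy J b h) ∈ C (a (conjBy J a h)) := by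
      intro a ha b hb
      have hc : star a * b ∈ M := mul_mem (star_mem ha) hb
      have e : ⟪a (conjBy J a h), b (conjBy J b h)⟫_ℂ
          = ⟪h, (star a * b) (conjBy J (star a * b) h)⟫_ℂ := by
        rw [apply_commute ha (h1 a ha) h |>.symm, ← star_star (conjBy J a), inner_star_apply,
          ← star_star a, inner_star_apply, star_star, hJ.star_conjBy,
          ← hmul _ (star_mem ha) b hb]
      simp only [C, Set.mem_ofPred_eq, e]
      exact hpos _ hc
    have h3 : ∀ a ∈ M, v ∈ C (a (conjBy J a h)) := fun a ha =>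
      hind id (hC _) continuous_id (by simp [C]) (hadd _) (fun b hb => hgg a ha b hb) v hv
    exact hind id (hC v) continuous_id (by simp [C]) (hadd v)
      (fun a ha => hsymm _ _ (h3 a ha)) w hw
  · simpa [hJ.conjBy_one] using hgen 1 (one_mem M)

/-! ### Blocks -/

/-- The isometry `sᵢ tⱼ`, `tⱼ = J sⱼ J`, onto block `(i,j)`. -/
def blockIso (J : H →L⋆[ℂ] H) (s : Fin 2 → H →L[ℂ] H) (i j : Fin 2) : H →L[ℂ] H :=
  s i * conjBy J (s j)

/-- The block of the conjugation `K` which leads from the image of `(j,i)` to that of `(i,j)`. -/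
def block (J K : H →L⋆[ℂ] H) (s : Fin 2 → H →L[ℂ] H) (i j : Fin 2) : H →L⋆[ℂ] H :=
  (star (blockIso J s i j)).comp (K.comp (blockIso J s j i))

omit [CompleteSpace H] in
lemma blockIso_apply (J : H →L⋆[ℂ] H) (s : Fin 2 → H →L[ℂ] H) (i j : Fin 2) (v : H) :
    blockIso J s i j v = s i (conjBy J (s j) v) := rfl

lemma block_apply (J K : H →L⋆[ℂ] H) (s : Fin 2 → H →L[ℂ] H) (i j : Fin 2) (v : H) :
    block J K s i j v = star (blockIso J s i j) (K (blockIso J s j i v)) := rfl

/-- The data of the two by two construction. -/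
structure TwoBlock (M : VonNeumannAlgebra H) (J : H →L⋆[ℂ] H) (s : Fin 2 → H →L[ℂ] H) :
    Prop where
  hconj : IsConj J
  conj_mem : ∀ a ∈ M, conjBy J a ∈ M.commutant
  mem : ∀ i, s i ∈ M
  orth : ∀ i j, star (s i) * s j = if i = j then 1 else 0
  total : ∑ i, s i * star (s i) = 1

namespace TwoBlock

variable {M : VonNeumannAlgebra H} {J : H →L⋆[ℂ] H} {s : Fin 2 → H →L[ℂ] H}
variable (B : TwoBlock M J s)
include B

lemma star_t_mul (i j : Fin 2) :
    star (conjBy J (s i)) * conjBy J (s j) = if i = j then 1 else 0 := by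
  rw [B.hconj.star_conjBy, ← B.hconj.conjBy_mul, B.orth]
  split
  · exact B.hconj.conjBy_one
  · exact ContinuousLinearMap.ext fun v => by simp [conjBy_apply]

lemma star_s_apply (i j : Fin 2) (v : H) : star (s i) (s j v) = if i = j then v else 0 := by
  have := congrArg (fun T : H →L[ℂ] H => T v) (B.orth i j)
  simp only [mul_apply_eq_comp] at this
  rw [this]; split <;> simp

lemma star_t_apply (i j : Fin 2) (v : H) :
    star (conjBy J (s i)) (conjBy J (s j) v) = if i = j then v else 0 := by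
  have := congrArg (fun T : H →L[ℂ] H => T v) (B.star_t_mul i j)
  simp only [mul_apply_eq_comp] at this
  rw [this]; split <;> simp

lemma t_mem (i : Fin 2) : conjBy J (s i) ∈ M.commutant := B.conj_mem _ (B.mem i)

omit B in
lemma star_blockIso_apply (i j : Fin 2) (v : H) :
    star (blockIso J s i j) v = star (conjBy J (s j)) (star (s i) v) := by
  rw [blockIso, star_mul]; rfl

lemma star_blockIso_blockIso (i j : Fin 2) (v : H) :
    star (blockIso J s i j) (blockIso J s i j v) = v := by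
  rw [star_blockIso_apply, blockIso_apply, B.star_s_apply, if_pos rfl, B.star_t_apply, if_pos rfl]

lemma norm_blockIso (i j : Fin 2) (v : H) : ‖blockIso J s i j v‖ = ‖v‖ := by
  have h : ‖blockIso J s i j v‖ ^ 2 = ‖v‖ ^ 2 := by
    rw [← @inner_self_eq_norm_sq ℂ, ← @inner_self_eq_norm_sq ℂ, ← inner_star_apply,
      B.star_blockIso_blockIso]
  nlinarith [norm_nonneg (blockIso J s i j v), norm_nonneg v]

/-- `eᵢ = sᵢ sᵢ⋆` on a block. -/
lemma e_blockIso (i k j : Fin 2) (v : H) :
    (s i * star (s i)) (blockIso J s k j v) = if i = k then blockIso J s k j v else 0 := by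
  rw [mul_apply_eq_comp, blockIso_apply, B.star_s_apply]
  split
  · next h => rw [h]
  · simp

lemma blockIso_star_blockIso (i j : Fin 2) (v : H) :
    blockIso J s i j (star (blockIso J s i j) v)
      = (s i * star (s i)) (conjBy J (s j * star (s j)) v) := by
  have h : conjBy J (s j) * star (s i) = star (s i) * conjBy J (s j) :=
    (VonNeumannAlgebra.mem_commutant_iff.1 (B.t_mem j) _ (star_mem (B.mem i))).symm
  rw [star_blockIso_apply, blockIso_apply, B.hconj.star_conjBy, B.hconj.conjBy_mul]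
  simp only [mul_apply_eq_comp]
  rw [apply_commute (star_mem (B.mem i)) (B.conj_mem _ (star_mem (B.mem j))),
    apply_commute (star_mem (B.mem i)) (B.t_mem j)]

end TwoBlock

end Homogeneity

open Homogeneity

variable {H : Type*} [NormedAddCommGroup H] [InnerProductSpace ℂ H] [CompleteSpace H]

/-- A cyclic separating vector is moved into a cone of `Ω` by a unitary of the commutant. -/
theorem exists_positive_vector (S : Std H) (D : Modular S) (hd : D.EntireDense)
    (hmod : ∀ S' : Std H, ∃ D' : Modular S', D'.EntireDense ∧ D'.CommTh)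
    (s : Fin 2 → H →L[ℂ] H) (hs : ∀ i, s i ∈ S.M)
    (horth : ∀ i j, star (s i) * s j = if i = j then 1 else 0)
    (htot : ∑ i, s i * star (s i) = 1) (ξ : H) (hξ1 : ‖ξ‖ = 1)
    (hξc : Dense {v : H | ∃ x ∈ S.M, x ξ = v}) (hξs : ∀ x ∈ S.M, x ξ = 0 → x = 0) :
    ∃ u ∈ S.M.commutant, star u * u = 1 ∧ u * star u = 1 ∧ D.Pair {S.Ω, u ξ} := by
  set J := D.Jc with hJdef
  have hJ : IsConj J := D.isConj
  have B : TwoBlock S.M J s := ⟨hJ, fun a ha => D.conj_mem_commutant ha, hs, horth, htot⟩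
  set W := blockIso J s with hW
  have h01 : (0 : Fin 2) ≠ 1 := by decide
  have h10 : (1 : Fin 2) ≠ 0 := by decide
  -- the vector
  set c : ℂ := (((√2)⁻¹ : ℝ) : ℂ) with hc
  have hc0 : c ≠ 0 := by rw [hc]; simp
  set Ω' : H := c • (W 0 0 S.Ω + W 1 1 ξ) with hΩ'
  have hperp : ⟪W 0 0 S.Ω, W 1 1 ξ⟫_ℂ = 0 := by
    simp only [hW, blockIso_apply]
    rw [← star_star (s 0), inner_star_apply, B.star_s_apply, if_neg h01, inner_zero_right]
  have hn : ‖Ω'‖ = 1 := by
    have h2 : ‖W 0 0 S.Ω + W 1 1 ξ‖ = √2 := by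
      rw [← Real.sqrt_sq (norm_nonneg _), @norm_add_sq ℂ, hperp, hW, B.norm_blockIso,
        B.norm_blockIso, S.norm_Ω, hξ1]
      norm_num
    rw [hΩ', norm_smul, h2, hc, Complex.norm_real, Real.norm_eq_abs, abs_of_pos (by positivity)]
    field_simp
  have hsep : ∀ x ∈ S.M, x Ω' = 0 → x = 0 := by
    intro x hx h0
    rw [hΩ', map_smul, smul_eq_zero] at h0
    have h0 := h0.resolve_left hc0
    have key : ∀ i, x * s i = 0 := by
      intro i
      have h1 := congrArg (⇑(star (conjBy J (s i)))) h0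
      simp only [map_add, map_zero, hW, blockIso_apply] at h1
      rw [← apply_commute (hs 0) (B.t_mem 0), ← apply_commute (hs 1) (B.t_mem 1),
        ← apply_commute hx (B.t_mem 0), ← apply_commute hx (B.t_mem 1), B.star_t_apply,
        B.star_t_apply] at h1
      fin_cases i
      · refine S.separating _ (mul_mem hx (hs 0)) ?_
        simpa [mul_apply_eq_comp] using h1
      · refine hξs _ (mul_mem hx (hs 1)) ?_
        simpa [mul_apply_eq_comp] using h1
    calc x = x * ∑ i, s i * star (s i) := by rw [htot, mul_one]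
      _ = 0 := by rw [Finset.mul_sum]; simp [← mul_assoc, key]
  have hcyc : Dense {w : H | ∃ x ∈ S.M, x Ω' = w} := by
    refine dense_of_separating_commutant _ _ fun b hb h0 => ?_
    rw [hΩ', map_smul, smul_eq_zero] at h0
    have h0 := h0.resolve_left hc0
    have key : ∀ i, b * conjBy J (s i) = 0 := by
      intro i
      have h1 := congrArg (⇑(star (s i))) h0
      simp only [map_add, map_zero, hW, blockIso_apply] at h1
      rw [apply_commute (hs 0) hb, apply_commute (hs 1) hb, B.star_s_apply, B.star_s_apply] at h1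
      fin_cases i
      · refine separating_commutant_of_dense S.cyclic (mul_mem hb (B.t_mem 0)) ?_
        simpa [mul_apply_eq_comp] using h1
      · refine separating_commutant_of_dense hξc (mul_mem hb (B.t_mem 1)) ?_
        simpa [mul_apply_eq_comp] using h1
    have htt : ∑ i, conjBy J (s i) * star (conjBy J (s i)) = 1 := by
      calc _ = conjBy J (∑ i, s i * star (s i)) := by
            simp only [hJ.star_conjBy, ← hJ.conjBy_mul, Fin.sum_univ_two]
            exact ContinuousLinearMap.ext fun v => by simp [conjBy_apply, map_add]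
        _ = 1 := by rw [htot, hJ.conjBy_one]
    calc b = b * ∑ i, conjBy J (s i) * star (conjBy J (s i)) := by rw [htt, mul_one]
      _ = 0 := by rw [Finset.mul_sum]; simp [← mul_assoc, key]
  obtain ⟨D', hd', hcomm'⟩ := hmod ⟨S.M, Ω', hn, hcyc, hsep⟩
  set K := D'.Jc with hKdef
  have hK : IsConj K := D'.isConj
  set e : Fin 2 → H →L[ℂ] H := fun i => s i * star (s i) with he
  have heM : ∀ i, e i ∈ S.M := fun i => mul_mem (hs i) (star_mem (hs i))
  have hesa : ∀ i, IsSelfAdjoint (e i) := fun i => IsSelfAdjoint.mul_star_self _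
  set v : Fin 2 → H := ![S.Ω, ξ] with hv
  have hΩv : Ω' = c • (W 0 0 (v 0) + W 1 1 (v 1)) := rfl
  have heΩ : ∀ i, e i Ω' = c • W i i (v i) := by
    intro i
    rw [hΩv, map_smul, map_add, he, hW, B.e_blockIso, B.e_blockIso]
    fin_cases i <;> simp
  -- `eᵢ` is central for the vector state of `Ω'`
  have hKe : ∀ i, K (e i Ω') = e i Ω' := by
    intro i
    refine D'.J_apply_of_central hd' (heM i) (hesa i) fun y hy => ?_
    change ⟪Ω', e i (y Ω')⟫_ℂ = ⟪Ω', y (e i Ω')⟫_ℂ
    rw [← inner_star_apply (e i), (hesa i).star_eq, heΩ, hΩv]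
    simp only [map_smul, map_add, inner_smul_left, inner_smul_right, inner_add_left,
      inner_add_right]
    have z : ∀ k l, k ≠ l → ∀ p q, ⟪W k k p, y (W l l q)⟫_ℂ = 0 := by
      intro k l hkl p q
      simp only [hW, blockIso_apply]
      rw [← apply_commute (hs k) (B.t_mem k), ← apply_commute (hs l) (B.t_mem l),
        ← apply_commute hy (B.t_mem l), ← star_star (conjBy J (s k)), inner_star_apply,
        B.star_t_apply, if_neg hkl, inner_zero_right]
    fin_cases i <;> simp [z 0 1 h01, z 1 0 h10]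
  have hje : ∀ i, conjBy K (e i) = conjBy J (e i) := by
    intro i
    refine sub_eq_zero.1 (separating_commutant_of_dense hcyc
      (sub_mem (D'.conj_mem_commutant (heM i)) (D.conj_mem_commutant (heM i))) ?_)
    have hKΩ : K Ω' = Ω' := D'.J_Ω
    rw [sub_apply, sub_eq_zero, conjBy_apply, hKΩ, hKe, heΩ, hΩv]
    change _ = conjBy J (s i * star (s i)) (c • (W 0 0 (v 0) + W 1 1 (v 1)))
    rw [hJ.conjBy_mul, ← hJ.star_conjBy, mul_apply_eq_comp, map_smul, map_smul, map_add]
    simp only [hW, blockIso_apply]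
    rw [← apply_commute (hs 0) (B.t_mem 0), ← apply_commute (hs 1) (B.t_mem 1), B.star_t_apply,
      B.star_t_apply]
    fin_cases i <;> simp [apply_commute (hs 0) (B.t_mem 0), apply_commute (hs 1) (B.t_mem 1)]
  set A := block J K s with hA
  -- `K` exchanges the blocks
  have hKW : ∀ i j w, K (W i j w) = W j i (A j i w) := by
    intro i j w
    rw [hA, block_apply, B.blockIso_star_blockIso]
    have e1 : conjBy J (e i) (K (W i j w)) = K (W i j w) := by
      rw [← hje, conjBy_apply, hK.invol, hW, B.e_blockIso, if_pos rfl]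
    have e2 : e j (K (W i j w)) = K (W i j w) := by
      have h3 : conjBy K (conjBy J (e j)) = e j := by rw [← hje, hK.conjBy_conjBy]
      rw [← h3, conjBy_apply, hK.invol]
      congr 1
      simp only [he, hW, blockIso_apply]
      rw [hJ.conjBy_mul, ← hJ.star_conjBy, mul_apply_eq_comp,
        ← apply_commute (hs i) (B.t_mem j), B.star_t_apply, if_pos rfl]
    change K (W i j w) = e j (conjBy J (e i) (K (W i j w)))
    rw [e1, e2]
  have hAinv : ∀ i j w, A i j (A j i w) = w := by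
    intro i j w
    have h := hKW j i (A j i w)
    rw [← hKW i j w, hK.invol] at h
    have h2 := congrArg (⇑(star (W i j))) h
    rwa [hW, B.star_blockIso_blockIso, B.star_blockIso_blockIso, eq_comm] at h2
  have hAnorm : ∀ i j w, ‖A j i w‖ = ‖w‖ := by
    intro i j w
    rw [← B.norm_blockIso j i (A j i w), ← hW, ← hKW, hK.isometry, hW, B.norm_blockIso]
  -- conjugates of elements of `M`
  have hA1 : ∀ a ∈ S.M, ∀ i k, ∃ b ∈ S.M.commutant, ∀ j w, A j i (a (A k j w)) = b w := by
    intro a ha i k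
    set cc := conjBy K (s i * a * star (s k)) with hcc
    have hccM : cc ∈ S.M.commutant :=
      D'.conj_mem_commutant (mul_mem (mul_mem (hs i) ha) (star_mem (hs k)))
    refine ⟨star (conjBy J (s i)) * cc * conjBy J (s k),
      mul_mem (mul_mem (star_mem (B.t_mem i)) hccM) (B.t_mem k), fun j w => ?_⟩
    have h1 : cc (W j k w) = s j (cc (conjBy J (s k) w)) := by
      rw [hW, blockIso_apply, apply_commute (hs j) hccM]
    have h2 : cc (W j k w) = W j i (A j i (a (A k j w))) := by
      rw [← hKW i j, hcc, conjBy_apply, hKW, mul_apply_eq_comp, mul_apply_eq_comp]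
      congr 1
      simp only [hW, blockIso_apply]
      rw [B.star_s_apply, if_pos rfl, apply_commute ha (B.t_mem j)]
    have h3 := congrArg (⇑(star (W j i))) h2
    rw [hW, B.star_blockIso_blockIso, ← hW, h1] at h3
    rw [← h3, hW, TwoBlock.star_blockIso_apply, B.star_s_apply, if_pos rfl]
    rfl
  have hA2 : ∀ a ∈ S.M, ∀ i k j j' w, A j i (a (A k j w)) = A j' i (a (A k j' w)) := by
    intro a ha i k j j' w
    obtain ⟨b, -, hb⟩ := hA1 a ha i k
    rw [hb, hb]
  -- the block `(0,0)` is `J`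
  have hAfix : ∀ i, A i i (v i) = v i := by
    intro i
    have h := hKe i
    rw [heΩ, map_smulₛₗ, hKW, hc, Complex.conj_ofReal] at h
    have h2 := congrArg (⇑(star (W i i))) (smul_right_injective H (by rw [← hc]; exact hc0) h)
    rwa [hW, B.star_blockIso_blockIso, B.star_blockIso_blockIso] at h2
  have hpair : ∀ x ∈ S.M, 0 ≤ (⟪x Ω', K (star x Ω')⟫_ℂ).re ∧ (⟪x Ω', K (star x Ω')⟫_ℂ).im = 0 :=
    fun x hx => (D'.pair_singleton hd').2 _ rfl _ rfl x hx
  -- positivity of the blocks
  have hposA : ∀ i k, ∀ a ∈ S.M,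
      0 ≤ (⟪a (v k), A i k (star a (v i))⟫_ℂ).re ∧ (⟪a (v k), A i k (star a (v i))⟫_ℂ).im = 0 := by
    intro i k a ha
    have happ : ∀ p q, ∀ b ∈ S.M, (s p * b * star (s q)) Ω' = c • W p q (b (v q)) := by
      intro p q b hb
      rw [hΩv, map_smul, map_add]
      simp only [mul_apply_eq_comp, hW, blockIso_apply]
      rw [B.star_s_apply, B.star_s_apply]
      fin_cases q <;> simp [apply_commute hb (B.t_mem 0), apply_commute hb (B.t_mem 1)]
    have h := hpair (s i * a * star (s k)) (mul_mem (mul_mem (hs i) ha) (star_mem (hs k)))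
    rw [happ i k a ha, star_mul, star_mul, star_star, ← mul_assoc, happ k i _ (star_mem ha),
      map_smulₛₗ, hKW, inner_smul_left, inner_smul_right, hc, Complex.conj_ofReal, ← mul_assoc,
      ← Complex.ofReal_mul, ← inner_star_apply, hW, B.star_blockIso_blockIso] at h
    simp only [Complex.re_ofReal_mul, Complex.im_ofReal_mul, mul_eq_zero] at h
    have hc2 : (0 : ℝ) < (√2)⁻¹ * (√2)⁻¹ := by positivity
    exact ⟨(mul_nonneg_iff_of_pos_left hc2).1 h.1, h.2.resolve_left (by simp)⟩
  have hA00 : ∀ w, A 0 0 w = J w := by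
    have hJ0 : IsConj (A 0 0) := ⟨hAinv 0 0, hAnorm 0 0⟩
    have m1 : ∀ a ∈ S.M, conjBy (A 0 0) a ∈ S.M.commutant := by
      intro a ha
      obtain ⟨b, hbM, hb⟩ := hA1 a ha 0 0
      rwa [show conjBy (A 0 0) a = b from ContinuousLinearMap.ext fun w => hb 0 w]
    have m2 : ∀ b ∈ S.M.commutant, conjBy (A 0 0) b ∈ S.M := by
      intro b hb
      set m := conjBy K (conjBy J (s 0) * b * star (conjBy J (s 0))) with hm
      have hmM : m ∈ S.M :=
        hcomm' _ (mul_mem (mul_mem (B.t_mem 0) hb) (star_mem (B.t_mem 0)))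
      convert mul_mem (mul_mem (star_mem (hs 0)) hmM) (hs 0) using 1
      refine ContinuousLinearMap.ext fun w => ?_
      have h1 : m (W 0 0 w) = W 0 0 (A 0 0 (b (A 0 0 w))) := by
        rw [← hKW 0 0, hm, conjBy_apply, hKW, mul_apply_eq_comp, mul_apply_eq_comp]
        congr 1
        simp only [hW, blockIso_apply]
        rw [apply_commute (hs 0) (star_mem (B.t_mem 0)), B.star_t_apply, if_pos rfl,
          apply_commute (hs 0) hb, apply_commute (hs 0) (B.t_mem 0)]
      have h2 := congrArg (⇑(star (W 0 0))) h1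
      rw [hW, B.star_blockIso_blockIso] at h2
      rw [conjBy_apply, ← h2, TwoBlock.star_blockIso_apply, blockIso_apply, mul_apply_eq_comp,
        mul_apply_eq_comp]
      rw [← apply_commute (hs 0) (B.t_mem 0), ← apply_commute hmM (B.t_mem 0),
        ← apply_commute (star_mem (hs 0)) (B.t_mem 0), B.star_t_apply, if_pos rfl]
    have hpos0 : ∀ a ∈ S.M, 0 ≤ (⟪S.Ω, a (conjBy (A 0 0) a S.Ω)⟫_ℂ).re ∧
        (⟪S.Ω, a (conjBy (A 0 0) a S.Ω)⟫_ℂ).im = 0 := by
      intro a ha
      have h := hposA 0 0 (star a) (star_mem ha)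
      rw [star_star, show v 0 = S.Ω from rfl, inner_star_apply] at h
      rwa [conjBy_apply, show A 0 0 S.Ω = S.Ω from hAfix 0]
    obtain ⟨P, hP, hΩP⟩ := exists_stdForm_of_conj hJ0 m1 m2 (hAfix 0) hpos0
    exact fun w => (D.J_eq_of_stdForm hd hP hΩP w).symm
  -- the intertwining unitary
  set w : H →L[ℂ] H := (A 0 1).comp J with hwdef
  have hw : ∀ z, w z = A 0 1 (J z) := fun z => rfl
  have hwnorm : ∀ z, ‖w z‖ = ‖z‖ := fun z => by rw [hw, hAnorm, hJ.isometry]
  have hkey : ∀ a ∈ S.M, ∀ z, A 1 0 (a (A 0 1 z)) = J (a (J z)) := fun a ha z => by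
    rw [hA2 a ha 0 0 1 0, hA00, hA00]
  have hwM : w ∈ S.M.commutant := VonNeumannAlgebra.mem_commutant_iff.2 fun a ha =>
    ContinuousLinearMap.ext fun z => by
      rw [mul_apply_eq_comp, mul_apply_eq_comp, hw, hw, ← hAinv 0 1 (a (A 0 1 (J z))),
        hkey a ha, hJ.invol]
  have hstar : ∀ z, star w z = J (A 1 0 z) := by
    intro z
    refine ext_inner_right ℂ fun y => ?_
    have hiso : ∀ p q, ⟪w p, w q⟫_ℂ = ⟪p, q⟫_ℂ := fun p q =>
      (⟨w.toLinearMap, hwnorm⟩ : H →ₗᵢ[ℂ] H).inner_map_map p q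
    rw [inner_star_apply, ← hiso (J (A 1 0 z)) y, hw (J (A 1 0 z)), hJ.invol, hAinv]
  have hw1 : star w * w = 1 := ContinuousLinearMap.ext fun z => by
    rw [mul_apply_eq_comp, hstar, hw, hAinv, hJ.invol, one_apply_eq_self]
  have hw2 : w * star w = 1 := ContinuousLinearMap.ext fun z => by
    rw [mul_apply_eq_comp, hstar, hw, hJ.invol, hAinv, one_apply_eq_self]
  have hA01 : ∀ z, A 0 1 z = w (J z) := fun z => by rw [hw, hJ.invol]
  have hA10 : ∀ z, A 1 0 z = J (star w z) := fun z => by rw [hstar, hJ.invol]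
  have hA11 : ∀ z, A 1 1 z = w (J (star w z)) := fun z => by
    have h := hA2 1 (one_mem _) 0 1 0 1 z
    simp only [one_apply_eq_self, hA00] at h
    rw [← hA10, ← hAinv 0 1 (A 1 1 z), ← h, hA01, hJ.invol]
  refine ⟨star w, star_mem hwM, by rw [star_star, hw2], by rw [star_star, hw1], ?_, ?_⟩
  · rintro z (rfl | rfl)
    · exact D.J_Ω
    · have h := hAfix 1
      rw [show v 1 = ξ from rfl, hA11] at h
      have h2 := congrArg (⇑(star w)) h
      rwa [← mul_apply_eq_comp, hw1, one_apply_eq_self] at h2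
  · have hcomm1 : ∀ a ∈ S.M, ∀ z, a (star w z) = star w (a z) := fun a ha z =>
      (apply_commute ha (star_mem hwM) z).symm
    have hmove : ∀ p q, ⟪p, w q⟫_ℂ = ⟪star w p, q⟫_ℂ := fun p q => (inner_star_apply w p q).symm
    rintro p (rfl | rfl) q (rfl | rfl) x hx
    · exact (D.pair_singleton hd).2 _ rfl _ rfl x hx
    · have h := hposA 1 0 x hx
      rw [show v 0 = S.Ω from rfl, show v 1 = ξ from rfl, hA10] at h
      rwa [hcomm1 _ (star_mem hx)]
    · have h := hposA 0 1 x hx
      rw [show v 0 = S.Ω from rfl, show v 1 = ξ from rfl, hA01, hmove, ← hcomm1 _ hx] at h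
      exact h
    · have h := hposA 1 1 x hx
      rw [show v 1 = ξ from rfl, hA11, hmove, ← hcomm1 _ hx, ← hcomm1 _ (star_mem hx)] at h
      exact h

/-- Homogeneity for the states of two cyclic separating vectors. -/
theorem vec_homog (S : Std H) (D : Modular S) (hd : D.EntireDense) (hcomm : D.CommTh)
    (hmod : ∀ S' : Std H, ∃ D' : Modular S', D'.EntireDense ∧ D'.CommTh)
    (hT : TypeIIIOut S.M) (hH : ∀ P, StdForm S.M D.Jc P → HomogOut S.M D.Jc P)
    {ξ η : H} (hξ1 : ‖ξ‖ = 1) (hη1 : ‖η‖ = 1)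
    (hξc : Dense {v : H | ∃ x ∈ S.M, x ξ = v}) (hξs : ∀ x ∈ S.M, x ξ = 0 → x = 0)
    (hηc : Dense {v : H | ∃ x ∈ S.M, x η = v}) (hηs : ∀ x ∈ S.M, x η = 0 → x = 0)
    {ε : ℝ} (hε : 0 < ε) :
    ∃ u ∈ S.M, star u * u = 1 ∧ u * star u = 1 ∧ ∀ y ∈ S.M,
      ‖⟪ξ, (star u * y * u) ξ⟫_ℂ - ⟪η, y η⟫_ℂ‖ ≤ ε * ‖y‖ := by
  have hΩ0 : S.Ω ≠ 0 := fun h => by simpa [h] using S.norm_Ω
  have hone : (1 : H →L[ℂ] H) ≠ 0 := fun h => hΩ0 (by
    simpa using congrArg (fun T : H →L[ℂ] H => T S.Ω) h)
  -- two isometries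
  obtain ⟨p, hp, hpp, -, hp0, hp1⟩ := hT.2 1 (one_mem _) (.one _) hone
  have hq : IsStarProjection (1 - p) := hpp.one_sub
  obtain ⟨a, ha, ha1, ha2⟩ := hT.1 1 (one_mem _) p hp (.one _) hpp hone hp0
  obtain ⟨b, hb, hb1, hb2⟩ := hT.1 1 (one_mem _) (1 - p) (sub_mem (one_mem _) hp) (.one _) hq
    hone (sub_ne_zero.2 (Ne.symm hp1))
  have hab : star a * b = 0 := by
    calc star a * b = star a * (a * star a) * (b * star b) * b := by
          simp only [mul_assoc]
          rw [hb1, mul_one, ← mul_assoc (star a) a, ha1, one_mul]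
      _ = star a * (p * (1 - p)) * b := by rw [ha2, hb2]; simp only [mul_assoc]
      _ = 0 := by rw [mul_sub, mul_one, hpp.isIdempotentElem.eq, sub_self]; simp
  set s : Fin 2 → H →L[ℂ] H := ![a, b] with hs
  have hsM : ∀ i, s i ∈ S.M := by intro i; fin_cases i <;> assumption
  have horth : ∀ i j, star (s i) * s j = if i = j then 1 else 0 := by
    intro i j
    fin_cases i <;> fin_cases j
    · simpa [hs] using ha1
    · simpa [hs] using hab
    · simpa [hs] using by simpa using congrArg star hab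
    · simpa [hs] using hb1
  have htot : ∑ i, s i * star (s i) = 1 := by
    simp [hs, ha2, hb2]
  have step : ∀ ζ : H, ‖ζ‖ = 1 → Dense {v : H | ∃ x ∈ S.M, x ζ = v} →
      (∀ x ∈ S.M, x ζ = 0 → x = 0) → ∀ δ > 0, ∃ g ∈ S.M, star g * g = 1 ∧ g * star g = 1 ∧
        ∀ y ∈ S.M, ‖⟪S.Ω, (star g * y * g) S.Ω⟫_ℂ - ⟪ζ, y ζ⟫_ℂ‖ ≤ 2 * δ * ‖y‖ := by
    intro ζ hζ1 hζc hζs δ hδ
    obtain ⟨u, huM, hu1, hu2, hpair⟩ :=
      exists_positive_vector S D hd hmod s hsM horth htot ζ hζ1 hζc hζs
    set P := D.cone {S.Ω, u ζ}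
    have hstd : StdForm S.M D.Jc P := D.stdForm hcomm hpair
    have hunorm : ∀ (g : H →L[ℂ] H), star g * g = 1 → ∀ z, ‖g z‖ = ‖z‖ := fun g hg z => by
      have h : ‖g z‖ ^ 2 = ‖z‖ ^ 2 := by
        rw [← @inner_self_eq_norm_sq ℂ, ← @inner_self_eq_norm_sq ℂ, ← inner_star_apply,
          ← mul_apply_eq_comp, hg, one_apply_eq_self]
      nlinarith [norm_nonneg (g z), norm_nonneg z]
    have hk1 : ‖u ζ‖ = 1 := by rw [hunorm u hu1, hζ1]
    have hksep : SepCorner S.M 1 (u ζ) := fun x hx _ h0 => hζs x hx (by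
      rw [← apply_commute hx huM] at h0
      have := congrArg (⇑(star u)) h0
      rwa [← mul_apply_eq_comp, hu1, one_apply_eq_self, map_zero] at this)
    obtain ⟨g, hg, hgM, hgd⟩ := hH P hstd S.Ω (D.subset_cone _ (Or.inl rfl)) (u ζ)
      (D.subset_cone _ (Or.inr rfl)) S.norm_Ω hk1 (fun x hx _ h0 => S.separating x hx h0) hksep
      δ hδ
    obtain ⟨hg1, hg2⟩ := Unitary.mem_iff.1 hg
    refine ⟨g, hgM, hg1, hg2, fun y hy => ?_⟩
    set z := g (conjBy D.Jc g S.Ω) with hz
    have hjg : conjBy D.Jc g ∈ S.M.commutant := D.conj_mem_commutant hgM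
    have hjg1 : star (conjBy D.Jc g) * conjBy D.Jc g = 1 := by
      rw [D.isConj.star_conjBy, ← D.isConj.conjBy_mul, hg1, D.isConj.conjBy_one]
    have hid : ∀ v, star (conjBy D.Jc g) (conjBy D.Jc g v) = v := fun v => by
      have := congrArg (fun T : H →L[ℂ] H => T v) hjg1
      simpa [mul_apply_eq_comp] using this
    have hz1 : ‖z‖ = 1 := by rw [hz, hunorm g hg1, hunorm _ hjg1, S.norm_Ω]
    have e1 : ⟪S.Ω, (star g * y * g) S.Ω⟫_ℂ = ⟪z, y z⟫_ℂ := by
      rw [mul_apply_eq_comp, mul_apply_eq_comp, ← inner_star_apply, star_star, hz,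
        ← apply_commute hgM hjg, ← apply_commute hy hjg, ← inner_star_apply (conjBy D.Jc g), hid]
    have e2 : ⟪ζ, y ζ⟫_ℂ = ⟪u ζ, y (u ζ)⟫_ℂ := by
      rw [← apply_commute hy huM, ← inner_star_apply u, ← mul_apply_eq_comp, hu1,
        one_apply_eq_self]
    rw [e1, e2, show ⟪z, y z⟫_ℂ - ⟪u ζ, y (u ζ)⟫_ℂ
        = ⟪z - u ζ, y z⟫_ℂ + ⟪u ζ, y (z - u ζ)⟫_ℂ by
      rw [map_sub, inner_sub_left, inner_sub_right]; ring]
    refine (norm_add_le _ _).trans ?_
    have b1 := (norm_inner_le_norm (𝕜 := ℂ) (z - u ζ) (y z)).trans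
      (mul_le_mul hgd (y.le_opNorm z) (norm_nonneg _) hδ.le)
    have b2 := (norm_inner_le_norm (𝕜 := ℂ) (u ζ) (y (z - u ζ))).trans
      (mul_le_mul le_rfl ((y.le_opNorm _).trans (mul_le_mul_of_nonneg_left hgd (norm_nonneg y)))
        (norm_nonneg _) (norm_nonneg _))
    rw [hz1] at b1
    rw [hk1] at b2
    linarith
  obtain ⟨g₁, hg₁M, h11, h12, hg₁⟩ := step ξ hξ1 hξc hξs (ε / 4) (by positivity)
  obtain ⟨g₂, hg₂M, h21, h22, hg₂⟩ := step η hη1 hηc hηs (ε / 4) (by positivity)
  refine ⟨g₂ * star g₁, mul_mem hg₂M (star_mem hg₁M), ?_, ?_, fun y hy => ?_⟩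
  · rw [star_mul, star_star, mul_assoc g₁, ← mul_assoc (star g₂), h21, one_mul, h12]
  · rw [star_mul, star_star, mul_assoc g₂, ← mul_assoc (star g₁), h11, one_mul, h22]
  set y' := star (g₂ * star g₁) * y * (g₂ * star g₁) with hy'
  have hy'M : y' ∈ S.M :=
    mul_mem (mul_mem (star_mem (mul_mem hg₂M (star_mem hg₁M))) hy) (mul_mem hg₂M (star_mem hg₁M))
  have e : star g₁ * y' * g₁ = star g₂ * y * g₂ := by
    rw [hy', star_mul, star_star]
    simp only [mul_assoc, h11, mul_one]
    rw [← mul_assoc (star g₁) g₁, h11, one_mul]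
  have hn1 : ∀ g : H →L[ℂ] H, star g * g = 1 → ‖g‖ ≤ 1 := fun g hg => by
    refine g.opNorm_le_bound zero_le_one fun z => le_of_eq ?_
    have h : ‖g z‖ ^ 2 = ‖z‖ ^ 2 := by
      rw [← @inner_self_eq_norm_sq ℂ, ← @inner_self_eq_norm_sq ℂ, ← inner_star_apply,
        ← mul_apply_eq_comp, hg, one_apply_eq_self]
    nlinarith [norm_nonneg (g z), norm_nonneg z]
  have hny : ‖y'‖ ≤ ‖y‖ := by
    have hu : ‖g₂ * star g₁‖ ≤ 1 := hn1 _ (by
      rw [star_mul, star_star, mul_assoc g₁, ← mul_assoc (star g₂), h21, one_mul, h12])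
    refine (norm_mul_le _ _).trans ((mul_le_of_le_one_right (norm_nonneg _) hu).trans ?_)
    refine (norm_mul_le _ _).trans (mul_le_of_le_one_left (norm_nonneg _) ?_)
    rwa [norm_star]
  have b1 := hg₁ y' hy'M
  have b2 := hg₂ y hy
  rw [e] at b1
  rw [norm_sub_rev] at b1
  calc ‖⟪ξ, y' ξ⟫_ℂ - ⟪η, y η⟫_ℂ‖
      ≤ ‖⟪ξ, y' ξ⟫_ℂ - ⟪S.Ω, (star g₂ * y * g₂) S.Ω⟫_ℂ‖
        + ‖⟪S.Ω, (star g₂ * y * g₂) S.Ω⟫_ℂ - ⟪η, y η⟫_ℂ‖ := norm_sub_le_norm_sub_add_norm_sub _ _ _
    _ ≤ ε * ‖y‖ := by nlinarith [norm_nonneg y]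

end P132
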