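import Vale.Agent.P132.Homog.Standard

/-!
# From vectors to finite sums of vector functionals

A finite sum of vector functionals, mixed with a faithful one, is the state of a cyclic separating
vector once isometries with orthogonal ranges act in the commutant.
-/

noncomputable section

namespace P132.Homogeneity

open scoped InnerProductSpace
open Homogeneity

variable {H : Type*} [NormedAddCommGroup H] [InnerProductSpace ℂ H] [CompleteSpace H]
variable {M : VonNeumannAlgebra H} {J : H →L⋆[ℂ] H}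

private lemma sum_inner_bound {k : ℕ} (ζ : Fin k → H) (hζ : ∑ i, ‖ζ i‖ ^ 2 = 1)
    (y : H →L[ℂ] H) : ‖∑ i, ⟪ζ i, y (ζ i)⟫_ℂ‖ ≤ ‖y‖ := by
  refine (norm_sum_le _ _).trans ((Finset.sum_le_sum fun i _ => ?_).trans_eq
    (by rw [← Finset.mul_sum, hζ, mul_one] : ∑ i, ‖y‖ * ‖ζ i‖ ^ 2 = ‖y‖))
  refine (norm_inner_le_norm _ _).trans ((mul_le_mul_of_nonneg_left (y.le_opNorm _)
    (norm_nonneg _)).trans_eq (by ring))

/-- A mixture with a faithful vector functional is the state of a cyclic separating vector. -/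
theorem exists_vector (hJ : IsConj J) (h1 : ∀ a ∈ M, conjBy J a ∈ M.commutant)
    (h2 : ∀ b ∈ M.commutant, conjBy J b ∈ M)
    (hiso : ∀ n, 1 ≤ n → ∃ V : Fin n → H →L[ℂ] H, (∀ i, V i ∈ M) ∧ (∀ i, star (V i) * V i = 1) ∧
      (∀ i j, i ≠ j → star (V i) * V j = 0) ∧ ∑ i, V i * star (V i) = 1)
    (hequiv : ∀ p ∈ M, IsStarProjection p → p ≠ 0 → ∃ w ∈ M, star w * w = 1 ∧ w * star w = p)
    {k : ℕ} (ζ : Fin (k + 1) → H) (hsum : ∑ i, ‖ζ i‖ ^ 2 = 1)
    (hsep : ∀ x ∈ M, x (ζ 0) = 0 → x = 0) :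
    ∃ X : H, ‖X‖ = 1 ∧ Dense {v : H | ∃ x ∈ M, x X = v} ∧ (∀ x ∈ M, x X = 0 → x = 0) ∧
      ∀ y ∈ M, ⟪X, y X⟫_ℂ = ∑ i, ⟪ζ i, y (ζ i)⟫_ℂ := by
  obtain ⟨V, hV, hVi, hVo, -⟩ := hiso (k + 1) (by omega)
  set t : Fin (k + 1) → H →L[ℂ] H := fun i => conjBy J (V i) with ht
  have htM : ∀ i, t i ∈ M.commutant := fun i => h1 _ (hV i)
  have hcomm : ∀ {y b : H →L[ℂ] H}, y ∈ M → b ∈ M.commutant → ∀ v, y (b v) = b (y v) := by
    intro y b hy hb v
    exact congrArg (fun T : H →L[ℂ] H => T v) (VonNeumannAlgebra.mem_commutant_iff.1 hb y hy)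
  have htt : ∀ i j (v : H), star (t i) (t j v) = if i = j then v else 0 := by
    intro i j v
    rw [ht]
    simp only
    rw [hJ.star_conjBy, ← mul_apply_eq_comp, ← hJ.conjBy_mul]
    split_ifs with h
    · subst h; rw [hVi, hJ.conjBy_one]; rfl
    · simp [hVo i j h, conjBy_apply]
  set X₁ : H := ∑ i, t i (ζ i) with hX₁
  have hst : ∀ y ∈ M, ⟪X₁, y X₁⟫_ℂ = ∑ i, ⟪ζ i, y (ζ i)⟫_ℂ := by
    intro y hy
    rw [hX₁, map_sum, sum_inner]
    refine Finset.sum_congr rfl fun i _ => ?_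
    rw [inner_sum, Finset.sum_eq_single i]
    · rw [hcomm hy (htM i), ← ContinuousLinearMap.adjoint_inner_right,
        ← ContinuousLinearMap.star_eq_adjoint, htt, if_pos rfl]
    · intro j _ hji
      rw [hcomm hy (htM j), ← ContinuousLinearMap.adjoint_inner_right,
        ← ContinuousLinearMap.star_eq_adjoint, htt, if_neg (fun h => hji h.symm), inner_zero_right]
    · simp
  have hsep₁ : ∀ x ∈ M, x X₁ = 0 → x = 0 := by
    intro x hx h0
    refine hsep x hx ?_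
    have h3 := congrArg (⇑(star (t 0))) h0
    rw [map_zero, hX₁, map_sum, map_sum] at h3
    rw [Finset.sum_eq_single 0 (fun j _ hj => by
      rw [hcomm hx (htM j), htt, if_neg (fun h => hj h.symm)]) (by simp)] at h3
    rwa [hcomm hx (htM 0), htt, if_pos rfl] at h3
  have hone : (1 : H →L[ℂ] H) ≠ 0 := by
    intro h0
    have hz : ∀ i, ζ i = 0 := fun i => by
      simpa using congrArg (fun T : H →L[ℂ] H => T (ζ i)) h0
    simp [hz] at hsum
  -- cyclicity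
  let N₀ : Submodule ℂ H :=
    { carrier := (fun a : H →L[ℂ] H => a X₁) '' (M : Set (H →L[ℂ] H))
      add_mem' := by
        rintro _ _ ⟨a, ha, rfl⟩ ⟨b, hb, rfl⟩
        exact ⟨a + b, AddMemClass.add_mem ha hb, rfl⟩
      zero_mem' := ⟨0, ZeroMemClass.zero_mem M, rfl⟩
      smul_mem' := by
        rintro c _ ⟨a, ha, rfl⟩
        exact ⟨c • a, M.toStarSubalgebra.smul_mem ha c, rfl⟩ }
  have : CompleteSpace N₀.topologicalClosure := N₀.isClosed_topologicalClosure.completeSpace_coe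
  set N := N₀.topologicalClosure
  set p := N.starProjection with hp
  have hpc : p ∈ M.commutant := by
    rw [VonNeumannAlgebra.IsStarProjection.mem_iff isStarProjection_starProjection,
      VonNeumannAlgebra.commutant_commutant]
    intro y hy x hx
    rw [Submodule.mem_comap, show LinearMap.range p.toLinearMap = N from
      Submodule.range_starProjection N] at *
    refine map_mem_closure (f := y) y.continuous hx ?_
    rintro _ ⟨a, ha, rfl⟩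
    exact ⟨y * a, mul_mem hy ha, rfl⟩
  have hX₁N : X₁ ∈ N := N₀.le_topologicalClosure ⟨1, one_mem M, rfl⟩
  have hpX : p X₁ = X₁ := Submodule.starProjection_eq_self_iff.2 hX₁N
  have hp0 : p ≠ 0 := by
    intro h0
    refine hone (hsep₁ 1 (one_mem M) ?_)
    rw [one_apply_eq_self, ← hpX, h0, zero_apply]
  have hJp : IsStarProjection (conjBy J p) :=
    ⟨by rw [IsIdempotentElem, ← hJ.conjBy_mul, isStarProjection_starProjection.isIdempotentElem],
      by rw [IsSelfAdjoint, hJ.star_conjBy, isStarProjection_starProjection.isSelfAdjoint.star_eq]⟩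
  obtain ⟨w, hw, hw1, hw2⟩ := hequiv _ (h2 p hpc) hJp (fun h0 => hp0 (by
    rw [← hJ.conjBy_conjBy p, h0]; ext v; simp [conjBy_apply]))
  set w' := conjBy J w with hw'
  have hw'c : w' ∈ M.commutant := h1 w hw
  have hw'1 : ∀ v, star w' (w' v) = v := fun v => by
    rw [← mul_apply_eq_comp, hw', hJ.star_conjBy, ← hJ.conjBy_mul, hw1, hJ.conjBy_one]; rfl
  have hw'2 : ∀ v, w' (star w' v) = p v := fun v => by
    rw [← mul_apply_eq_comp, hw', hJ.star_conjBy, ← hJ.conjBy_mul, hw2, hJ.conjBy_conjBy]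
  set X := star w' X₁ with hX
  have hwX : w' X = X₁ := by rw [hX, hw'2, hpX]
  have hst' : ∀ y ∈ M, ⟪X, y X⟫_ℂ = ⟪X₁, y X₁⟫_ℂ := by
    intro y hy
    rw [← hwX, hcomm hy hw'c, ← ContinuousLinearMap.adjoint_inner_right w',
      ← ContinuousLinearMap.star_eq_adjoint, hw'1]
  refine ⟨X, ?_, ?_, fun x hx h0 => hsep₁ x hx (by rw [← hwX, hcomm hx hw'c, h0, map_zero]),
    fun y hy => (hst' y hy).trans (hst y hy)⟩
  · have h3 := (hst' 1 (one_mem M)).trans (hst 1 (one_mem M))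
    simp only [one_apply_eq_self, inner_self_eq_norm_sq_to_K] at h3
    have h4 : ‖X‖ ^ 2 = 1 := by
      have := congrArg Complex.re h3
      rw [Complex.re_sum] at this
      simp only [← Complex.ofReal_pow, RCLike.ofReal_eq_complex_ofReal, Complex.ofReal_re] at this
      rw [this, hsum]
    exact (pow_eq_one_iff_of_nonneg (norm_nonneg _) two_ne_zero).1 h4
  · intro v
    have hv : w' v ∈ N := by
      refine Submodule.starProjection_eq_self_iff.1 ?_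
      rw [← hp, ← hw'2, hw'1]
    have h3 := map_mem_closure (f := ⇑(star w')) (star w').continuous hv
      (t := {v : H | ∃ x ∈ M, x X = v}) ?_
    · rwa [hw'1] at h3
    rintro _ ⟨a, ha, rfl⟩
    exact ⟨a, ha, by rw [hX, hcomm ha (star_mem hw'c)]⟩

/-- Homogeneity for vectors gives it for finite sums of vector functionals. -/
theorem homog_of_vectors (hJ : IsConj J) (h1 : ∀ a ∈ M, conjBy J a ∈ M.commutant)
    (h2 : ∀ b ∈ M.commutant, conjBy J b ∈ M)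
    (hiso : ∀ n, 1 ≤ n → ∃ V : Fin n → H →L[ℂ] H, (∀ i, V i ∈ M) ∧ (∀ i, star (V i) * V i = 1) ∧
      (∀ i j, i ≠ j → star (V i) * V j = 0) ∧ ∑ i, V i * star (V i) = 1)
    (hequiv : ∀ p ∈ M, IsStarProjection p → p ≠ 0 → ∃ w ∈ M, star w * w = 1 ∧ w * star w = p)
    {Ω : H} (hΩ1 : ‖Ω‖ = 1) (hΩ : ∀ x ∈ M, x Ω = 0 → x = 0)
    (hvec : ∀ ξ η : H, ‖ξ‖ = 1 → ‖η‖ = 1 → Dense {v : H | ∃ x ∈ M, x ξ = v} →
      (∀ x ∈ M, x ξ = 0 → x = 0) → Dense {v : H | ∃ x ∈ M, x η = v} →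
      (∀ x ∈ M, x η = 0 → x = 0) → ∀ ε > 0, ∃ u ∈ M, star u * u = 1 ∧ u * star u = 1 ∧
        ∀ y ∈ M, ‖⟪ξ, (star u * y * u) ξ⟫_ℂ - ⟪η, y η⟫_ℂ‖ ≤ ε * ‖y‖)
    (m n : ℕ) (ξ : Fin m → H) (η : Fin n → H)
    (hξ : (∑ i, ‖ξ i‖ ^ 2) = 1) (hη : (∑ j, ‖η j‖ ^ 2) = 1) (ε : ℝ) (hε : 0 < ε) :
    ∃ u ∈ M, star u * u = 1 ∧ u * star u = 1 ∧ ∀ y ∈ M,
      ‖(∑ i, ⟪ξ i, (star u * y * u) (ξ i)⟫_ℂ) - ∑ j, ⟪η j, y (η j)⟫_ℂ‖ ≤ ε * ‖y‖ := by
  set d := min (1 / 2) (ε / 16) with hd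
  have hd0 : 0 < d := lt_min (by norm_num) (by linarith)
  have hd1 : d ≤ 1 / 2 := min_le_left _ _
  have mix : ∀ (k : ℕ) (ρ : Fin k → H), (∑ i, ‖ρ i‖ ^ 2) = 1 →
      ∃ X : H, ‖X‖ = 1 ∧ Dense {v : H | ∃ x ∈ M, x X = v} ∧ (∀ x ∈ M, x X = 0 → x = 0) ∧
        ∀ y ∈ M, ‖⟪X, y X⟫_ℂ - ∑ i, ⟪ρ i, y (ρ i)⟫_ℂ‖ ≤ 2 * d * ‖y‖ := by
    intro k ρ hρ
    set a : ℂ := ((√d : ℝ) : ℂ)
    set b : ℂ := ((√(1 - d) : ℝ) : ℂ)
    have ha : ∀ v : H, ‖a • v‖ ^ 2 = d * ‖v‖ ^ 2 := fun v => by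
      rw [norm_smul, mul_pow, Complex.norm_real, Real.norm_eq_abs, sq_abs, Real.sq_sqrt hd0.le]
    have hb : ∀ v : H, ‖b • v‖ ^ 2 = (1 - d) * ‖v‖ ^ 2 := fun v => by
      rw [norm_smul, mul_pow, Complex.norm_real, Real.norm_eq_abs, sq_abs,
        Real.sq_sqrt (by linarith)]
    obtain ⟨X, hX1, hXc, hXs, hXst⟩ := exists_vector hJ h1 h2 hiso hequiv
      (Fin.cons (a • Ω) (fun i => b • ρ i) : Fin (k + 1) → H)
      (by
        simp only [Fin.sum_univ_succ, Fin.cons_zero, Fin.cons_succ, ha, hb, hΩ1, ← Finset.mul_sum,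
          hρ]
        ring)
      (fun x hx h0 => hΩ x hx (by
        simp only [Fin.cons_zero, map_smul, smul_eq_zero] at h0
        exact h0.resolve_left (Complex.ofReal_ne_zero.2 (Real.sqrt_ne_zero'.2 hd0))))
    refine ⟨X, hX1, hXc, hXs, fun y hy => ?_⟩
    rw [hXst y hy]
    simp only [Fin.sum_univ_succ, Fin.cons_zero, Fin.cons_succ, map_smul, inner_smul_left,
      inner_smul_right, a, b, Complex.conj_ofReal, ← mul_assoc, ← Complex.ofReal_mul,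
      Real.mul_self_sqrt hd0.le, Real.mul_self_sqrt (show 0 ≤ 1 - d by linarith), ← Finset.mul_sum]
    set S := ∑ i, ⟪ρ i, y (ρ i)⟫_ℂ
    have e : (d : ℂ) * ⟪Ω, y Ω⟫_ℂ + ((1 - d : ℝ) : ℂ) * S - S = (d : ℂ) * (⟪Ω, y Ω⟫_ℂ - S) := by
      push_cast; ring
    rw [e, norm_mul, Complex.norm_real, Real.norm_of_nonneg hd0.le, mul_comm (2 : ℝ), mul_assoc]
    refine mul_le_mul_of_nonneg_left ((norm_sub_le _ _).trans ?_) hd0.le
    have b1 : ‖⟪Ω, y Ω⟫_ℂ‖ ≤ ‖y‖ := by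
      refine (norm_inner_le_norm _ _).trans ?_
      rw [hΩ1, one_mul]
      exact (y.le_opNorm _).trans_eq (by rw [hΩ1, mul_one])
    have b2 : ‖S‖ ≤ ‖y‖ := sum_inner_bound ρ hρ y
    linarith
  obtain ⟨X, hX1, hXc, hXs, hX⟩ := mix m ξ hξ
  obtain ⟨Y, hY1, hYc, hYs, hY⟩ := mix n η hη
  obtain ⟨u, hu, hu1, hu2, huv⟩ := hvec X Y hX1 hY1 hXc hXs hYc hYs (ε / 2) (half_pos hε)
  refine ⟨u, hu, hu1, hu2, fun y hy => ?_⟩
  have hy' : star u * y * u ∈ M := mul_mem (mul_mem (star_mem hu) hy) hu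
  have hun : ‖u‖ ≤ 1 := by
    refine u.opNorm_le_bound zero_le_one fun v => le_of_eq ?_
    have h : ‖u v‖ ^ 2 = ‖v‖ ^ 2 := by
      rw [← @inner_self_eq_norm_sq ℂ, ← @inner_self_eq_norm_sq ℂ,
        ← ContinuousLinearMap.adjoint_inner_right, ← ContinuousLinearMap.star_eq_adjoint,
        ← mul_apply_eq_comp, hu1, one_apply_eq_self]
    nlinarith [norm_nonneg (u v), norm_nonneg v]
  have hny : ‖star u * y * u‖ ≤ ‖y‖ := by
    refine (norm_mul_le _ _).trans ((mul_le_of_le_one_right (norm_nonneg _) hun).trans ?_)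
    refine (norm_mul_le _ _).trans (mul_le_of_le_one_left (norm_nonneg _) ?_)
    rwa [norm_star]
  have b1 := hX _ hy'
  rw [norm_sub_rev] at b1
  have b2 := huv y hy
  have b3 := hY y hy
  have h16 : d ≤ ε / 16 := min_le_right _ _
  have t1 := norm_sub_le_norm_sub_add_norm_sub (∑ i, ⟪ξ i, (star u * y * u) (ξ i)⟫_ℂ)
    ⟪X, (star u * y * u) X⟫_ℂ (∑ j, ⟪η j, y (η j)⟫_ℂ)
  have t2 := norm_sub_le_norm_sub_add_norm_sub ⟪X, (star u * y * u) X⟫_ℂ ⟪Y, y Y⟫_ℂ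
    (∑ j, ⟪η j, y (η j)⟫_ℂ)
  nlinarith [norm_nonneg y, mul_le_mul_of_nonneg_left hny (show 0 ≤ 2 * d by linarith)]

end P132.Homogeneity
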