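import Vale.Agent.P132.Homog.OffDiag
import Vale.Agent.P132.Homog.Cut
import Vale.Agent.P132.Homog.Exhaust
import Vale.Agent.P132.Homog.Polar
import Vale.Agent.P132.Homog.Reduce
import Vale.Agent.P132.Homog.TypeIII.Main

/-!
# P132: type III₁ gives homogeneity of the state space and equivalence of projections
-/

noncomputable section

namespace P132

open scoped InnerProductSpace
open Homogeneity

variable {H : Type*} [NormedAddCommGroup H] [InnerProductSpace ℂ H] [CompleteSpace H]

/-- Homogeneity of the cyclic separating vector states of a factor of type III₁. -/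
theorem Std.vec_homog_of_typeIII1 (S : Std H) (hM : IsTypeIII1 S.M) {ξ η : H} (hξ1 : ‖ξ‖ = 1)
    (hη1 : ‖η‖ = 1) (hξc : Dense {v : H | ∃ x ∈ S.M, x ξ = v})
    (hξs : ∀ x ∈ S.M, x ξ = 0 → x = 0) (hηc : Dense {v : H | ∃ x ∈ S.M, x η = v})
    (hηs : ∀ x ∈ S.M, x η = 0 → x = 0) {ε : ℝ} (hε : 0 < ε) :
    ∃ u ∈ S.M, star u * u = 1 ∧ u * star u = 1 ∧ ∀ y ∈ S.M,
      ‖⟪ξ, (star u * y * u) ξ⟫_ℂ - ⟪η, y η⟫_ℂ‖ ≤ ε * ‖y‖ := by
  have hΩ : S.Ω ≠ 0 := fun h => by simpa [h] using S.norm_Ω
  have hT := Homog.TypeIII.typeIIIOut hM hΩ S.separating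
  refine vec_homog S S.modular S.modular.entireDense S.modular.commTh
    (fun S' => ⟨S'.modular, S'.modular.entireDense, S'.modular.commTh⟩) hT
    (fun P hP => ?_) hξ1 hη1 hξc hξs hηc hηs hε
  have hsupp : ∀ h ∈ P, SepCorner S.M 1 h → ∀ r ∈ S.M, IsStarProjection r →
      SepCorner S.M r (comp2 S.modular.Jc r h) := fun h hh hs r _ hr =>
    hP.sepCorner_comp2 hasModular hh hs hr
  have hC := offDiagOut hM hP (Homog.TypeIII.equiv_one hM hΩ S.separating)
  exact homogOut hP hsupp (pieceOut hP hsupp hC hT) hT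

/-- **Type III₁ gives `Homog`.** -/
theorem homog_of_typeIII1 (S : Std H) (hM : IsTypeIII1 S.M) : Homog S := by
  have hΩ : S.Ω ≠ 0 := fun h => by simpa [h] using S.norm_Ω
  exact
    { factor := hM.1
      homog := homog_of_vectors S.modular.isConj (fun _ ha => S.modular.conj_mem_commutant ha)
        S.modular.commTh (fun _ hn => Homog.TypeIII.exists_cuntz hM hΩ S.separating hn)
        (Homog.TypeIII.equiv_one hM hΩ S.separating) S.norm_Ω S.separating
        (fun _ _ h1 h2 hc hs hc' hs' _ hε => S.vec_homog_of_typeIII1 hM h1 h2 hc hs hc' hs' hε)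
      equiv_one := Homog.TypeIII.equiv_one hM hΩ S.separating
      nontrivial := Homog.TypeIII.nontrivial hM hΩ S.separating }

end P132
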