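import Vale.Agent.P132.Homog.Sandwich

/-!
# Greedy exhaustion

From pieces below every pair of nonzero projections to a unitary `u` with `u h u*` close to `k`.
-/

set_option linter.unusedSectionVars false

namespace P132.Homogeneity

open Filter Topology
open scoped InnerProductSpace

variable {H : Type*} [NormedAddCommGroup H] [InnerProductSpace ℂ H] [CompleteSpace H]
variable {M : VonNeumannAlgebra H} {J : H →L⋆[ℂ] H} {h k : H}

/-- The mass `|p h p|^2` of a piece, `p = v* v`. -/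
noncomputable def mass (J : H →L⋆[ℂ] H) (h : H) (v : H →L[ℂ] H) : ℝ :=
  ‖sand J (star v * v) (star v * v) h‖ ^ 2

/-- A partial isometry `p → q` below `(r, r')`, `p ≤ r`, `q ≤ r'`, transporting `p h p` almost to
`q k q` and almost commuting with the two vectors. -/
structure IsPiece (M : VonNeumannAlgebra H) (J : H →L⋆[ℂ] H) (h k : H) (η : ℝ)
    (r r' v : H →L[ℂ] H) : Prop where
  mem : v ∈ M
  proj : IsStarProjection (star v * v)
  right : v * r = v
  left : r' * v = v
  err : ‖sand J v v h - sand J (v * star v) (v * star v) k‖ ^ 2 < η * mass J h v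
  offh : ‖sand J (star v * v) (r - star v * v) h‖ ^ 2 < η * mass J h v
  offk : ‖sand J (v * star v) (r' - v * star v) k‖ ^ 2 < η * mass J h v

/-- A piece which does not use up either projection. -/
def IsProper (M : VonNeumannAlgebra H) (J : H →L⋆[ℂ] H) (h k : H) (η : ℝ)
    (r r' v : H →L[ℂ] H) : Prop :=
  IsPiece M J h k η r r' v ∧ star v * v ≠ r ∧ v * star v ≠ r'

section Algebra

variable {v : H →L[ℂ] H}

lemma mul_init (hp : IsStarProjection (star v * v)) : v * (star v * v) = v := by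
  have h2 : star v * v * (star v * v) = star v * v := hp.isIdempotentElem
  have hs : star (v - v * (star v * v)) * (v - v * (star v * v)) = 0 := by
    rw [star_sub, star_mul, hp.isSelfAdjoint.star_eq, sub_mul, mul_sub, mul_sub]
    simp only [← mul_assoc] at h2 ⊢
    simp [h2]
  exact (sub_eq_zero.1 ((CStarRing.star_mul_self_eq_zero_iff _).1 hs)).symm

lemma isStarProjection_fin (hp : IsStarProjection (star v * v)) :
    IsStarProjection (v * star v) := by
  refine ⟨?_, by simp [IsSelfAdjoint, star_mul]⟩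
  change v * star v * (v * star v) = v * star v
  rw [← mul_assoc, mul_assoc v (star v) v, mul_init hp]

lemma norm_v_le (hp : IsStarProjection (star v * v)) : ‖v‖ ≤ 1 :=
  norm_le_one_of_star_mul_self hp

lemma mass_le (hJ : SandConj M J) (hp : IsStarProjection (star v * v)) (h : H) : mass J h v ≤ ‖h‖ ^ 2 :=
  pow_le_pow_left₀ (norm_nonneg _) (norm_sand_le hJ (hp.norm_le _) (hp.norm_le _) h) 2

end Algebra

namespace IsPiece

variable {η : ℝ} {r r' v : H →L[ℂ] H}

lemma mass_pos (hv : IsPiece M J h k η r r' v) : 0 < mass J h v := by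
  rcases (sq_nonneg ‖sand J (star v * v) (star v * v) h‖).lt_or_eq with h' | h'
  · exact h'
  · have h0 := hv.err
    rw [show mass J h v = 0 from h'.symm, mul_zero] at h0
    exact absurd h0 (not_lt.2 (sq_nonneg _))

lemma p_mem (hv : IsPiece M J h k η r r' v) : star v * v ∈ M :=
  mul_mem (star_mem hv.mem) hv.mem

lemma q_mem (hv : IsPiece M J h k η r r' v) : v * star v ∈ M :=
  mul_mem hv.mem (star_mem hv.mem)

lemma p_mul (hv : IsPiece M J h k η r r' v) : star v * v * r = star v * v := by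
  rw [mul_assoc, hv.right]

lemma mul_q (hv : IsPiece M J h k η r r' v) : r' * (v * star v) = v * star v := by
  rw [← mul_assoc, hv.left]

lemma q_mul (hv : IsPiece M J h k η r r' v) (hr' : IsStarProjection r') :
    v * star v * r' = v * star v := by
  simpa [star_mul, hr'.isSelfAdjoint.star_eq, mul_assoc] using congr(star $(hv.mul_q))

end IsPiece

/-- Strict inequalities survive strongly convergent perturbations. -/
lemma eventually_bounds {η : ℝ} {r r' v : H →L[ℂ] H} (hv : IsPiece M J h k η r r' v)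
    {α : Type*} {l : Filter α} {V R R' : α → (H →L[ℂ] H)}
    (hVp : ∀ n, IsStarProjection (star (V n) * V n))
    (hV : ∀ x, Tendsto (fun n => V n x) l (𝓝 (v x)))
    (hP : ∀ x, Tendsto (fun n => (star (V n) * V n) x) l (𝓝 ((star v * v) x)))
    (hQ : ∀ x, Tendsto (fun n => (V n * star (V n)) x) l (𝓝 ((v * star v) x)))
    (hR : ∀ x, Tendsto (fun n => R n x) l (𝓝 (r x)))
    (hR' : ∀ x, Tendsto (fun n => R' n x) l (𝓝 (r' x))) :
    ∀ᶠ n in l, ‖sand J (V n) (V n) h - sand J (V n * star (V n)) (V n * star (V n)) k‖ ^ 2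
        < η * mass J h (V n) ∧
      ‖sand J (star (V n) * V n) (R n - star (V n) * V n) h‖ ^ 2 < η * mass J h (V n) ∧
      ‖sand J (V n * star (V n)) (R' n - V n * star (V n)) k‖ ^ 2 < η * mass J h (V n) := by
  have hPn : ∀ n, ‖star (V n) * V n‖ ≤ 1 := fun n => (hVp n).norm_le _
  have hQn : ∀ n, ‖V n * star (V n)‖ ≤ 1 := fun n => (isStarProjection_fin (hVp n)).norm_le _
  have hm : Tendsto (fun n => η * mass J h (V n)) l (𝓝 (η * mass J h v)) :=
    (tendsto_norm_sand_sq hPn hP hP h).const_mul η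
  refine Filter.Eventually.and ?_ (Filter.Eventually.and ?_ ?_)
  · exact ((((tendsto_sand (fun n => norm_v_le (hVp n)) hV hV h).sub
      (tendsto_sand hQn hQ hQ k)).norm).pow 2).eventually_lt hm hv.err
  · refine (tendsto_norm_sand_sq hPn hP (fun x => ?_) h).eventually_lt hm hv.offh
    simpa using (hR x).sub (hP x)
  · refine (tendsto_norm_sand_sq hQn hQ (fun x => ?_) k).eventually_lt hm hv.offk
    simpa using (hR' x).sub (hQ x)

/-- What the exhaustion needs from the algebra. -/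
structure Input (M : VonNeumannAlgebra H) (J : H →L⋆[ℂ] H) (h k : H) : Prop where
  piece : ∀ η > (0 : ℝ), ∀ r ∈ M, ∀ r' ∈ M, IsStarProjection r → IsStarProjection r' → r ≠ 0 →
    r' ≠ 0 → ∃ v, IsPiece M J h k η r r' v
  small : ∀ p ∈ M, IsStarProjection p → p ≠ 0 → ∃ e : ℕ → (H →L[ℂ] H), (∀ n, e n ∈ M) ∧
    (∀ n, IsStarProjection (e n)) ∧ (∀ n, e n ≠ 0) ∧ (∀ n, e n * p = e n) ∧
    ∀ x, Tendsto (fun n => e n x) atTop (𝓝 0)
  equiv : ∀ p ∈ M, ∀ q ∈ M, IsStarProjection p → IsStarProjection q → p ≠ 0 → q ≠ 0 →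
    ∃ w ∈ M, star w * w = p ∧ w * star w = q

lemma exists_proper (hI : Input M J h k) {η : ℝ} (hη : 0 < η) {r r' : H →L[ℂ] H} (hrM : r ∈ M)
    (hr'M : r' ∈ M) (hr : IsStarProjection r) (hr' : IsStarProjection r') (h0 : r ≠ 0)
    (h0' : r' ≠ 0) : ∃ v, IsProper M J h k η r r' v := by
  obtain ⟨v, hv⟩ := hI.piece η hη r hrM r' hr'M hr hr' h0 h0'
  have hp0 : star v * v ≠ 0 := fun h' => by
    have := hv.mass_pos
    simp [mass, h', sand] at this
  obtain ⟨e, heM, hep, he0, hee, hlim⟩ := hI.small _ hv.p_mem hv.proj hp0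
  set p := star v * v with hp
  have hpe : ∀ n, p * e n = e n := fun n => by
    have h' := congr(star $(hee n))
    rwa [star_mul, (hep n).isSelfAdjoint.star_eq,
      show star p = p from hv.proj.isSelfAdjoint.star_eq] at h'
  have hP : ∀ n, IsStarProjection (p - e n) := fun n => (hep n).sub_of_mul_eq_left hv.proj (hee n)
  have hinit : ∀ n, star (v * (p - e n)) * (v * (p - e n)) = p - e n := fun n => by
    rw [star_mul, (hP n).isSelfAdjoint.star_eq, mul_assoc, ← mul_assoc (star v), ← hp, mul_sub p,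
      hpe n, hv.proj.isIdempotentElem.eq, (hP n).isIdempotentElem.eq]
  have hpeT : ∀ x, Tendsto (fun n => (p - e n) x) atTop (𝓝 (p x)) := fun x => by
    simpa using (tendsto_const_nhds (x := p x)).sub (hlim x)
  have hvp : v * p = v := mul_init hv.proj
  have hfin : ∀ n, v * (p - e n) * star (v * (p - e n)) = v * (p - e n) * star v := fun n => by
    rw [star_mul, (hP n).isSelfAdjoint.star_eq, mul_assoc, ← mul_assoc (p - e n),
      (hP n).isIdempotentElem.eq, ← mul_assoc]
  obtain ⟨n, h1, h2, h3⟩ := (eventually_bounds hv (V := fun n => v * (p - e n)) (R := fun _ => r)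
    (R' := fun _ => r') (fun n => by rw [hinit n]; exact hP n)
    (fun x => by
      have h1 := (v.continuous.tendsto _).comp (hpeT x)
      have h2 : v (p x) = v x := congr($hvp x)
      rwa [h2] at h1)
    (fun x => by simp only [hinit]; exact hpeT x)
    (fun x => by
      simp only [hfin]
      have h1 := (v.continuous.tendsto _).comp (hpeT (star v x))
      have h2 : v (p (star v x)) = v (star v x) := congr($hvp (star v x))
      rwa [h2] at h1)
    (fun _ => tendsto_const_nhds) (fun _ => tendsto_const_nhds)).exists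
  refine ⟨v * (p - e n), ⟨mul_mem hv.mem (sub_mem hv.p_mem (heM n)), by rw [hinit]; exact hP n,
    ?_, by rw [← mul_assoc, hv.left], h1, h2, h3⟩, ?_, ?_⟩
  · rw [mul_assoc, sub_mul, hv.p_mul, ← hee n, mul_assoc, hv.p_mul]
  · rw [hinit]
    intro heq
    apply he0 n
    have h4 : e n * (p - e n) = 0 := by rw [mul_sub, hee n, (hep n).isIdempotentElem.eq, sub_self]
    rw [heq, ← hee n, mul_assoc, hv.p_mul, hee n] at h4
    exact h4
  · rw [hfin]
    intro heq
    apply he0 n
    have h4 : star v * (v * (p - e n) * star v) * v = star v * r' * v := by rw [heq]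
    rw [mul_assoc (star v) r', hv.left, ← hp, ← mul_assoc, ← mul_assoc, ← hp, mul_assoc,
      ← hp, mul_sub, hpe n, hv.proj.isIdempotentElem.eq, sub_mul, hee n,
      hv.proj.isIdempotentElem.eq, sub_eq_self] at h4
    exact h4

lemma exists_limit_proj {R : ℕ → (H →L[ℂ] H)} (hM : ∀ n, R n ∈ M)
    (hR : ∀ n, IsStarProjection (R n)) (hdec : ∀ n m, n ≤ m → R m * R n = R m) :
    ∃ r ∈ M, IsStarProjection r ∧ (∀ x, Tendsto (fun n => R n x) atTop (𝓝 (r x))) ∧
      ∀ n, r * R n = r := by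
  let U : ℕ → Submodule ℂ H := fun n => (R n).ker
  have hU : Monotone U := by
    intro n m hnm x hx
    simp only [U, LinearMap.mem_ker, ContinuousLinearMap.coe_coe] at hx ⊢
    rw [← hdec n m hnm]
    simp [mul_apply_eq_comp, hx]
  have : ∀ n, (U n).HasOrthogonalProjection := fun n =>
    have : CompleteSpace (U n) := (R n).isClosed_ker.completeSpace_coe
    inferInstance
  have : CompleteSpace (⨆ n, U n).topologicalClosure :=
    (⨆ n, U n).isClosed_topologicalClosure.completeSpace_coe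
  have hker : ∀ n x, (U n).starProjection x = x - R n x := by
    intro n x
    refine (Submodule.eq_starProjection_of_mem_of_inner_eq_zero ?_ fun w hw => ?_)
    · simp only [U, LinearMap.mem_ker, ContinuousLinearMap.coe_coe, map_sub]
      exact sub_eq_zero.2 (congr($((hR n).isIdempotentElem.eq) x)).symm
    · simp only [U, LinearMap.mem_ker, ContinuousLinearMap.coe_coe] at hw
      rw [sub_sub_cancel]
      have : ⟪R n x, w⟫_ℂ = ⟪x, R n w⟫_ℂ := (hR n).isSelfAdjoint.isSymmetric x w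
      rw [this, hw, inner_zero_right]
  set r : H →L[ℂ] H := 1 - (⨆ n, U n).topologicalClosure.starProjection with hr
  have hlim : ∀ x, Tendsto (fun n => R n x) atTop (𝓝 (r x)) := by
    intro x
    have := (tendsto_const_nhds (x := x)).sub (Submodule.starProjection_tendsto_closure_iSup U hU x)
    simpa [hker, hr] using this
  refine ⟨r, ?_, (isStarProjection_starProjection).one_sub, hlim, fun n => ?_⟩
  · rw [← M.commutant_commutant, VonNeumannAlgebra.mem_commutant_iff]
    intro g hg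
    ext x
    have h1 : Tendsto (fun n => g (R n x)) atTop (𝓝 (g (r x))) :=
      (g.continuous.tendsto _).comp (hlim x)
    have h2 : ∀ n, g (R n x) = R n (g x) := fun n =>
      congr($((VonNeumannAlgebra.mem_commutant_iff.1 hg (R n) (hM n)).symm) x)
    simp only [h2] at h1
    exact tendsto_nhds_unique h1 (hlim (g x))
  · ext x
    refine tendsto_nhds_unique ((hlim (R n x))) ?_
    refine (hlim x).congr' ?_
    filter_upwards [eventually_ge_atTop n] with m hm
    exact congr($(hdec n m hm) x).symm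

/-- A state of the exhaustion. -/
abbrev Remainder (M : VonNeumannAlgebra H) :=
  {s : (H →L[ℂ] H) × (H →L[ℂ] H) // s.1 ∈ M ∧ s.2 ∈ M ∧ IsStarProjection s.1 ∧
    IsStarProjection s.2 ∧ s.1 ≠ 0 ∧ s.2 ≠ 0}

/-- One greedy step exists. -/
lemma exists_greedy (hJ : SandConj M J) (hI : Input M J h k) {η : ℝ} (hη : 0 < η) (s : Remainder M) :
    ∃ v, IsProper M J h k η s.1.1 s.1.2 v ∧
      ∀ v', IsProper M J h k η s.1.1 s.1.2 v' → mass J h v' ≤ 2 * mass J h v := by
  obtain ⟨⟨r, r'⟩, hrM, hr'M, hr, hr', h0, h0'⟩ := s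
  set A : Set ℝ := mass J h '' {v | IsProper M J h k η r r' v} with hA
  have hbdd : BddAbove A := ⟨‖h‖ ^ 2, by
    rintro _ ⟨v, hv, rfl⟩
    exact mass_le hJ hv.1.proj h⟩
  obtain ⟨v₀, hv₀⟩ := exists_proper hI hη hrM hr'M hr hr' h0 h0'
  have hpos : 0 < sSup A := hv₀.1.mass_pos.trans_le (le_csSup hbdd ⟨v₀, hv₀, rfl⟩)
  obtain ⟨_, ⟨v, hv, rfl⟩, hlt⟩ := exists_lt_of_lt_csSup
    (s := A) ⟨_, v₀, hv₀, rfl⟩ (half_lt_self hpos)
  exact ⟨v, hv, fun v' hv' => (le_csSup hbdd ⟨v', hv', rfl⟩).trans (by linarith)⟩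

section Step

variable {δ : ℝ} {r r' v : H →L[ℂ] H}

lemma step_err (hJ : SandConj M J) (hh : J h = h) (hk : J k = k) (hr'M : r' ∈ M)
    (hr : IsStarProjection r) (hr' : IsStarProjection r') (hv : IsPiece M J h k (δ ^ 2) r r' v)
    {w : H →L[ℂ] H} (hwM : w ∈ M) (hw : star w * w = r - star v * v)
    (hw' : w * star w = r' - v * star v) :
    star (v + w) * (v + w) = r ∧ (v + w) * star (v + w) = r' ∧
    ‖sand J (v + w) (v + w) h - sand J r' r' k‖ ^ 2
      ≤ ‖sand J w w h - sand J (r' - v * star v) (r' - v * star v) k‖ ^ 2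
        + 9 * δ ^ 2 * mass J h v := by
  have hP1 : IsStarProjection (r - star v * v) := hv.proj.sub_of_mul_eq_left hr hv.p_mul
  have hQ : IsStarProjection (v * star v) := isStarProjection_fin hv.proj
  have hwP : IsStarProjection (star w * w) := hw ▸ hP1
  have hwinit : w * (r - star v * v) = w := hw ▸ mul_init hwP
  have hwfin : (r' - v * star v) * w = w := by rw [← hw', mul_assoc]; exact mul_init hwP
  have hvp : v * (star v * v) = v := mul_init hv.proj
  have hqv : v * star v * v = v := by rw [mul_assoc, hvp]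
  have hqr : v * star v * (r' - v * star v) = 0 := by
    rw [mul_sub, hv.q_mul hr', hQ.isIdempotentElem.eq, sub_self]
  have hqw : v * star v * w = 0 := by
    rw [← hwfin, ← mul_assoc, hqr, zero_mul]
  have hr'w : r' * w = w := by
    have h1 : r' * (r' - v * star v) = r' - v * star v := by
      rw [mul_sub, hr'.isIdempotentElem.eq, hv.mul_q]
    rw [← hwfin, ← mul_assoc, h1]
  have hqvw : v * star v * (v + w) = v := by rw [mul_add, hqv, hqw, add_zero]
  have hrvw : r' * (v + w) = v + w := by rw [mul_add, hv.left, hr'w]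
  have hr1vw : (r' - v * star v) * (v + w) = w := by
    rw [sub_mul, hrvw, hqvw, add_sub_cancel_left]
  have hr1r : (r' - v * star v) * r' = r' - v * star v := by
    rw [sub_mul, hr'.isIdempotentElem.eq, hv.q_mul hr']
  have hsvw : star v * w = 0 := by
    have h1 : star v * (v * star v) = star v := by
      simpa [star_mul, mul_assoc] using congr(star $hqv)
    rw [← h1, mul_assoc, hqw, mul_zero]
  have hvw : v * star w = 0 := by
    have h1 : star w = (r - star v * v) * star w := by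
      simpa [star_mul, hP1.isSelfAdjoint.star_eq] using congr(star $hwinit.symm)
    rw [h1, ← mul_assoc, mul_sub, hv.right, hvp, sub_self, zero_mul]
  have hsw : star w * v = 0 := by simpa [star_mul] using congr(star $hsvw)
  have hws : w * star v = 0 := by simpa [star_mul] using congr(star $hvw)
  refine ⟨?_, ?_, ?_⟩
  · rw [star_add, add_mul, mul_add, mul_add, hsvw, hsw, hw]
    abel
  · rw [star_add, add_mul, mul_add, mul_add, hvw, hws, hw']
    abel
  -- the four blocks
  set q := v * star v with hq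
  have hqM : q ∈ M := hv.q_mem
  have hr1M : r' - q ∈ M := sub_mem hr'M hqM
  have hvwM : v + w ∈ M := add_mem hv.mem hwM
  set X := sand J (v + w) (v + w) h - sand J r' r' k with hX
  have hblock : ∀ a ∈ M, ∀ b ∈ M, sand J a b X
      = sand J (a * (v + w)) (b * (v + w)) h - sand J (a * r') (b * r') k := by
    intro a _ b hb
    rw [hX, sand_sub, sand_sand hJ hb hvwM, sand_sand hJ hb hr'M]
  have hXX : sand J r' r' X = X := by
    rw [hblock r' hr'M r' hr'M, hrvw, hr'.isIdempotentElem.eq]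
  have hqr' : q * r' = q := hv.q_mul hr'
  have hsplit := norm_sand_sq_split (J := J) hJ hQ hqM hr'M hqr' X
  rw [hXX, hblock q hqM q hqM, hblock q hqM _ hr1M, hblock _ hr1M q hqM, hblock _ hr1M _ hr1M,
    hqvw, hr1vw, hqr', hr1r] at hsplit
  have hvn := norm_v_le hv.proj
  have hwn := norm_v_le hwP
  have hpr1 : star v * v * (r - star v * v) = 0 := by
    rw [mul_sub, hv.p_mul, hv.proj.isIdempotentElem.eq, sub_self]
  have hb1 : ‖sand J v w h‖ ≤ ‖sand J (star v * v) (r - star v * v) h‖ := by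
    have h1 := sand_sand (J := J) (a := v) (d := r - star v * v) hJ hwM hv.p_mem h
    rw [hvp, hwinit] at h1
    rw [← h1]
    exact norm_sand_le hJ hvn hwn _
  have hb1' : ‖sand J w v h‖ ≤ ‖sand J (star v * v) (r - star v * v) h‖ :=
    (norm_sand_comm hJ hwM hv.mem hh).trans_le hb1
  have hb2 : ‖sand J (r' - q) q k‖ = ‖sand J q (r' - q) k‖ := norm_sand_comm hJ hr1M hqM hk
  have hc : ∀ (a b : H) (A B : ℝ), ‖a‖ ≤ A → ‖b‖ ≤ B → A ^ 2 < δ ^ 2 * mass J h v →
      B ^ 2 < δ ^ 2 * mass J h v → ‖a - b‖ ^ 2 ≤ 4 * (δ ^ 2 * mass J h v) := by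
    intro a b A B ha hb hA hB
    have h1 : ‖a - b‖ ≤ A + B := (norm_sub_le a b).trans (add_le_add ha hb)
    nlinarith [norm_nonneg (a - b), sq_nonneg (A - B),
      mul_self_le_mul_self (norm_nonneg (a - b)) h1]
  have hM1 := hc (sand J v w h) (sand J q (r' - q) k) _ _ hb1 le_rfl hv.offh hv.offk
  have hM2 := hc (sand J w v h) (sand J (r' - q) q k) _ _ hb1' hb2.le hv.offh hv.offk
  have hM0 := hv.err
  rw [hsplit]
  linarith

lemma step_mass (hJ : SandConj M J) (hh : J h = h) (hk : J k = k) (hrM : r ∈ M) (hr'M : r' ∈ M)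
    (hr' : IsStarProjection r') (hδ : 0 < δ) (hδ1 : δ ≤ 1)
    (hv : IsPiece M J h k (δ ^ 2) r r' v) :
    mass J h v + ‖sand J (r - star v * v) (r - star v * v) h‖ ^ 2 ≤ ‖sand J r r h‖ ^ 2 ∧
    |(‖sand J r r h‖ ^ 2 - ‖sand J (r - star v * v) (r - star v * v) h‖ ^ 2)
      - (‖sand J r' r' k‖ ^ 2 - ‖sand J (r' - v * star v) (r' - v * star v) k‖ ^ 2)|
      ≤ 5 * δ * mass J h v := by
  have hQ : IsStarProjection (v * star v) := isStarProjection_fin hv.proj
  set p := star v * v with hp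
  set q := v * star v with hq
  have hpM : p ∈ M := hv.p_mem
  have hqM : q ∈ M := hv.q_mem
  have hs := norm_sand_sq_split (J := J) hJ hv.proj hpM hrM hv.p_mul h
  have hs' := norm_sand_sq_split (J := J) hJ hQ hqM hr'M (hv.q_mul hr') k
  rw [norm_sand_comm hJ (sub_mem hrM hpM) hpM hh] at hs
  rw [norm_sand_comm hJ (sub_mem hr'M hqM) hqM hk] at hs'
  have hx : ‖sand J v v h‖ = ‖sand J p p h‖ := by
    have hvn := norm_v_le hv.proj
    refine le_antisymm ?_ ?_
    · have h1 := sand_sand (J := J) (a := v) (d := p) hJ hv.mem hpM h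
      rw [show v * p = v from mul_init hv.proj] at h1
      rw [← h1]
      exact norm_sand_le hJ hvn hvn _
    · have hsn : ‖star v‖ ≤ 1 := by rw [norm_star]; exact hvn
      have h1 := sand_sand (J := J) (a := star v) (d := v) hJ (star_mem hv.mem) hv.mem h
      rw [← hp] at h1
      rw [← h1]
      exact norm_sand_le hJ hsn hsn _
  set x := ‖sand J p p h‖ with hx'
  set y := ‖sand J q q k‖
  have hm : mass J h v = x ^ 2 := rfl
  have hd : |x - y| ≤ δ * x := by
    rw [← hx]
    refine (abs_norm_sub_norm_le _ _).trans ?_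
    rw [hx]
    refine (pow_le_pow_iff_left₀ (norm_nonneg _) (by positivity) two_ne_zero).1 ?_
    rw [mul_pow, ← hm]
    exact hv.err.le
  have hA := hv.offh
  have hB := hv.offk
  rw [hm] at hA hB ⊢
  rw [hs, hs']
  obtain ⟨hd1, hd2⟩ := abs_le.1 hd
  have hy : (0 : ℝ) ≤ y := norm_nonneg _
  have hx0 : (0 : ℝ) ≤ x := norm_nonneg _
  have hsum : x + y ≤ 3 * x := by nlinarith
  have e1 : |x ^ 2 - y ^ 2| ≤ 3 * δ * x ^ 2 := by
    rw [sq_sub_sq, abs_mul, abs_of_nonneg (add_nonneg hx0 hy)]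
    calc (x + y) * |x - y| ≤ 3 * x * (δ * x) := mul_le_mul hsum hd (abs_nonneg _) (by linarith)
      _ = 3 * δ * x ^ 2 := by ring
  have hδ2 : δ ^ 2 * x ^ 2 ≤ δ * x ^ 2 :=
    mul_le_mul_of_nonneg_right (by nlinarith) (sq_nonneg _)
  set A := ‖sand J p (r - p) h‖ ^ 2
  set B := ‖sand J q (r' - q) k‖ ^ 2
  have hA0 : 0 ≤ A := sq_nonneg _
  have hB0 : 0 ≤ B := sq_nonneg _
  refine ⟨by linarith, abs_le.2 ?_⟩
  obtain ⟨e2, e3⟩ := abs_le.1 e1
  constructor <;> linarith

end Step

/-- A run of the exhaustion: `R`, `R'` are the remainders and `V` the chosen pieces. -/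
structure Run (M : VonNeumannAlgebra H) (J : H →L⋆[ℂ] H) (h k : H) (η : ℝ) where
  R : ℕ → (H →L[ℂ] H)
  R' : ℕ → (H →L[ℂ] H)
  V : ℕ → (H →L[ℂ] H)
  start : R 0 = 1
  start' : R' 0 = 1
  mem : ∀ n, R n ∈ M ∧ R' n ∈ M
  proj : ∀ n, IsStarProjection (R n) ∧ IsStarProjection (R' n)
  ne_zero : ∀ n, R n ≠ 0 ∧ R' n ≠ 0
  piece : ∀ n, IsPiece M J h k η (R n) (R' n) (V n)
  greedy : ∀ n v, IsProper M J h k η (R n) (R' n) v → mass J h v ≤ 2 * mass J h (V n)
  next : ∀ n, R (n + 1) = R n - star (V n) * V n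
  next' : ∀ n, R' (n + 1) = R' n - V n * star (V n)

lemma exists_run (hJ : SandConj M J) (hI : Input M J h k) {η : ℝ} (hη : 0 < η) (h1 : (1 : H →L[ℂ] H) ≠ 0) :
    Nonempty (Run M J h k η) := by
  choose f hf hmax using exists_greedy hJ hI hη
  have hstep : ∀ s : Remainder M,
      s.1.1 - star (f s) * f s ∈ M ∧ s.1.2 - f s * star (f s) ∈ M ∧
      IsStarProjection (s.1.1 - star (f s) * f s) ∧
      IsStarProjection (s.1.2 - f s * star (f s)) ∧
      s.1.1 - star (f s) * f s ≠ 0 ∧ s.1.2 - f s * star (f s) ≠ 0 := by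
    intro s
    obtain ⟨hrM, hr'M, hr, hr', -, -⟩ := s.2
    obtain ⟨hv, hne, hne'⟩ := hf s
    exact ⟨sub_mem hrM hv.p_mem, sub_mem hr'M hv.q_mem, hv.proj.sub_of_mul_eq_left hr hv.p_mul,
      (isStarProjection_fin hv.proj).sub_of_mul_eq_left hr' (hv.q_mul hr'),
      sub_ne_zero.2 (Ne.symm hne), sub_ne_zero.2 (Ne.symm hne')⟩
  let s : ℕ → Remainder M := fun n => Nat.rec
    ⟨(1, 1), one_mem M, one_mem M, .one _, .one _, h1, h1⟩
    (fun _ t => ⟨(t.1.1 - star (f t) * f t, t.1.2 - f t * star (f t)), hstep t⟩) n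
  exact ⟨{ R := fun n => (s n).1.1
           R' := fun n => (s n).1.2
           V := fun n => f (s n)
           start := rfl
           start' := rfl
           mem := fun n => ⟨(s n).2.1, (s n).2.2.1⟩
           proj := fun n => ⟨(s n).2.2.2.1, (s n).2.2.2.2.1⟩
           ne_zero := fun n => (s n).2.2.2.2.2
           piece := fun n => (hf (s n)).1
           greedy := fun n v hv => hmax (s n) v hv
           next := fun n => rfl
           next' := fun n => rfl }⟩

namespace Run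

variable {η δ : ℝ}

lemma dec (Z : Run M J h k η) : ∀ n m, n ≤ m → Z.R m * Z.R n = Z.R m := by
  intro n m hnm
  induction m, hnm using Nat.le_induction with
  | base => exact (Z.proj n).1.isIdempotentElem.eq
  | succ m hm ih =>
    rw [Z.next, sub_mul, ih, ← (Z.piece m).p_mul, mul_assoc, ih]

lemma dec' (Z : Run M J h k η) : ∀ n m, n ≤ m → Z.R' m * Z.R' n = Z.R' m := by
  intro n m hnm
  induction m, hnm using Nat.le_induction with
  | base => exact (Z.proj n).2.isIdempotentElem.eq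
  | succ m hm ih =>
    rw [Z.next', sub_mul, ih, ← (Z.piece m).q_mul (Z.proj m).2,
      mul_assoc _ (Z.R' m) (Z.R' n), ih]

lemma sum_mass (hJ : SandConj M J) (hh : J h = h) (hk : J k = k) (hδ : 0 < δ) (hδ1 : δ ≤ 1)
    (Z : Run M J h k (δ ^ 2)) (N : ℕ) :
    (∑ i ∈ Finset.range N, mass J h (Z.V i)) + ‖sand J (Z.R N) (Z.R N) h‖ ^ 2 ≤ ‖h‖ ^ 2 := by
  induction N with
  | zero => simp [Z.start, sand_one_one hJ]
  | succ N ih =>
    have h1 := (step_mass hJ hh hk (Z.mem N).1 (Z.mem N).2 (Z.proj N).2 hδ hδ1 (Z.piece N)).1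
    rw [← Z.next] at h1
    rw [Finset.sum_range_succ]
    linarith

lemma diff_mass (hJ : SandConj M J) (hh : J h = h) (hk : J k = k) (hδ : 0 < δ) (hδ1 : δ ≤ 1)
    (hn : ‖h‖ = ‖k‖) (Z : Run M J h k (δ ^ 2)) (N : ℕ) :
    |‖sand J (Z.R N) (Z.R N) h‖ ^ 2 - ‖sand J (Z.R' N) (Z.R' N) k‖ ^ 2|
      ≤ 5 * δ * ∑ i ∈ Finset.range N, mass J h (Z.V i) := by
  induction N with
  | zero => simp [Z.start, Z.start', sand_one_one hJ, hn]
  | succ N ih =>
    have hb := (step_mass hJ hh hk (Z.mem N).1 (Z.mem N).2 (Z.proj N).2 hδ hδ1 (Z.piece N)).2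
    rw [← Z.next, ← Z.next'] at hb
    rw [Finset.sum_range_succ, mul_add]
    obtain ⟨i1, i2⟩ := abs_le.1 ih
    obtain ⟨b1, b2⟩ := abs_le.1 hb
    exact abs_le.2 ⟨by linarith, by linarith⟩

lemma exists_unitary_of_tail (hJ : SandConj M J) (hh : J h = h) (hk : J k = k)
    (Z : Run M J h k (δ ^ 2)) : ∀ N, ∀ w ∈ M, star w * w = Z.R N → w * star w = Z.R' N →
      ∃ u ∈ M, star u * u = 1 ∧ u * star u = 1 ∧ ‖sand J u u h - k‖ ^ 2
        ≤ ‖sand J w w h - sand J (Z.R' N) (Z.R' N) k‖ ^ 2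
          + 9 * δ ^ 2 * ∑ i ∈ Finset.range N, mass J h (Z.V i) := by
  intro N
  induction N with
  | zero =>
    intro w hw h1 h2
    refine ⟨w, hw, h1.trans Z.start, h2.trans Z.start', ?_⟩
    simp [Z.start', sand_one_one hJ]
  | succ N ih =>
    intro w hw h1 h2
    rw [Z.next] at h1
    rw [Z.next'] at h2
    obtain ⟨e1, e2, e3⟩ := step_err hJ hh hk (Z.mem N).2 (Z.proj N).1 (Z.proj N).2
      (Z.piece N) hw h1 h2
    obtain ⟨u, hu, u1, u2, u3⟩ := ih _ (add_mem (Z.piece N).mem hw) e1 e2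
    refine ⟨u, hu, u1, u2, u3.trans ?_⟩
    rw [← Z.next'] at e3
    rw [Finset.sum_range_succ, mul_add]
    linarith

end Run


/-- If pieces exist below every pair of nonzero projections, the orbit of `h` is dense. -/
theorem exists_unitary_near (hJ : SandConj M J) (hh : J h = h) (hk : J k = k) (hh1 : ‖h‖ = 1)
    (hk1 : ‖k‖ = 1) (hI : Input M J h k) {ε : ℝ} (hε : 0 < ε) :
    ∃ u ∈ M, star u * u = 1 ∧ u * star u = 1 ∧ ‖sand J u u h - k‖ ≤ ε := by
  set δ := min 1 (ε ^ 2 / 33) with hδdef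
  have hδ : 0 < δ := lt_min one_pos (by positivity)
  have hδ1 : δ ≤ 1 := min_le_left _ _
  have h1 : (1 : H →L[ℂ] H) ≠ 0 := fun h0 => by
    have h2 : h = 0 := by simpa using congr($h0 h)
    simp [h2] at hh1
  obtain ⟨Z⟩ := exists_run hJ hI (η := δ ^ 2) (by positivity) h1
  have hm0 : ∀ i, 0 ≤ mass J h (Z.V i) := fun i => sq_nonneg _
  have hsum : ∀ N, ∑ i ∈ Finset.range N, mass J h (Z.V i) ≤ 1 := fun N => by
    have h2 := Z.sum_mass hJ hh hk hδ hδ1 N
    rw [hh1] at h2
    linarith [sq_nonneg ‖sand J (Z.R N) (Z.R N) h‖]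
  have hmass0 : Tendsto (fun n => mass J h (Z.V n)) atTop (𝓝 0) :=
    (summable_of_sum_range_le hm0 hsum).tendsto_atTop_zero
  obtain ⟨rI, hrM, hr, hlim, hle⟩ :=
    exists_limit_proj (fun n => (Z.mem n).1) (fun n => (Z.proj n).1) Z.dec
  obtain ⟨rI', hr'M, hr', hlim', hle'⟩ :=
    exists_limit_proj (fun n => (Z.mem n).2) (fun n => (Z.proj n).2) Z.dec'
  have hzero : rI = 0 ∨ rI' = 0 := by
    by_contra hne
    push Not at hne
    obtain ⟨v, hv⟩ := hI.piece (δ ^ 2) (by positivity) rI hrM rI' hr'M hr hr' hne.1 hne.2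
    have hright : ∀ n, v * Z.R n = v := fun n => by rw [← hv.right, mul_assoc, hle n]
    have hleft : ∀ n, Z.R' n * v = v := fun n => by
      have h2 : Z.R' n * rI' = rI' := by
        simpa [star_mul, hr'.isSelfAdjoint.star_eq, (Z.proj n).2.isSelfAdjoint.star_eq]
          using congr(star $(hle' n))
      rw [← hv.left, ← mul_assoc, h2]
    have hev := eventually_bounds hv (V := fun _ : ℕ => v) (R := Z.R) (R' := Z.R')
      (fun _ => hv.proj) (fun _ => tendsto_const_nhds) (fun _ => tendsto_const_nhds)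
      (fun _ => tendsto_const_nhds) hlim hlim'
    obtain ⟨n, ⟨b1, b2, b3⟩, hn⟩ := (hev.and
      (hmass0.eventually_lt_const (half_pos hv.mass_pos))).exists
    have hpR : star v * v * Z.R (n + 1) = star v * v := by rw [mul_assoc, hright]
    have hne1 : star v * v ≠ Z.R n := by
      intro heq
      have h2 : Z.R (n + 1) = Z.R n := by
        rw [← Z.dec n (n + 1) n.le_succ]
        have h3 := congr(star $hpR)
        rw [star_mul, hv.proj.isSelfAdjoint.star_eq, heq] at h3
        rwa [(Z.proj (n + 1)).1.isSelfAdjoint.star_eq] at h3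
      rw [Z.next, sub_eq_self] at h2
      have := (Z.piece n).mass_pos
      simp [mass, h2, sand] at this
    have hne2 : v * star v ≠ Z.R' n := by
      intro heq
      have hqR : Z.R' (n + 1) * (v * star v) = v * star v := by rw [← mul_assoc, hleft]
      have h2 : Z.R' (n + 1) = Z.R' n := by
        rw [← Z.dec' n (n + 1) n.le_succ]
        rwa [heq] at hqR
      rw [Z.next', sub_eq_self] at h2
      have h4 : Z.V n = 0 := (CStarRing.mul_star_self_eq_zero_iff _).1 h2
      have := (Z.piece n).mass_pos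
      simp [mass, h4, sand] at this
    have h5 := Z.greedy n v ⟨⟨hv.mem, hv.proj, hright n, hleft n, b1, b2, b3⟩, hne1, hne2⟩
    linarith
  have hA : Tendsto (fun n => ‖sand J (Z.R n) (Z.R n) h‖ ^ 2) atTop
      (𝓝 (‖sand J rI rI h‖ ^ 2)) :=
    tendsto_norm_sand_sq (fun n => (Z.proj n).1.norm_le _) hlim hlim h
  have hB : Tendsto (fun n => ‖sand J (Z.R' n) (Z.R' n) k‖ ^ 2) atTop
      (𝓝 (‖sand J rI' rI' k‖ ^ 2)) :=
    tendsto_norm_sand_sq (fun n => (Z.proj n).2.norm_le _) hlim' hlim' k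
  obtain ⟨N, hNA, hNB⟩ : ∃ N, ‖sand J (Z.R N) (Z.R N) h‖ ^ 2 ≤ 6 * δ ∧
      ‖sand J (Z.R' N) (Z.R' N) k‖ ^ 2 ≤ 6 * δ := by
    have hd := fun N => (Z.diff_mass hJ hh hk hδ hδ1 (hh1.trans hk1.symm) N).trans
      (mul_le_mul_of_nonneg_left (hsum N) (by positivity))
    rcases hzero with h0 | h0
    · rw [h0] at hA
      obtain ⟨N, hN⟩ := (hA.eventually_lt_const
        (show ‖sand J 0 0 h‖ ^ 2 < δ by simpa [sand] using hδ)).exists
      exact ⟨N, by linarith, by linarith [(abs_le.1 (hd N)).1]⟩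
    · rw [h0] at hB
      obtain ⟨N, hN⟩ := (hB.eventually_lt_const
        (show ‖sand J 0 0 k‖ ^ 2 < δ by simpa [sand] using hδ)).exists
      exact ⟨N, by linarith [(abs_le.1 (hd N)).2], by linarith⟩
  obtain ⟨w, hwM, hw, hw'⟩ := hI.equiv _ (Z.mem N).1 _ (Z.mem N).2 (Z.proj N).1 (Z.proj N).2
    (Z.ne_zero N).1 (Z.ne_zero N).2
  obtain ⟨u, hu, u1, u2, u3⟩ := Z.exists_unitary_of_tail hJ hh hk N w hwM hw hw'
  refine ⟨u, hu, u1, u2, ?_⟩
  have hwP : IsStarProjection (star w * w) := hw ▸ (Z.proj N).1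
  have hwh : ‖sand J w w h‖ ≤ ‖sand J (Z.R N) (Z.R N) h‖ := by
    have h2 : w * Z.R N = w := hw ▸ mul_init hwP
    have h3 := sand_sand (J := J) (a := w) (d := Z.R N) hJ hwM (Z.mem N).1 h
    rw [h2] at h3
    rw [← h3]
    exact norm_sand_le hJ (norm_v_le hwP) (norm_v_le hwP) _
  set a := ‖sand J (Z.R N) (Z.R N) h‖
  set b := ‖sand J (Z.R' N) (Z.R' N) k‖
  have h6 : ‖sand J w w h - sand J (Z.R' N) (Z.R' N) k‖ ^ 2 ≤ (a + b) ^ 2 :=
    pow_le_pow_left₀ (norm_nonneg _) ((norm_sub_le _ _).trans (by gcongr)) 2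
  have h7 : (a + b) ^ 2 ≤ 24 * δ := by nlinarith [sq_nonneg (a - b)]
  have h8 : 9 * δ ^ 2 * ∑ i ∈ Finset.range N, mass J h (Z.V i) ≤ 9 * δ := by
    calc _ ≤ 9 * δ ^ 2 * 1 := mul_le_mul_of_nonneg_left (hsum N) (by positivity)
      _ ≤ _ := by nlinarith
  refine (pow_le_pow_iff_left₀ (norm_nonneg _) hε.le two_ne_zero).1 (u3.trans ?_)
  linarith [min_le_right (1 : ℝ) (ε ^ 2 / 33)]

end P132.Homogeneity
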