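import Mathlib

/-!
# The band kernels `exp (-i l w) · (sin (d w / 2) / (d w / 2))²`

They are entire, integrable on horizontal lines, of exponential type, and their transforms live in
`[l - d, l + d]`.
-/

noncomputable section

namespace P132.Homogeneity

open MeasureTheory Complex Metric Set

/-- `sin w / w`, continued to `0`. -/
def sinq (w : ℂ) : ℂ := dslope Complex.sin 0 w

/-- The kernel of the band of centre `l` and width `d`. -/
def kl (d l : ℝ) (w : ℂ) : ℂ := cexp (-(I * l * w)) * sinq ((d / 2 : ℝ) * w) ^ 2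

lemma differentiable_sinq : Differentiable ℂ sinq :=
  differentiableOn_univ.1
    ((differentiableOn_dslope Filter.univ_mem).2 Complex.differentiable_sin.differentiableOn)

lemma differentiable_kl (d l : ℝ) : Differentiable ℂ (kl d l) :=
  (((differentiable_id.const_mul (I * (l : ℂ))).neg).cexp).mul
    ((differentiable_sinq.comp (differentiable_id.const_mul ((d / 2 : ℝ) : ℂ))).pow 2)

lemma kl_zero (d l : ℝ) : kl d l 0 = 1 := by
  simp [kl, sinq]

lemma norm_cos_sin_le (w : ℂ) :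
    ‖Complex.cos w‖ ≤ Real.exp |w.im| ∧ ‖Complex.sin w‖ ≤ Real.exp |w.im| := by
  have h1 : ‖cexp (w * I)‖ ≤ Real.exp |w.im| := by
    rw [Complex.norm_exp]
    exact Real.exp_le_exp.2 (by simp [neg_le_abs])
  have h2 : ‖cexp (-w * I)‖ ≤ Real.exp |w.im| := by
    rw [Complex.norm_exp]
    exact Real.exp_le_exp.2 (by simp [le_abs_self])
  constructor
  · rw [Complex.cos, norm_div, RCLike.norm_ofNat]
    linarith [norm_add_le (cexp (w * I)) (cexp (-w * I))]
  · rw [Complex.sin, norm_div, norm_mul, Complex.norm_I, mul_one, RCLike.norm_ofNat]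
    linarith [norm_sub_le (cexp (-w * I)) (cexp (w * I))]

lemma sinq_mul (w : ℂ) : w * sinq w = Complex.sin w := by
  have h := sub_smul_dslope Complex.sin 0 w
  simpa [sinq] using h

lemma norm_sinq_le (w : ℂ) : ‖sinq w‖ ≤ Real.exp |w.im| := by
  rcases eq_or_ne w 0 with rfl | hw
  · simp [sinq]
  have hs : ‖Complex.sin w - Complex.sin 0‖ ≤ Real.exp |w.im| * ‖w - 0‖ := by
    refine (convex_segment (0 : ℂ) w).norm_image_sub_le_of_norm_hasDerivWithin_le
      (fun x _ => (Complex.hasDerivAt_sin x).hasDerivWithinAt) (fun x hx => ?_)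
      (left_mem_segment ℝ 0 w) (right_mem_segment ℝ 0 w)
    refine (norm_cos_sin_le x).1.trans (Real.exp_le_exp.2 ?_)
    obtain ⟨a, b, ha, hb, hab, rfl⟩ := hx
    simp only [add_im, smul_im, zero_im, smul_eq_mul, mul_zero, zero_add]
    rw [abs_mul, abs_of_nonneg hb]
    exact mul_le_of_le_one_left (abs_nonneg _) (by linarith)
  simp only [Complex.sin_zero, sub_zero, ← sinq_mul w, norm_mul] at hs
  exact le_of_mul_le_mul_left (by linarith) (norm_pos_iff.2 hw)

lemma norm_kl_le (d l : ℝ) (w : ℂ) :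
    ‖kl d l w‖ ≤ 2 * Real.exp (l * w.im + |d| * |w.im|) * (1 + (d / 2) ^ 2 * w.re ^ 2)⁻¹ := by
  set v : ℂ := ((d / 2 : ℝ) : ℂ) * w with hv
  have him : |v.im| = |d| / 2 * |w.im| := by
    rw [hv, Complex.im_ofReal_mul, abs_mul, abs_div, abs_two]
  have hre : v.re = d / 2 * w.re := by rw [hv, Complex.re_ofReal_mul]
  have h1 := norm_sinq_le v
  have h2 : ‖v‖ * ‖sinq v‖ ≤ Real.exp |v.im| := by
    rw [← norm_mul, sinq_mul]; exact (norm_cos_sin_le v).2
  have h3 : ‖sinq v‖ ^ 2 * (1 + v.re ^ 2) ≤ 2 * Real.exp |v.im| ^ 2 := by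
    have hr : v.re ^ 2 ≤ ‖v‖ ^ 2 := by
      rw [← sq_abs]; exact pow_le_pow_left₀ (abs_nonneg _) (Complex.abs_re_le_norm v) 2
    have := pow_le_pow_left₀ (norm_nonneg _) h1 2
    have := pow_le_pow_left₀ (by positivity) h2 2
    nlinarith [mul_le_mul_of_nonneg_left hr (sq_nonneg ‖sinq v‖)]
  have he : Real.exp |v.im| ^ 2 = Real.exp (|d| * |w.im|) := by
    rw [← Real.exp_nat_mul, him]; congr 1; push_cast; ring
  have he1 : ‖cexp (-(I * l * w))‖ = Real.exp (l * w.im) := by
    rw [Complex.norm_exp]; simp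
  rw [hre, mul_pow, he] at h3
  rw [kl, norm_mul, norm_pow, he1, Real.exp_add, ← div_eq_mul_inv, le_div_iff₀ (by positivity),
    mul_assoc]
  exact (mul_le_mul_of_nonneg_left h3 (Real.exp_pos _).le).trans_eq (by ring)

lemma integrable_kl {d : ℝ} (hd : 0 < d) (l : ℝ) (z : ℂ) :
    Integrable fun t : ℝ => kl d l ((t : ℂ) - z) := by
  have h := (((integrable_inv_one_add_sq).comp_mul_left' (R := d / 2) (by positivity)).comp_sub_right
    z.re).const_mul (2 * Real.exp (l * (-z.im) + |d| * |z.im|))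
  refine h.mono' ?_ (Filter.Eventually.of_forall fun t => ?_)
  · exact ((differentiable_kl d l).continuous.comp (by fun_prop)).aestronglyMeasurable
  · simpa [mul_pow] using norm_kl_le d l ((t : ℂ) - z)

/-- The constant of `integral_norm_kl_le`. -/
def klC (d : ℝ) : ℝ := ∫ t : ℝ, 2 * (1 + (d / 2 * t) ^ 2)⁻¹

lemma integral_norm_kl_le {d : ℝ} (hd : 0 < d) (l : ℝ) (z : ℂ) :
    ∫ t : ℝ, ‖kl d l ((t : ℂ) - z)‖ ≤ klC d * Real.exp (-(l * z.im) + d * |z.im|) := by
  have h := (((integrable_inv_one_add_sq).comp_mul_left' (R := d / 2) (by positivity)).const_mul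
    2).comp_sub_right z.re
  refine (integral_mono (integrable_kl hd l z).norm
    (h.mul_const (Real.exp (-(l * z.im) + d * |z.im|))) fun t => ?_).trans_eq ?_
  · refine (norm_kl_le d l ((t : ℂ) - z)).trans_eq ?_
    simp only [sub_re, sub_im, ofReal_re, ofReal_im, zero_sub, abs_neg, abs_of_pos hd, mul_neg,
      mul_pow]
    ring
  · rw [integral_mul_const, integral_sub_right_eq_self (fun t : ℝ => 2 * (1 + (d / 2 * t) ^ 2)⁻¹),
      klC]

/-- Second order Taylor bound for entire functions. -/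
lemma taylor_le {g : ℂ → ℂ} (hg : Differentiable ℂ g) {w : ℂ} {S : ℝ}
    (hS : ∀ u : ℂ, ‖u‖ ≤ 1 → ‖g (w + u)‖ ≤ S) :
    ‖deriv g w‖ ≤ S ∧
      ∀ h : ℂ, ‖h‖ ≤ 1 → ‖g (w + h) - g w - h * deriv g w‖ ≤ ‖h‖ ^ 2 * (3 * S) := by
  have hd : ‖deriv g w‖ ≤ S := by
    refine (Complex.norm_deriv_le_of_forall_mem_sphere_norm_le one_pos hg.diffContOnCl
      (C := S) fun z hz => ?_).trans_eq (div_one _)
    have hz' : ‖z - w‖ = 1 := by simpa [← dist_eq_norm] using hz
    simpa using hS (z - w) hz'.le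
  refine ⟨hd, fun h hh => ?_⟩
  set f : ℂ → ℂ := fun u => g (w + u) with hf
  have hfd : Differentiable ℂ f := hg.comp (differentiable_id.const_add w)
  have hd1 : Differentiable ℂ (dslope f 0) :=
    differentiableOn_univ.1 ((differentiableOn_dslope Filter.univ_mem).2 hfd.differentiableOn)
  have hd2 : Differentiable ℂ (dslope (dslope f 0) 0) :=
    differentiableOn_univ.1 ((differentiableOn_dslope Filter.univ_mem).2 hd1.differentiableOn)
  have h0 : dslope f 0 0 = deriv g w := by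
    rw [dslope_same, hf]
    simpa using deriv_comp_const_add g w 0
  have key : ∀ u : ℂ, g (w + u) - g w - u * deriv g w = u ^ 2 * dslope (dslope f 0) 0 u := by
    intro u
    have e1 := sub_smul_dslope f 0 u
    have e2 := sub_smul_dslope (dslope f 0) 0 u
    simp only [sub_zero, smul_eq_mul, hf, add_zero] at e1 e2
    rw [← h0]
    simp only [hf]
    linear_combination (-1 : ℂ) * e1 - u * e2
  have hb : ∀ u : ℂ, ‖u‖ ≤ 1 → ‖dslope (dslope f 0) 0 u‖ ≤ 3 * S := by
    intro u hu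
    refine Complex.norm_le_of_forall_mem_frontier_norm_le (U := ball (0 : ℂ) 1) isBounded_ball
      hd2.diffContOnCl (fun z hz => ?_) (by rw [closure_ball _ one_ne_zero]; simpa using hu)
    rw [frontier_ball _ one_ne_zero, mem_sphere_zero_iff_norm] at hz
    have e := congrArg norm (key z)
    rw [norm_mul, norm_pow, hz, one_pow, one_mul] at e
    rw [← e]
    have h1 := hS z hz.le
    have h2 : ‖g w‖ ≤ S := by simpa using hS 0 (by simp)
    have h3 : ‖z * deriv g w‖ ≤ S := by rw [norm_mul, hz, one_mul]; exact hd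
    linarith [norm_sub_le (g (w + z) - g w) (z * deriv g w), norm_sub_le (g (w + z)) (g w)]
  rw [key, norm_mul, norm_pow]
  exact mul_le_mul_of_nonneg_left (hb h hh) (sq_nonneg _)

/-- A bound for the kernel near a point. -/
def klB (d l : ℝ) (y : ℝ) : ℝ :=
  2 * Real.exp ((|l| + |d|) * (|y| + 1)) * (2 + 2 * (d / 2) ^ 2)

lemma norm_kl_near (d l : ℝ) (w u : ℂ) (hu : ‖u‖ ≤ 1) :
    ‖kl d l (w + u)‖ ≤ klB d l w.im * (1 + (d / 2) ^ 2 * w.re ^ 2)⁻¹ := by
  refine (norm_kl_le d l (w + u)).trans ?_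
  have h1 : Real.exp (l * (w + u).im + |d| * |(w + u).im|)
      ≤ Real.exp ((|l| + |d|) * (|w.im| + 1)) := by
    refine Real.exp_le_exp.2 ?_
    have h2 : |(w + u).im| ≤ |w.im| + 1 := by
      rw [add_im]; exact (abs_add_le _ _).trans (by linarith [Complex.abs_im_le_norm u])
    have h3 := le_abs_self (l * (w + u).im)
    rw [abs_mul] at h3
    nlinarith [mul_le_mul_of_nonneg_left h2 (abs_nonneg l),
      mul_le_mul_of_nonneg_left h2 (abs_nonneg d)]
  have h4 : (1 + (d / 2) ^ 2 * (w + u).re ^ 2)⁻¹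
      ≤ (2 + 2 * (d / 2) ^ 2) * (1 + (d / 2) ^ 2 * w.re ^ 2)⁻¹ := by
    rw [inv_eq_one_div, ← div_eq_mul_inv, div_le_div_iff₀ (by positivity) (by positivity), one_mul,
      add_re]
    have hu' : u.re ^ 2 ≤ 1 := by
      have := Complex.abs_re_le_norm u
      nlinarith [abs_nonneg u.re, sq_abs u.re]
    nlinarith [mul_le_mul_of_nonneg_left hu' (sq_nonneg (d / 2)),
      mul_nonneg (sq_nonneg (d / 2)) (sq_nonneg (w.re + 2 * u.re)),
      mul_nonneg (mul_nonneg (sq_nonneg (d / 2)) (sq_nonneg (d / 2))) (sq_nonneg (w.re + u.re))]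
  calc 2 * Real.exp (l * (w + u).im + |d| * |(w + u).im|) * (1 + (d / 2) ^ 2 * (w + u).re ^ 2)⁻¹
      ≤ 2 * Real.exp ((|l| + |d|) * (|w.im| + 1))
        * ((2 + 2 * (d / 2) ^ 2) * (1 + (d / 2) ^ 2 * w.re ^ 2)⁻¹) := by
        gcongr
    _ = _ := by rw [klB]; ring

end P132.Homogeneity
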