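import Mathlib

/-!
# Threshold projections of two commuting operators with finite spectrum

If `L ξ` is close to `R ξ` for commuting self-adjoint `L = ∑ x i • P i`, `R = ∑ y j • Q j`, then
some spectral projection `1_(a,∞)(L)` agrees on `ξ` with `1_(a,∞)(R)` up to a small relative error.
-/

namespace Vale.Agent.P132.Homog

open scoped InnerProductSpace

/-- Layer weights: `∑_{a ∈ S, a < x} d a = x ^ 2` for the points `x` of `S`. -/
lemma exists_layer_weights : ∀ (S : Finset ℝ), (∀ a ∈ S, 0 ≤ a) → (0 : ℝ) ∈ S →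
    ∃ d : ℝ → ℝ, (∀ a, 0 ≤ d a) ∧ ∀ x ∈ S, ∑ a ∈ S with a < x, d a = x ^ 2 := by
  intro S
  induction S using Finset.induction_on_max with
  | empty => simp
  | insert M S hmax ih =>
    intro hnn h0
    rcases S.eq_empty_or_nonempty with rfl | hne
    · have hM : M = 0 := by
        simp only [insert_empty_eq, Finset.mem_singleton] at h0
        exact h0.symm
      refine ⟨0, fun a => le_rfl, fun x hx => ?_⟩
      simp only [insert_empty_eq, Finset.mem_singleton] at hx
      simp [hx, hM]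
    · obtain ⟨p, hp⟩ := Finset.max_of_nonempty hne
      have hpS : p ∈ S := Finset.mem_of_max hp
      have hple : ∀ a ∈ S, a ≤ p := fun a ha => Finset.le_max_of_eq ha hp
      have hp0 : 0 ≤ p := hnn p (Finset.mem_insert_of_mem hpS)
      have hpM : p < M := hmax p hpS
      have h0S : (0 : ℝ) ∈ S := by
        rcases Finset.mem_insert.1 h0 with h | h
        · exact absurd (h ▸ hpM) (not_lt.2 hp0)
        · exact h
      obtain ⟨d, hd, hsum⟩ := ih (fun a ha => hnn a (Finset.mem_insert_of_mem ha)) h0S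
      refine ⟨Function.update d p (M ^ 2 - p ^ 2), fun a => ?_, fun x hx => ?_⟩
      · rcases eq_or_ne a p with rfl | h
        · rw [Function.update_self]; nlinarith
        · rw [Function.update_of_ne h]; exact hd a
      have hMS : M ∉ S := fun h => lt_irrefl M (hmax M h)
      have hins : ∀ z ≤ M, (insert M S).filter (fun a => a < z) = S.filter (fun a => a < z) :=
        fun z hz => by rw [Finset.filter_insert, if_neg (not_lt.2 hz)]
      rcases Finset.mem_insert.1 hx with rfl | hxS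
      · rw [hins _ le_rfl, Finset.filter_true_of_mem hmax, ← Finset.add_sum_erase _ _ hpS,
          Function.update_self]
        have he : S.erase p = S.filter (fun a => a < p) := by
          ext a
          simp only [Finset.mem_erase, Finset.mem_filter]
          exact ⟨fun h => ⟨h.2, lt_of_le_of_ne (hple a h.2) h.1⟩, fun h => ⟨h.2.ne, h.1⟩⟩
        rw [he, Finset.sum_congr rfl (fun a ha => Function.update_of_ne
          (Finset.mem_filter.1 ha).2.ne _ d), hsum p hpS]
        ring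
      · rw [hins _ (hmax x hxS).le, Finset.sum_congr rfl (fun a ha => Function.update_of_ne
          (ne_of_lt ((Finset.mem_filter.1 ha).2.trans_le (hple x hxS))) _ d), hsum x hxS]

variable {E : Type*} [NormedAddCommGroup E] [InnerProductSpace ℂ E]
variable {ι : Type*} [Fintype ι]

lemma norm_sq_sum_smul {P : ι → E} (h : Pairwise fun i j => ⟪P i, P j⟫_ℂ = 0) (c : ι → ℝ) :
    ‖∑ i, c i • P i‖ ^ 2 = ∑ i, c i ^ 2 * ‖P i‖ ^ 2 := by
  classical
  suffices H : ∀ s : Finset ι, ‖∑ i ∈ s, c i • P i‖ ^ 2 = ∑ i ∈ s, c i ^ 2 * ‖P i‖ ^ 2 from H _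
  intro s
  induction s using Finset.induction_on with
  | empty => simp
  | insert j s hj ih =>
    have h0 : ⟪c j • P j, ∑ i ∈ s, c i • P i⟫_ℂ = 0 := by
      rw [inner_sum]
      refine Finset.sum_eq_zero fun i hi => ?_
      have hne : j ≠ i := fun e => hj (e ▸ hi)
      simp only [RCLike.real_smul_eq_coe_smul (K := ℂ), inner_smul_left, inner_smul_right, h hne,
        mul_zero]
    rw [Finset.sum_insert hj, Finset.sum_insert hj, @norm_add_sq ℂ, h0, ih, norm_smul, mul_pow]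
    simp

/-- The joint-distribution trick. `w i` is the joint component with values `(x i, y i)`. -/
theorem exists_threshold (w : ι → E) (hw : Pairwise fun i j => ⟪w i, w j⟫_ℂ = 0) (x y : ι → ℝ)
    {K : ℝ} (hK : ‖∑ i, (x i - y i) • w i‖ * (‖∑ i, x i • w i‖ + ‖∑ i, y i • w i‖)
      ≤ K * ‖∑ i, max (x i) 0 • w i‖ ^ 2) (hpos : ‖∑ i, max (x i) 0 • w i‖ ≠ 0) :
    ∃ a : ℝ, 0 ≤ a ∧ ∑ i with a < x i, w i ≠ 0 ∧
      ‖(∑ i with a < x i, w i) - ∑ i with a < y i, w i‖ ^ 2 ≤ K * ‖∑ i with a < x i, w i‖ ^ 2 := by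
  classical
  set S : Finset ℝ := insert 0 ((Finset.univ.image fun i => max (x i) 0) ∪
    (Finset.univ.image fun i => max (y i) 0)) with hS
  obtain ⟨d, hd, hsum⟩ := exists_layer_weights S (fun a ha => by
    simp only [hS, Finset.mem_insert, Finset.mem_union, Finset.mem_image, Finset.mem_univ,
      true_and] at ha
    rcases ha with rfl | ⟨i, rfl⟩ | ⟨i, rfl⟩ <;> simp) (by simp [hS])
  have hS0 : ∀ a ∈ S, 0 ≤ a := fun a ha => by
    simp only [hS, Finset.mem_insert, Finset.mem_union, Finset.mem_image, Finset.mem_univ,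
      true_and] at ha
    rcases ha with rfl | ⟨i, rfl⟩ | ⟨i, rfl⟩ <;> simp
  let ind : ℝ → ℝ → ℝ := fun a t => if a < t then 1 else 0
  have hlayer : ∀ t, max t 0 ∈ S → ∑ a ∈ S, d a * ind a t = max t 0 ^ 2 := by
    intro t ht
    rw [← hsum _ ht, Finset.sum_filter]
    refine Finset.sum_congr rfl fun a ha => ?_
    have : a < t ↔ a < max t 0 := by
      rw [lt_max_iff]
      exact ⟨Or.inl, fun h => h.resolve_right (not_lt.2 (hS0 a ha))⟩
    by_cases h : a < t
    · simp [ind, h, this.1 h]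
    · rw [if_neg fun h' => h (this.2 h')]
      simp [ind, h]
  have hx : ∀ i, max (x i) 0 ∈ S := fun i => by simp [hS]
  have hy : ∀ i, max (y i) 0 ∈ S := fun i => by simp [hS]
  have hfilter : ∀ (a : ℝ) (f : ι → ℝ), ∑ i with a < f i, w i = ∑ i, ind a (f i) • w i := by
    intro a f
    rw [Finset.sum_filter]
    exact Finset.sum_congr rfl fun i _ => by by_cases h : a < f i <;> simp [ind, h]
  have hind2 : ∀ a t, ind a t ^ 2 = ind a t := fun a t => by by_cases h : a < t <;> simp [ind, h]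
  -- the weighted sum of the squared differences
  have hkey : ∑ a ∈ S, d a * ‖∑ i, (ind a (x i) - ind a (y i)) • w i‖ ^ 2
      ≤ ∑ i, |max (x i) 0 ^ 2 - max (y i) 0 ^ 2| * ‖w i‖ ^ 2 := by
    simp only [norm_sq_sum_smul hw, Finset.mul_sum]
    rw [Finset.sum_comm]
    refine Finset.sum_le_sum fun i _ => ?_
    simp only [← mul_assoc]
    rw [← Finset.sum_mul]
    refine mul_le_mul_of_nonneg_right ?_ (sq_nonneg _)
    rw [← hlayer _ (hx i), ← hlayer _ (hy i), ← Finset.sum_sub_distrib]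
    rcases le_total (y i) (x i) with h | h
    · refine (le_of_eq ?_).trans (le_abs_self _)
      refine Finset.sum_congr rfl fun a _ => ?_
      by_cases h2 : a < y i
      · simp [ind, h2, h2.trans_le h]
      · by_cases h1 : a < x i <;> simp [ind, h1, h2]
    · refine (le_of_eq ?_).trans (neg_le_abs _)
      rw [← Finset.sum_neg_distrib]
      refine Finset.sum_congr rfl fun a _ => ?_
      by_cases h2 : a < x i
      · simp [ind, h2, h2.trans_le h]
      · by_cases h1 : a < y i <;> simp [ind, h1, h2]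
  have hcs : ∑ i, |max (x i) 0 ^ 2 - max (y i) 0 ^ 2| * ‖w i‖ ^ 2
      ≤ ‖∑ i, (x i - y i) • w i‖ * (‖∑ i, x i • w i‖ + ‖∑ i, y i • w i‖) := by
    have h1 : ∀ i, |max (x i) 0 ^ 2 - max (y i) 0 ^ 2| * ‖w i‖ ^ 2
        ≤ (|x i - y i| * ‖w i‖) * (|x i| * ‖w i‖) + (|x i - y i| * ‖w i‖) * (|y i| * ‖w i‖) := by
      intro i
      have : |max (x i) 0 ^ 2 - max (y i) 0 ^ 2| ≤ |x i - y i| * (|x i| + |y i|) := by
        rw [sq_sub_sq, abs_mul, mul_comm]
        refine mul_le_mul (abs_max_sub_max_le_abs _ _ _) ?_ (abs_nonneg _) (abs_nonneg _)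
        rw [abs_of_nonneg (add_nonneg (le_max_right _ _) (le_max_right _ _))]
        exact add_le_add (max_le (le_abs_self _) (abs_nonneg _))
          (max_le (le_abs_self _) (abs_nonneg _))
      nlinarith [mul_le_mul_of_nonneg_right this (sq_nonneg ‖w i‖)]
    have h2 : ∀ f : ι → ℝ, √(∑ i, (|f i| * ‖w i‖) ^ 2) = ‖∑ i, f i • w i‖ := fun f => by
      rw [← Real.sqrt_sq (norm_nonneg (∑ i, f i • w i)), norm_sq_sum_smul hw]
      simp [mul_pow]
    refine (Finset.sum_le_sum fun i _ => h1 i).trans ?_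
    rw [Finset.sum_add_distrib, mul_add, ← h2, ← h2, ← h2]
    exact add_le_add (Real.sum_mul_le_sqrt_mul_sqrt _ _ _) (Real.sum_mul_le_sqrt_mul_sqrt _ _ _)
  have hmass : ∑ a ∈ S, d a * ‖∑ i, ind a (x i) • w i‖ ^ 2 = ‖∑ i, max (x i) 0 • w i‖ ^ 2 := by
    simp only [norm_sq_sum_smul hw, Finset.mul_sum, hind2]
    rw [Finset.sum_comm]
    refine Finset.sum_congr rfl fun i _ => ?_
    simp only [← mul_assoc]
    rw [← Finset.sum_mul, hlayer _ (hx i)]
  by_contra hcon
  push Not at hcon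
  have hle : ∀ a ∈ S, K * (d a * ‖∑ i, ind a (x i) • w i‖ ^ 2)
      ≤ d a * ‖∑ i, (ind a (x i) - ind a (y i)) • w i‖ ^ 2 := by
    intro a ha
    rcases eq_or_ne (∑ i, ind a (x i) • w i) 0 with h | h
    · rw [h]; simp only [norm_zero, ne_eq, OfNat.ofNat_ne_zero, not_false_eq_true, zero_pow,
        mul_zero]; exact mul_nonneg (hd a) (sq_nonneg _)
    · have h3 := hcon a (hS0 a ha) (by rwa [hfilter])
      rw [hfilter, hfilter, ← Finset.sum_sub_distrib] at h3
      simp only [← sub_smul] at h3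
      calc K * (d a * ‖∑ i, ind a (x i) • w i‖ ^ 2)
          = d a * (K * ‖∑ i, ind a (x i) • w i‖ ^ 2) := by ring
        _ ≤ _ := mul_le_mul_of_nonneg_left h3.le (hd a)
  have hmpos : 0 < ∑ a ∈ S, d a * ‖∑ i, ind a (x i) • w i‖ ^ 2 := by rw [hmass]; positivity
  have hlt : K * (∑ a ∈ S, d a * ‖∑ i, ind a (x i) • w i‖ ^ 2)
      < ∑ a ∈ S, d a * ‖∑ i, (ind a (x i) - ind a (y i)) • w i‖ ^ 2 := by
    rw [Finset.mul_sum]
    refine Finset.sum_lt_sum hle ?_
    by_contra hno
    push Not at hno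
    refine hmpos.ne' (Finset.sum_eq_zero fun a ha => ?_)
    by_contra h
    have h1 : ∑ i, ind a (x i) • w i ≠ 0 := fun h0 => h (by simp [h0])
    have h2 : 0 < d a := (hd a).lt_of_ne fun h0 => h (by rw [← h0, zero_mul])
    have h3 := hcon a (hS0 a ha) (by rwa [hfilter])
    rw [hfilter, hfilter, ← Finset.sum_sub_distrib] at h3
    simp only [← sub_smul] at h3
    have h4 := mul_lt_mul_of_pos_left h3 h2
    have h5 := hno a ha
    nlinarith
  rw [hmass] at hlt
  linarith [hkey.trans hcs]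

section Operators

variable {H : Type*} [NormedAddCommGroup H] [InnerProductSpace ℂ H] [CompleteSpace H]

/-- The trick for two commuting partitions of unity `P`, `Q` with the same values `c`. -/
theorem exists_threshold_proj (P Q : ι → (H →L[ℂ] H)) (c : ι → ℝ)
    (hP : ∀ i, IsStarProjection (P i)) (hQ : ∀ i, IsStarProjection (Q i))
    (hP0 : ∀ i j, i ≠ j → P i * P j = 0) (hQ0 : ∀ i j, i ≠ j → Q i * Q j = 0)
    (hP1 : ∑ i, P i = 1) (hQ1 : ∑ i, Q i = 1) (hPQ : ∀ i j, Commute (P i) (Q j)) (ξ : H) {K : ℝ}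
    (hK : ‖(∑ i, c i • P i) ξ - (∑ i, c i • Q i) ξ‖
        * (‖(∑ i, c i • P i) ξ‖ + ‖(∑ i, c i • Q i) ξ‖)
      ≤ K * ‖(∑ i, max (c i) 0 • P i) ξ‖ ^ 2)
    (hpos : (∑ i, max (c i) 0 • P i) ξ ≠ 0) :
    ∃ a : ℝ, 0 ≤ a ∧ (∑ i with a < c i, P i) ξ ≠ 0 ∧
      ‖(∑ i with a < c i, P i) ξ - (∑ i with a < c i, Q i) ξ‖ ^ 2
        ≤ K * ‖(∑ i with a < c i, P i) ξ‖ ^ 2 := by
  classical
  set w : ι × ι → H := fun k => P k.1 (Q k.2 ξ) with hw
  have hadj : ∀ {A : H →L[ℂ] H}, IsSelfAdjoint A → ∀ x y, ⟪A x, y⟫_ℂ = ⟪x, A y⟫_ℂ := by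
    intro A hA x y
    conv_rhs => rw [← hA.star_eq, ContinuousLinearMap.star_eq_adjoint,
      ContinuousLinearMap.adjoint_inner_right]
  have happ : ∀ (A B : H →L[ℂ] H) x, A (B x) = (A * B) x := fun A B x => rfl
  have horth : Pairwise fun k l => ⟪w k, w l⟫_ℂ = 0 := by
    intro k l hkl
    by_cases h1 : k.1 = l.1
    · have h2 : k.2 ≠ l.2 := fun h => hkl (Prod.ext h1 h)
      change ⟪(P k.1 * Q k.2) ξ, (P l.1 * Q l.2) ξ⟫_ℂ = 0
      rw [(hPQ _ _).eq, (hPQ _ _).eq]
      change ⟪Q k.2 (P k.1 ξ), Q l.2 (P l.1 ξ)⟫_ℂ = 0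
      rw [hadj (hQ k.2).isSelfAdjoint, happ (Q k.2), hQ0 _ _ h2]
      simp
    · change ⟪P k.1 (Q k.2 ξ), P l.1 (Q l.2 ξ)⟫_ℂ = 0
      rw [hadj (hP k.1).isSelfAdjoint, happ (P k.1), hP0 _ _ h1]
      simp
  have hL : ∀ (f : ι → ℝ), ∑ k : ι × ι, f k.1 • w k = (∑ i, f i • P i) ξ := by
    intro f
    rw [Fintype.sum_prod_type]
    simp only [hw, ← Finset.smul_sum, ← map_sum, ← sum_apply, hQ1, one_apply_eq_self]
    simp [sum_apply]
  have hR : ∀ (f : ι → ℝ), ∑ k : ι × ι, f k.2 • w k = (∑ i, f i • Q i) ξ := by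
    intro f
    rw [Fintype.sum_prod_type_right]
    simp only [hw, ← Finset.smul_sum, ← sum_apply, hP1, one_apply_eq_self]
    simp [sum_apply]
  have hthr : ∀ (a : ℝ) (A : ι → (H →L[ℂ] H)),
      (∑ i with a < c i, A i) = ∑ i, (if a < c i then (1 : ℝ) else 0) • A i := by
    intro a A
    rw [Finset.sum_filter]
    exact Finset.sum_congr rfl fun i _ => by split_ifs <;> simp
  have hfil : ∀ (a : ℝ) (f : ι × ι → ℝ),
      ∑ k with a < f k, w k = ∑ k, (if a < f k then (1 : ℝ) else 0) • w k := by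
    intro a f
    rw [Finset.sum_filter]
    exact Finset.sum_congr rfl fun i _ => by split_ifs <;> simp
  obtain ⟨a, ha, hne, hle⟩ := exists_threshold (K := K) w horth (fun k => c k.1) (fun k => c k.2)
    (by simpa only [sub_smul, Finset.sum_sub_distrib, hL c, hR c, hL fun i => max (c i) 0] using hK)
    (by rw [hL fun i => max (c i) 0]; simpa using hpos)
  refine ⟨a, ha, ?_, ?_⟩
  · rw [hfil, hL fun i => if a < c i then 1 else 0, ← hthr] at hne
    exact hne
  · rw [hfil, hfil, hL fun i => if a < c i then 1 else 0, hR fun i => if a < c i then 1 else 0,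
      ← hthr, ← hthr] at hle
    exact hle

end Operators

end Vale.Agent.P132.Homog
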