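import Vale.Agent.P132.Smear
import Vale.Agent.P132.Homog.Standard
import Vale.Agent.P132.Homog.Kernel

/-!
# Elements of narrow modular spectrum

`IsNarrow a l d`: the orbit of `a` extends to an entire function of exponential type, as if the
spectrum of `a` for the modular group were in `[l - d, l + d]`.
-/

noncomputable section

namespace P132

open Filter Topology Complex MeasureTheory ComplexConjugate
open scoped InnerProductSpace
open Homogeneity

variable {H : Type*} [NormedAddCommGroup H] [InnerProductSpace ℂ H] [CompleteSpace H]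
variable {S : Std H}

namespace Modular

variable (D : Modular S)

/-- The spectrum of `a` is near `l` up to `d`. -/
def IsNarrow (a : H →L[ℂ] H) (l d : ℝ) : Prop :=
  ∃ F, D.IsExt a F ∧ ∃ C : ℝ, ∀ z : ℂ, ‖F z‖ ≤ C * Real.exp (-(l * z.im) + d * |z.im|)

variable {D}

lemma IsNarrow.mem {a : H →L[ℂ] H} {l d : ℝ} (h : D.IsNarrow a l d) : a ∈ S.M := by
  obtain ⟨F, hF, -⟩ := h
  rw [← hF.zero]
  exact hF.mem 0

lemma IsNarrow.σ {a : H →L[ℂ] H} {l d : ℝ} (h : D.IsNarrow a l d) (s : ℝ) :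
    D.IsNarrow (D.σ s a) l d := by
  obtain ⟨F, hF, C, hC⟩ := h
  rw [← hF.real s]
  exact ⟨_, hF.shift s, C, fun z => by simpa using hC ((s : ℂ) + z)⟩

lemma IsNarrow.mul {a b : H →L[ℂ] H} {l d l' d' : ℝ} (h : D.IsNarrow a l d)
    (h' : D.IsNarrow b l' d') : D.IsNarrow (a * b) (l + l') (d + d') := by
  obtain ⟨F, hF, C, hC⟩ := h
  obtain ⟨G, hG, C', hC'⟩ := h'
  refine ⟨fun z => F z * G z, ⟨hF.diff.mul hG.diff, fun z => mul_mem (hF.mem z) (hG.mem z),
    fun t => by rw [hF.real, hG.real, D.σ_mul]⟩, C * C', fun z => ?_⟩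
  refine (norm_mul_le _ _).trans ((mul_le_mul (hC z) (hC' z) (norm_nonneg _)
    ((norm_nonneg _).trans (hC z))).trans_eq ?_)
  rw [mul_mul_mul_comm, ← Real.exp_add]
  ring_nf

lemma IsNarrow.recentre {a : H →L[ℂ] H} {l d l' d' : ℝ} (h : D.IsNarrow a l d)
    (hd : d + |l - l'| ≤ d') : D.IsNarrow a l' d' := by
  obtain ⟨F, hF, C, hC⟩ := h
  have hC0 : 0 ≤ C := by
    have := (norm_nonneg _).trans (hC 0)
    simpa using this
  refine ⟨F, hF, C, fun z => (hC z).trans (mul_le_mul_of_nonneg_left (Real.exp_le_exp.2 ?_) hC0)⟩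
  have h1 := mul_le_mul_of_nonneg_right hd (abs_nonneg z.im)
  have h2 := le_abs_self ((l' - l) * z.im)
  rw [abs_mul, abs_sub_comm] at h2
  nlinarith

/-- An element of narrow spectrum is nearly an eigenvector: `J (a* Ω) ≈ e^{l/2} a Ω`. -/
theorem IsNarrow.norm_J_star_sub_le {a : H →L[ℂ] H} {l d : ℝ} (h : D.IsNarrow a l d)
    (hd0 : 0 < d) (hd1 : d ≤ 1) :
    ‖D.J (star a S.Ω) - Real.exp (l / 2) • a S.Ω‖ ≤ 5 * d * Real.exp (l / 2) * ‖a S.Ω‖ := by
  obtain ⟨F, hF, C, hC⟩ := h
  set v : ℂ → H := fun z => cexp (-(I * l * z)) • F z S.Ω with hv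
  have hvd : Differentiable ℂ v :=
    (by fun_prop : Differentiable ℂ fun z : ℂ => cexp (-(I * l * z))).smul
      (hF.diff.clm_apply (differentiable_const _))
  have hvC : ∀ z, ‖v z‖ ≤ C * Real.exp (d * |z.im|) := by
    intro z
    rw [hv, norm_smul, Complex.norm_exp]
    have h1 : ‖F z S.Ω‖ ≤ C * Real.exp (-(l * z.im) + d * |z.im|) :=
      ((F z).le_opNorm _).trans (by rw [S.norm_Ω, mul_one]; exact hC z)
    refine (mul_le_mul_of_nonneg_left h1 (Real.exp_pos _).le).trans_eq ?_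
    rw [mul_left_comm, ← Real.exp_add]
    simp
  have hvt : ∀ t : ℝ, ‖v t‖ = ‖a S.Ω‖ := by
    intro t
    rw [hv, norm_smul, Complex.norm_exp, hF.real, D.norm_σ_apply_Ω]
    simp
  have half : ∀ w : ℂ → H, Differentiable ℂ w → (∀ z, ‖w z‖ ≤ C * Real.exp (d * |z.im|)) →
      (∀ t : ℝ, ‖w t‖ = ‖a S.Ω‖) → ∀ z : ℂ, 0 ≤ z.im →
        ‖w z‖ ≤ ‖a S.Ω‖ * Real.exp (d * z.im) := by
    intro w hw hwC hwt z hz
    set g : ℂ → H := fun u => cexp (-((d : ℂ) * u)) • w (I * u) with hg
    have hgn : ∀ u, ‖g u‖ = Real.exp (-(d * u.re)) * ‖w (I * u)‖ := fun u => by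
      rw [hg, norm_smul, Complex.norm_exp]; simp
    have hgb : ∀ u : ℂ, 0 ≤ u.re → ‖g u‖ ≤ C := by
      intro u hu
      rw [hgn]
      refine (mul_le_mul_of_nonneg_left (hwC _) (Real.exp_pos _).le).trans_eq ?_
      rw [mul_left_comm, ← Real.exp_add, show (I * u).im = u.re by simp, abs_of_nonneg hu]
      simp
    have h1 : ‖g (-I * z)‖ ≤ ‖a S.Ω‖ := by
      refine PhragmenLindelof.right_half_plane_of_bounded_on_real
        (((differentiable_id.const_mul (d : ℂ)).neg.cexp.smul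
          (hw.comp (differentiable_id.const_mul I))).diffContOnCl) ⟨1, one_lt_two, 0, ?_⟩ ?_
        (fun x => ?_) (by simpa using hz)
      · refine Asymptotics.IsBigO.of_bound C (eventually_inf_principal.2
          (Eventually.of_forall fun u hu => ?_))
        simpa using hgb u (le_of_lt hu)
      · exact isBoundedUnder_of_eventually_le (a := C) ((eventually_ge_atTop 0).mono
          fun x hx => hgb x (by simpa using hx))
      · rw [hgn, show I * ((x : ℂ) * I) = ((-x : ℝ) : ℂ) by push_cast; ring_nf; simp, hwt]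
        simp
    rw [hgn, show I * (-I * z) = z by ring_nf; simp, show (-I * z).re = z.im by simp] at h1
    have h2 := mul_le_mul_of_nonneg_left h1 (Real.exp_pos (d * z.im)).le
    rw [← mul_assoc, ← Real.exp_add, add_neg_cancel, Real.exp_zero, one_mul] at h2
    rwa [mul_comm ‖a S.Ω‖]
  have hb : ∀ z, ‖v z‖ ≤ ‖a S.Ω‖ * Real.exp (d * |z.im|) := by
    intro z
    rcases le_total 0 z.im with hz | hz
    · rw [abs_of_nonneg hz]; exact half v hvd hvC hvt z hz
    · have := half (fun u => v (-u)) (hvd.comp differentiable_neg)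
        (fun u => by simpa using hvC (-u)) (fun t => by simpa using hvt (-t)) (-z) (by simpa using hz)
      simpa [abs_of_nonpos hz] using this
  have hder : ∀ z ∈ segment ℝ (0 : ℂ) (-(I / 2)), ‖deriv v z‖ ≤ 10 * d * ‖a S.Ω‖ := by
    intro z hz
    have hzi : |z.im| ≤ 1 / 2 := by
      obtain ⟨p, q, hp, hq, hpq, rfl⟩ := hz
      simp
      rw [abs_of_nonneg hq]; linarith
    refine (Complex.norm_deriv_le_of_forall_mem_sphere_norm_le (R := d⁻¹) (inv_pos.2 hd0)
      hvd.diffContOnCl (C := ‖a S.Ω‖ * Real.exp (3 / 2)) fun w hw => (hb w).trans ?_).trans ?_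
    · refine mul_le_mul_of_nonneg_left (Real.exp_le_exp.2 ?_) (norm_nonneg _)
      rw [Metric.mem_sphere, dist_eq_norm] at hw
      have h1 : |w.im| ≤ 1 / 2 + d⁻¹ := by
        have := Complex.abs_im_le_norm (w - z)
        rw [hw, Complex.sub_im] at this
        have := abs_sub_abs_le_abs_sub w.im z.im
        linarith
      have h2 := mul_le_mul_of_nonneg_left h1 hd0.le
      rw [mul_add, mul_inv_cancel₀ hd0.ne'] at h2
      linarith
    · rw [div_inv_eq_mul, mul_assoc, mul_comm _ ‖a S.Ω‖]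
      refine mul_le_mul_of_nonneg_left ?_ (norm_nonneg _)
      refine mul_le_mul_of_nonneg_right ?_ hd0.le
      have h3 : Real.exp (3 / 2) ≤ Real.exp 1 ^ 2 := by
        rw [← Real.exp_nat_mul]; exact Real.exp_le_exp.2 (by norm_num)
      have := Real.exp_one_lt_d9
      nlinarith [Real.exp_pos 1]
  have hmv := (convex_segment (0 : ℂ) (-(I / 2))).norm_image_sub_le_of_norm_deriv_le
    (fun z _ => hvd z) hder (left_mem_segment ℝ _ _) (right_mem_segment ℝ _ _)
  have e0 : v 0 = a S.Ω := by simp [hv, hF.zero]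
  have e1 : v (-(I / 2)) = Real.exp (-(l / 2)) • D.J (star a S.Ω) := by
    have h1 := hF.J_sub 0
    rw [hF.zero, zero_sub] at h1
    rw [← h1, D.J_J, hv, ← Complex.coe_smul, Complex.ofReal_exp]
    simp only
    congr 2
    push_cast
    linear_combination (l / 2 : ℂ) * Complex.I_mul_I
  rw [e0, e1, sub_zero, show ‖(-(I / 2) : ℂ)‖ = 1 / 2 by simp] at hmv
  have h2 : D.J (star a S.Ω) - Real.exp (l / 2) • a S.Ω
      = Real.exp (l / 2) • (Real.exp (-(l / 2)) • D.J (star a S.Ω) - a S.Ω) := by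
    rw [smul_sub, smul_smul, ← Real.exp_add, add_neg_cancel, Real.exp_zero, one_smul]
  rw [h2, norm_smul, Real.norm_of_nonneg (Real.exp_pos _).le]
  calc Real.exp (l / 2) * ‖Real.exp (-(l / 2)) • D.J (star a S.Ω) - a S.Ω‖
      ≤ Real.exp (l / 2) * (10 * d * ‖a S.Ω‖ * (1 / 2)) :=
        mul_le_mul_of_nonneg_left hmv (Real.exp_pos _).le
    _ = _ := by ring

variable (D)

/-- The component of `x` in the band of centre `l` and width `d`. -/
def band (d l : ℝ) (x : H →L[ℂ] H) : H →L[ℂ] H := D.smear (fun t => kl d l t) x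

lemma differentiable_smear_kl {d : ℝ} (hd : 0 < d) (l : ℝ) (x : H →L[ℂ] H) :
    Differentiable ℂ fun z => D.smear (fun t : ℝ => kl d l ((t : ℂ) - z)) x := by
  intro z
  set g' : ℝ → ℂ := fun t => -deriv (kl d l) ((t : ℂ) - z) with hg'
  have hint : Integrable fun t : ℝ => (1 + (d / 2) ^ 2 * (t - z.re) ^ 2)⁻¹ := by
    simpa [mul_pow] using
      ((integrable_inv_one_add_sq).comp_mul_left' (R := d / 2) (by positivity)).comp_sub_right z.re
  have hS : ∀ (t : ℝ) (u : ℂ), ‖u‖ ≤ 1 → ‖kl d l ((t : ℂ) - z + u)‖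
      ≤ klB d l (-z.im) * (1 + (d / 2) ^ 2 * (t - z.re) ^ 2)⁻¹ := fun t u hu => by
    simpa using norm_kl_near d l ((t : ℂ) - z) u hu
  have hT := fun t : ℝ => taylor_le (differentiable_kl d l) (hS t)
  have hg'i : Integrable g' := by
    refine (hint.const_mul (klB d l (-z.im))).mono' ?_
      (Eventually.of_forall fun t => by rw [hg', norm_neg]; exact (hT t).1)
    exact ((differentiable_kl d l).differentiableOn.deriv isOpen_univ).continuousOn.comp_continuous
      (by fun_prop) (fun _ => Set.mem_univ _) |>.neg.aestronglyMeasurable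
  set B := (∫ t : ℝ, 3 * (klB d l (-z.im) * (1 + (d / 2) ^ 2 * (t - z.re) ^ 2)⁻¹)) * ‖x‖
  refine HasDerivAt.differentiableAt (f' := D.smear g' x) (hasDerivAt_iff_isLittleO_nhds_zero.2 ?_)
  refine (Asymptotics.IsBigO.of_bound B ?_).trans_isLittleO
    (Asymptotics.isLittleO_pow_id (𝕜 := ℂ) one_lt_two)
  filter_upwards [Metric.closedBall_mem_nhds (0 : ℂ) one_pos] with h hh
  have hh' : ‖h‖ ≤ 1 := by simpa using hh
  have i1 := integrable_kl hd l (z + h)
  have i0 := integrable_kl hd l z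
  rw [← D.smear_sub i1 i0, ← D.smear_const_mul h hg'i,
    ← D.smear_sub (f := fun t : ℝ => kl d l ((t : ℂ) - (z + h)) - kl d l ((t : ℂ) - z))
      (i1.sub i0) (hg'i.const_mul h)]
  have i2 : Integrable fun t : ℝ =>
      kl d l ((t : ℂ) - (z + h)) - kl d l ((t : ℂ) - z) - h * g' t :=
    (i1.sub i0).sub (hg'i.const_mul h)
  refine (D.norm_smear_le i2 x).trans ?_
  rw [norm_pow, mul_comm B, show ‖h‖ ^ 2 * B = (∫ t : ℝ, ‖h‖ ^ 2
    * (3 * (klB d l (-z.im) * (1 + (d / 2) ^ 2 * (t - z.re) ^ 2)⁻¹))) * ‖x‖ by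
      rw [integral_const_mul, mul_assoc]]
  refine mul_le_mul_of_nonneg_right (integral_mono i2.norm
    (((hint.const_mul _).const_mul _).const_mul _) fun t => ?_) (norm_nonneg _)
  have := (hT t).2 (-h) (by rwa [norm_neg])
  simpa [hg', sub_sub, ← sub_eq_add_neg] using this

/-- The band components have narrow spectrum. -/
theorem isNarrow_band {d : ℝ} (hd : 0 < d) (l : ℝ) {x : H →L[ℂ] H} (hx : x ∈ S.M) :
    D.IsNarrow (D.band d l x) l d := by
  refine ⟨fun z => D.smear (fun t : ℝ => kl d l ((t : ℂ) - z)) x,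
    ⟨D.differentiable_smear_kl hd l x, fun z => D.smear_mem _ hx, fun s => ?_⟩, klC d * ‖x‖,
    fun z => ?_⟩
  · rw [band, D.σ_smear s (by simpa using integrable_kl hd l 0)]
    simp
  · refine (D.norm_smear_le (integrable_kl hd l z) x).trans ?_
    rw [mul_right_comm]
    exact mul_le_mul_of_nonneg_right (integral_norm_kl_le hd l z) (norm_nonneg _)

end Modular

end P132
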