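import Vale.Agent.P132.Homog.Bands
import Vale.Agent.P132.Homog.HasModular

/-!
# The off-diagonal lemma

For a projection `e` commuting with the vector `h`, the corner `(1 - e) M e` contains nonzero
elements nearly commuting with `h`: multiply an element of narrow spectrum by one of opposite
spectrum, found in the corner of its invariant right support by the hypothesis of type III₁.
-/

noncomputable section

namespace P132

open Filter Topology Complex MeasureTheory ComplexConjugate
open scoped InnerProductSpace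
open Homogeneity

variable {H : Type*} [NormedAddCommGroup H] [InnerProductSpace ℂ H] [CompleteSpace H]
variable {S : Std H}

namespace Modular

variable (D : Modular S)

/-- Self-adjoint elements in the centralizer are fixed. -/
theorem σ_eq_of_central {e : H →L[ℂ] H} (he : e ∈ S.M) (hsa : star e = e)
    (hc : ∀ y ∈ S.M, S.φ (e * y) = S.φ (y * e)) (t : ℝ) : D.σ t e = e := by
  have hφ : ∀ a : H →L[ℂ] H, S.φ (e * a) = ⟪e S.Ω, a S.Ω⟫_ℂ := fun a => by
    rw [← φ_star_mul, hsa]
  have hent : ∀ y, D.IsEntire y → ∀ s : ℝ, ⟪e S.Ω, D.U s (y S.Ω)⟫_ℂ = ⟪e S.Ω, y S.Ω⟫_ℂ := by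
    intro y hy s
    obtain ⟨F, hF⟩ := IsEntire.exists_ext D hy
    set g : ℂ → ℂ := fun z => ⟪e S.Ω, F z S.Ω⟫_ℂ with hgdef
    have hg : Differentiable ℂ g :=
      (innerSL ℂ (e S.Ω)).differentiable.comp (hF.diff.clm_apply (differentiable_const _))
    have hper : Function.Periodic g I := fun z => by
      have hs := hF.shift (z + I)
      have h1 := D.kms (F (z + I)) _ hs.diff hs.mem hs.real e he
      simp only [add_neg_cancel_right] at h1
      rw [← hc _ (hF.mem _), hφ, hφ] at h1
      exact h1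
    obtain ⟨C, hC⟩ := (isCompact_Icc (a := (0 : ℝ)) (b := 1)).exists_bound_of_continuousOn
      (f := fun s : ℝ => ‖e S.Ω‖ * ‖F (s * I) S.Ω‖)
      ((continuous_const.mul ((hF.diff.continuous.comp (by fun_prop)).clm_apply
        continuous_const).norm).continuousOn)
    have hb : ∀ z, ‖g z‖ ≤ C := by
      intro z
      rw [← hper.int_mul (-⌊z.im⌋) z]
      set s : ℝ := z.im - ⌊z.im⌋
      have hs : s ∈ Set.Icc (0 : ℝ) 1 :=
        ⟨sub_nonneg.2 (Int.floor_le _), by linarith [Int.lt_floor_add_one z.im]⟩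
      have he' : z + ((-⌊z.im⌋ : ℤ) : ℂ) * I = (s : ℂ) * I + (z.re : ℂ) := by
        apply Complex.ext <;> simp [s, ← sub_eq_add_neg, Int.self_sub_floor]
      rw [he']
      refine le_trans ?_ ((le_abs_self _).trans (hC s hs))
      refine (norm_inner_le_norm _ _).trans ?_
      rw [hF.norm_add_real]
    have h := hg.apply_eq_apply_of_bounded
      (isBounded_iff_forall_norm_le.2 ⟨C, by rintro _ ⟨z, rfl⟩; exact hb z⟩) (s : ℂ) 0
    simpa [hgdef, hF.zero, hF.real, D.σ_apply_Ω] using h
  have hfix : D.U t (e S.Ω) = e S.Ω := by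
    refine sub_eq_zero.1 (S.cyclic.eq_zero_of_inner_left ℂ ?_)
    rintro _ ⟨b, hb, rfl⟩
    choose c hc1 hc2 _ using fun n : ℕ => D.entireDense b hb (1 / ((n : ℝ) + 1)) (by positivity)
    have l : Tendsto (fun n => c n S.Ω) atTop (𝓝 (b S.Ω)) :=
      tendsto_iff_norm_sub_tendsto_zero.2
        (squeeze_zero (fun _ => norm_nonneg _) hc2 tendsto_one_div_add_atTop_nhds_zero_nat)
    refine tendsto_nhds_unique ((tendsto_const_nhds (x := D.U t (e S.Ω) - e S.Ω)).inner (𝕜 := ℂ) l)
      (tendsto_const_nhds.congr fun n => ?_)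
    have h := hent (c n) (hc1 n) (-t)
    rw [inner_sub_left, ← h, ← D.inner_U t (e S.Ω) (D.U (-t) _), D.U_apply_neg, sub_self]
  have := S.separating (D.σ t e - e) (sub_mem (D.σ_mem' _ he) he) (by
    rw [sub_apply, D.σ_apply_Ω, hfix, sub_self])
  exact sub_eq_zero.1 this

/-- A projection commuting with the commutant and with the modular group on its range. -/
lemma fixed_proj {N : Submodule ℂ H} [N.HasOrthogonalProjection]
    (hM : ∀ y ∈ S.M.commutant, ∀ v ∈ N, y v ∈ N) (hU : ∀ t, ∀ v ∈ N, D.U t v ∈ N) :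
    N.starProjection ∈ S.M ∧ ∀ t, D.σ t N.starProjection = N.starProjection := by
  constructor
  · rw [VonNeumannAlgebra.IsStarProjection.mem_iff isStarProjection_starProjection]
    intro y hy x hx
    rw [Submodule.mem_comap, show LinearMap.range N.starProjection.toLinearMap = N from
      Submodule.range_starProjection N] at *
    exact hM y hy x hx
  · intro t
    ext v
    rw [D.σ_apply]
    refine (Submodule.eq_starProjection_of_mem_of_inner_eq_zero
      (hU t _ (Submodule.starProjection_apply_mem N _)) fun w hw => ?_).symm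
    rw [← D.U_apply_neg t v, ← map_sub, ← D.U_apply_neg t w, D.inner_U, D.U_apply_neg t v]
    exact Submodule.starProjection_inner_eq_zero _ _ (hU (-t) w hw)

/-- The hypothesis of type III₁ gives every residual in every corner equivalent to the unit. -/
theorem resid_of_isTypeIII1 (hM : IsTypeIII1 S.M) {q w : H →L[ℂ] H} (hw : w ∈ S.M)
    (hw1 : star w * w = 1) (hw2 : w * star w = q) (l0 : ℝ) : Resid (S := S) q l0 := by
  set v := star w S.Ω with hv
  have hnontriv : v ≠ 0 := by
    intro h0
    have h1 := S.separating (star w) (star_mem hw) h0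
    have h2 : (1 : H →L[ℂ] H) = 0 := by rw [← hw1, h1, zero_mul]
    exact one_ne_zero (α := ℝ) (by
      rw [← S.norm_Ω, show S.Ω = (1 : H →L[ℂ] H) S.Ω from rfl, h2]; simp)
  have hc : 0 < ‖v‖ := norm_pos_iff.2 hnontriv
  set ψ : (H →L[ℂ] H) → ℂ := fun a => ((‖v‖ ^ 2)⁻¹ : ℝ) * S.φ (w * a * star w) with hψ
  have hnormal : IsNormalState S.M ψ := by
    refine ⟨fun n => if n = 0 then ((‖v‖⁻¹ : ℝ) : ℂ) • v else 0, ?_, ?_, fun a _ => ?_⟩
    · exact summable_of_ne_finset_zero (s := {0}) fun n hn => by simp_all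
    · rw [tsum_eq_single 0 fun n hn => by simp [hn]]
      simp [norm_smul, inv_mul_cancel₀ hc.ne']
    · rw [tsum_eq_single 0 fun n hn => by simp [hn]]
      simp only [hψ, if_true, map_smul, inner_smul_left, inner_smul_right, Complex.conj_ofReal,
        ← mul_assoc, ← Complex.ofReal_mul, ← mul_inv, ← sq, Std.φ, mul_apply_eq_comp, hv]
      rw [ContinuousLinearMap.star_eq_adjoint w, ContinuousLinearMap.adjoint_inner_left]
      push_cast
      ring
  have hfaith : IsFaithful S.M ψ := by
    intro a ha h0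
    simp only [hψ, mul_eq_zero, Complex.ofReal_eq_zero, inv_eq_zero] at h0
    rcases h0 with h0 | h0
    · exact absurd h0 (by positivity)
    rw [show w * (star a * a) * star w = star (a * star w) * (a * star w) by
      simp [star_mul, mul_assoc], φ_star_mul, inner_self_eq_zero] at h0
    have h1 := S.separating _ (mul_mem ha (star_mem hw)) h0
    rw [← mul_one a, ← hw1, ← mul_assoc, h1, zero_mul]
  intro ε hε
  obtain ⟨x, hx, hx1, hxr⟩ := hM.2 ψ hnormal hfaith _ (Real.exp_pos l0) ε hε
  have hq : q * w = w := by rw [← hw2, mul_assoc, hw1, mul_one]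
  have hq' : star w * q = star w := by rw [← hw2, ← mul_assoc, hw1, one_mul]
  set x' := ((‖v‖⁻¹ : ℝ) : ℂ) • (w * x * star w) with hx'
  have hx'M : x' ∈ S.M :=
    S.M.toStarSubalgebra.smul_mem (mul_mem (mul_mem hw hx) (star_mem hw)) _
  refine ⟨x', hx'M, ?_, ?_, fun y hy hyq => ?_⟩
  · rw [hx', mul_smul_comm, smul_mul_assoc]
    congr 1
    simp only [← mul_assoc, hq]
    rw [mul_assoc _ (star w) q, hq']
  · have e : S.φ (star x' * x') = 1 := by
      rw [← hx1, hψ, hx', star_smul, smul_mul_assoc, mul_smul_comm, smul_smul]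
      simp only [Std.φ, smul_apply, inner_smul_right, star_mul, star_star, mul_assoc, Complex.star_def,
        Complex.conj_ofReal]
      rw [← mul_assoc (star w) w, hw1, one_mul]
      push_cast
      ring
    have e2 := re_φ_star_mul_self (S := S) x'
    rw [e, Complex.one_re] at e2
    nlinarith [norm_nonneg (x' S.Ω)]
  · set y0 := star w * y * w with hy0
    have hy0M : y0 ∈ S.M := mul_mem (mul_mem (star_mem hw) hy) hw
    have hback : w * y0 * star w = y := by
      conv_rhs => rw [← hyq, ← hw2]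
      simp [hy0, mul_assoc]
    have h := hxr y0 hy0M
    have e1 : ∀ a b : H →L[ℂ] H, w * (a * b) * star w = (w * a * star w) * (w * b * star w) := by
      intro a b
      simp only [mul_assoc]
      rw [← mul_assoc (star w) w, hw1, one_mul]
    have e2 : w * star y0 * star w = star y := by rw [← hback]; simp [star_mul, mul_assoc]
    simp only [hψ, e1, e2, hback] at h
    set c := ‖v‖⁻¹ with hcdef
    have hc0 : 0 < c := inv_pos.2 hc
    rw [show (‖v‖ ^ 2)⁻¹ = c * c by rw [hcdef, ← mul_inv, sq]] at h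
    simp only [hx', smul_mul_assoc, mul_smul_comm, Std.φ, smul_apply, inner_smul_right]
    simp only [Std.φ, Complex.re_ofReal_mul, ← mul_add] at h
    rw [Real.sqrt_mul (mul_self_nonneg c), Real.sqrt_mul_self hc0.le] at h
    refine le_of_mul_le_mul_left ?_ hc0
    refine le_trans (le_of_eq ?_) (h.trans_eq (by ring))
    have hn : ∀ E : ℂ, c * ‖E‖ = ‖(c : ℂ) * E‖ := fun E => by
      rw [norm_mul, Complex.norm_of_nonneg hc0.le]
    rw [hn]
    congr 1
    push_cast
    ring

end Modular

namespace Homogeneity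

/-- **The off-diagonal lemma.** -/
theorem offDiagOut {M : VonNeumannAlgebra H} {J : H →L⋆[ℂ] H} {P : Set H} (hM : IsTypeIII1 M)
    (hstd : StdForm M J P)
    (hequiv : ∀ p ∈ M, IsStarProjection p → p ≠ 0 → ∃ w ∈ M, star w * w = 1 ∧ w * star w = p) :
    OffDiagOut M J P := by
  intro h hP hsep e heM hep he0 he1 hcomm η hη
  rcases eq_or_ne h 0 with rfl | hh0
  · exact absurd (hsep e heM (mul_one _) (map_zero e)) he0
  set k := ((‖h‖⁻¹ : ℝ) : ℂ) • h with hk
  have hkP : k ∈ P := hstd.smul_mem _ (by positivity) h hP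
  have hk1 : ‖k‖ = 1 := by simp [hk, norm_smul, inv_mul_cancel₀ (norm_ne_zero_iff.2 hh0)]
  have hksep : SepCorner M 1 k := fun y hy hy1 h2 => hsep y hy hy1 <| by simpa [hk, hh0] using h2
  obtain ⟨S, D, rfl, hSΩ, -, hDJ⟩ := hstd.exists_modular hasModular hkP hk1 hksep
  have hJ := hstd.isConj
  have hesa : star e = e := hep.isSelfAdjoint.star_eq
  have hhk : h = ((‖h‖ : ℝ) : ℂ) • k := by
    rw [hk, smul_smul, ← Complex.ofReal_mul, mul_inv_cancel₀ (norm_ne_zero_iff.2 hh0),
      Complex.ofReal_one, one_smul]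
  have hek : e S.Ω = conjBy J e S.Ω := by
    rw [hSΩ, hk, map_smul, map_smul]
    simp only [rmul, hesa] at hcomm
    rw [hcomm]
  have hcent : ∀ y ∈ S.M, S.φ (e * y) = S.φ (y * e) := by
    intro y hy
    calc S.φ (e * y) = ⟪e S.Ω, y S.Ω⟫_ℂ := by rw [← Modular.φ_star_mul, hesa]
      _ = ⟪S.Ω, (conjBy J e * y) S.Ω⟫_ℂ := by
          rw [hek, mul_apply_eq_comp]
          conv_rhs => rw [← ContinuousLinearMap.adjoint_inner_left,
            ← ContinuousLinearMap.star_eq_adjoint, hJ.star_conjBy, hesa]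
      _ = S.φ (y * e) := by
          rw [← hstd.commute hy heM, Std.φ, mul_apply_eq_comp, mul_apply_eq_comp, ← hek]
  have hσe : ∀ t, D.σ t e = e := D.σ_eq_of_central heM hesa hcent
  have hσf : ∀ t, D.σ t (1 - e) = 1 - e := fun t => by rw [D.σ_sub, D.σ_one, hσe]
  have hee : e * e = e := hep.isIdempotentElem
  obtain ⟨a, haM, ha0⟩ : ∃ a ∈ S.M, (1 - e) * a * e ≠ 0 := by
    by_contra! h0
    obtain ⟨c, hc⟩ := hM.1 e heM (VonNeumannAlgebra.mem_commutant_iff.2 fun a ha => by
      have h1 : a * e = e * a * e := sub_eq_zero.1 (by rw [← h0 a ha]; noncomm_ring)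
      have h2 : star a * e = e * star a * e :=
        sub_eq_zero.1 (by rw [← h0 _ (star_mem ha)]; noncomm_ring)
      have h3 := congrArg star h2
      simp only [star_mul, star_star, hesa, ← mul_assoc] at h3
      exact h1.trans h3.symm)
    have h1 : (c * c - c) • (1 : H →L[ℂ] H) = 0 := by
      rw [sub_smul, ← hc, sub_eq_zero]
      conv_rhs => rw [← hee, hc, smul_mul_smul_comm, one_mul]
    rcases smul_eq_zero.1 h1 with h1 | h1
    · rcases mul_eq_zero.1 (show c * (c - 1) = 0 by linear_combination h1) with h2 | h2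
      · exact he0 (by rw [hc, h2, zero_smul])
      · exact he1 (by rw [hc, sub_eq_zero.1 h2, one_smul])
    · exact he0 (by rw [← mul_one e, h1, mul_zero])
  set η' := min 1 (η / 5) / 3 with hη'
  have hη'0 : 0 < η' := div_pos (lt_min one_pos (by linarith)) (by norm_num)
  set a' := (1 - e) * a * e with ha'
  have ha'M : a' ∈ S.M := mul_mem (mul_mem (sub_mem (one_mem _) heM) haM) heM
  obtain ⟨l0, hl0⟩ := D.exists_band_ne_zero hη'0 ha'M ha0
  set x0 := D.band η' l0 a' with hx0
  have hgi : Integrable fun t : ℝ => kl η' l0 t := by simpa using integrable_kl hη'0 l0 0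
  have hx0n : D.IsNarrow x0 l0 η' := D.isNarrow_band hη'0 _ ha'M
  have ha'2 : (1 - e) * a' * e = a' := by
    have hff : (1 - e) * (1 - e) = 1 - e := hep.one_sub.isIdempotentElem
    rw [ha', ← mul_assoc, ← mul_assoc, hff, mul_assoc _ e e, hee]
  have hx0c : (1 - e) * x0 * e = x0 := by
    rw [hx0, Modular.band, D.mul_smear_mul hσf hσe hgi, ha'2]
  have hx0e : x0 * e = x0 := by rw [← hx0c, mul_assoc, hee]
  have hex0 : e * x0 = 0 := by
    rw [← hx0c, ← mul_assoc, ← mul_assoc, show e * (1 - e) = 0 by rw [mul_sub, mul_one, hee, sub_self],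
      zero_mul, zero_mul]
  -- the invariant right support
  let N : Submodule ℂ H := ⨅ t : ℝ, (D.σ t x0).ker
  have hNmem : ∀ v, v ∈ N ↔ ∀ t, D.σ t x0 v = 0 := fun v => by simp [N]
  have hNc : IsClosed (N : Set H) := by
    have : (N : Set H) = ⋂ t, {v | D.σ t x0 v = 0} := by ext v; simp [hNmem]
    rw [this]
    exact isClosed_iInter fun t => isClosed_eq (ContinuousLinearMap.continuous _) continuous_const
  have : CompleteSpace N := hNc.completeSpace_coe
  obtain ⟨hpM, hpσ⟩ := D.fixed_proj (N := N) (fun y hy v hv => (hNmem _).2 fun t => by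
    rw [← (vN_mem_iff _).1 (D.σ_mem' t hx0n.mem) y hy v, (hNmem v).1 hv t, map_zero])
    (fun s v hv => (hNmem _).2 fun t => by
      have h1 : D.U (-t) (D.U s v) = D.U (-(t - s)) v := by
        rw [← D.U_add_apply]; congr 2; ring
      have h2 := congrArg (D.U s) ((hNmem v).1 hv (t - s))
      rw [map_zero, D.σ_apply, ← D.U_add_apply, add_sub_cancel] at h2
      rw [D.σ_apply, h1, h2])
  set q := 1 - N.starProjection with hq
  have hqP : IsStarProjection q := isStarProjection_starProjection.one_sub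
  have hqM : q ∈ S.M := sub_mem (one_mem _) hpM
  have hqσ : ∀ t, D.σ t q = q := fun t => by rw [hq, D.σ_sub, D.σ_one, hpσ]
  have hqsa : star q = q := hqP.isSelfAdjoint.star_eq
  have hNe : ∀ v, N.starProjection ((1 - e) v) = (1 - e) v := fun v =>
    Submodule.starProjection_eq_self_iff.2 ((hNmem _).2 fun t => by
      have : D.σ t x0 * (1 - e) = 0 := by
        have h1 : D.σ t x0 * e = D.σ t x0 := by
          conv_lhs => rw [← hσe t, ← D.σ_mul, hx0e]
        rw [mul_sub, mul_one, h1, sub_self]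
      exact congrArg (fun T : H →L[ℂ] H => T v) this)
  have hqe : q * e = q := by
    have : q * (1 - e) = 0 := ContinuousLinearMap.ext fun v => by
      rw [hq, mul_apply_eq_comp, sub_apply _ N.starProjection, one_apply_eq_self, hNe, sub_self]; rfl
    rw [mul_sub, mul_one, sub_eq_zero] at this
    exact this.symm
  have hq0 : q ≠ 0 := fun h0 => hl0 (ContinuousLinearMap.ext fun v => by
    have h1 : N.starProjection v = v := by
      have := congrArg (fun T : H →L[ℂ] H => T v) h0
      exact (sub_eq_zero.1 (by simpa [hq] using this)).symm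
    have h2 := (hNmem v).1 (Submodule.starProjection_eq_self_iff.1 h1) 0
    simpa [hx0] using h2)
  obtain ⟨w, hwM, hw1, hw2⟩ := hequiv q hqM hqP hq0
  obtain ⟨l, d, y, hl, hd, hd1, hy0, hyq, hyn⟩ := D.exists_narrow_of_resid hqσ hqsa
    (Modular.resid_of_isTypeIII1 hM hwM hw1 hw2 (-l0)) hη'0 hη'0
  have hqy : q * y = y := by rw [← hyq, ← mul_assoc, ← mul_assoc, hqP.isIdempotentElem]
  obtain ⟨t, ht⟩ : ∃ t, D.σ t x0 * y ≠ 0 := by
    by_contra! h0
    refine hy0 (ContinuousLinearMap.ext fun v => ?_)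
    have h1 : N.starProjection (y v) = y v := Submodule.starProjection_eq_self_iff.2
      ((hNmem _).2 fun t => congrArg (fun T : H →L[ℂ] H => T v) (h0 t))
    calc y v = q (y v) := (congrArg (fun T : H →L[ℂ] H => T v) hqy).symm
      _ = 0 := by rw [hq, sub_apply _ N.starProjection, one_apply_eq_self, h1, sub_self]
  set x := D.σ t x0 * y with hx
  have hye : y * e = y := by rw [← hyq, mul_assoc, hqe]
  refine ⟨x, mul_mem (D.σ_mem' _ hx0n.mem) hyn.mem, by rw [hx, mul_assoc, hye], ?_, ht, ?_⟩
  · rw [hx, ← mul_assoc, ← hσe t, ← D.σ_mul, hex0]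
    simp [Modular.σ]
  have hle : η' + d + |l0 + l - 0| ≤ 3 * η' := by
    rw [sub_zero, add_comm l0 l, ← sub_neg_eq_add l l0]; linarith
  have hn : D.IsNarrow x 0 (3 * η') := ((hx0n.σ t).mul hyn).recentre hle
  have h3 : 3 * η' = min 1 (η / 5) := by rw [hη']; ring
  have hest := hn.norm_J_star_sub_le (by linarith) (by rw [h3]; exact min_le_left _ _)
  rw [zero_div, Real.exp_zero, one_smul, mul_one, hDJ, hSΩ] at hest
  have h5 : 5 * (3 * η') ≤ η := by rw [h3]; linarith [min_le_right 1 (η / 5)]
  simp only [rmul, conjBy_apply, hstd.fixed h hP]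
  clear_value k
  rw [hhk, map_smul, map_smul, map_smulₛₗ, Complex.conj_ofReal, ← smul_sub, norm_smul, norm_smul,
    norm_sub_rev, mul_left_comm]
  exact mul_le_mul_of_nonneg_left
    (hest.trans (mul_le_mul_of_nonneg_right h5 (norm_nonneg _))) (norm_nonneg _)

end Homogeneity

end P132
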